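import Vale.Agent.P262F.RootDefs

/-! End of an episode: truncation of long deep parts -/

namespace Vale.Agent.P262F
open Finset

variable {ι : Type*} [DecidableEq ι] {d : ℕ} {a : Fin d → ℝ} {J : ℕ → ℕ}

/-- nothing changes on rich coordinates -/
lemma trunc_eq_rich {e : ℕ} (v : ι → Fin d → ℝ) (i : ι) {k : Fin d} (hk : (J e : ℝ) < a k) :
    trunc a J e v i k = v i k := by
  unfold trunc
  rw [if_neg]
  rintro ⟨h, _⟩
  linarith

lemma trunc_sq_le {e : ℕ} (v : ι → Fin d → ℝ) (i : ι) (k : Fin d) :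
    trunc a J e v i k ^ 2 ≤ v i k ^ 2 := by
  unfold trunc
  split_ifs
  · simpa using sq_nonneg (v i k)
  · exact le_rfl

/-- weights at the end of the episode -/
lemma al_end (hJ : StrictMono J) {e : ℕ} {k : Fin d} (hk : a k ≤ (J e : ℝ)) :
    al a J e (J e) k = be ^ (e - gi a J k) := by
  unfold al
  split_ifs with h1 h2
  · rfl
  · exact absurd h2 (not_lt.2 hk)
  · have : gi a J k ≤ e := (gi_le_iff hJ k e).2 hk
    have h3 : e - gi a J k = 0 := by omega
    rw [h3, pow_zero]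

lemma ww_zero : ww 0 = 28000 ^ 2 := by
  unfold ww
  norm_num

lemma En_end {e : ℕ} {Θ : ℝ} {v : ι → Fin d → ℝ}
    {A : Finset ι} {xl : Fin d → ℝ} {b : ℕ → ℝ} (h : Hst a J e (J e) Θ v A xl b) :
    EE v (deep a (J e)) (al a J e (J e)) A ≤ 28000 ^ 2 := by
  have h1 := h.En
  rw [Nat.sub_self, ww_zero, sub_self, zero_div, Real.rpow_zero, mul_one] at h1
  exact h1

/-- the part removed by the truncation -/
lemma diff_norm (hJ : StrictMono J) {e : ℕ} (v : ι → Fin d → ℝ) (i : ι) {c : ℕ} (hc : c ≤ e) :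
    nrm (gen a J c) (fun k => v i k - trunc a J e v i k) ≤
      (25 / 26) ^ (e - c) * ∑ k ∈ deep a (J e), (al a J e (J e) k * v i k) ^ 2 := by
  set s := ∑ k ∈ deep a (J e), (al a J e (J e) k * v i k) ^ 2 with hs
  have hs0 : 0 ≤ s := Finset.sum_nonneg fun _ _ => sq_nonneg _
  have hgd : ∀ k ∈ gen a J c, a k ≤ (J e : ℝ) := by
    intro k hk
    rw [← gi_le_iff hJ, mem_gen.1 hk]; exact hc
  by_cases hh : 1 < s
  · have e1 : ∀ k ∈ gen a J c, v i k - trunc a J e v i k = v i k := by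
      intro k hk
      have : trunc a J e v i k = 0 := by
        unfold trunc
        rw [if_pos ⟨hgd k hk, hh⟩]
      rw [this, sub_zero]
    have e2 : nrm (gen a J c) (fun k => v i k - trunc a J e v i k) = nrm (gen a J c) (v i) := by
      unfold nrm
      congr 1
      exact Finset.sum_congr rfl fun k hk => by beta_reduce; rw [e1 k hk]
    rw [e2]
    -- be^(e-c) * nrm ≤ √s ≤ s
    have h1 : (be ^ (e - c) * nrm (gen a J c) (v i)) ^ 2 ≤ s := by
      unfold nrm
      rw [mul_pow, Real.sq_sqrt (Finset.sum_nonneg fun _ _ => sq_nonneg _), Finset.mul_sum, hs]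
      refine le_trans (le_of_eq (Finset.sum_congr rfl fun k hk => ?_))
        (Finset.sum_le_sum_of_subset_of_nonneg (t := deep a (J e)) (fun k hk => mem_deep.2 (hgd k hk))
          fun _ _ _ => sq_nonneg _)
      rw [al_end hJ (hgd k hk), mem_gen.1 hk, mul_pow]
    have h2 : be ^ (e - c) * nrm (gen a J c) (v i) ≤ s := by
      by_contra hcon
      rw [not_le] at hcon
      have hpos : 0 ≤ be ^ (e - c) * nrm (gen a J c) (v i) :=
        mul_nonneg (pow_pos be_pos _).le (nrm_nonneg _ _)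
      nlinarith
    have h3 : (25 / 26 : ℝ) ^ (e - c) * be ^ (e - c) = 1 := by
      rw [← mul_pow]; norm_num [be]
    have h4 : (0 : ℝ) < (25 / 26) ^ (e - c) := by positivity
    calc nrm (gen a J c) (v i) = (25 / 26 : ℝ) ^ (e - c) * (be ^ (e - c) * nrm (gen a J c) (v i)) := by
          rw [← mul_assoc, h3, one_mul]
      _ ≤ (25 / 26) ^ (e - c) * s := mul_le_mul_of_nonneg_left h2 h4.le
  · have e1 : ∀ k, v i k - trunc a J e v i k = 0 := by
      intro k
      unfold trunc
      rw [if_neg, sub_self]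
      rintro ⟨_, h2⟩
      exact hh h2
    have e2 : nrm (gen a J c) (fun k => v i k - trunc a J e v i k) = 0 := by
      unfold nrm
      simp [e1]
    rw [e2]
    positivity

lemma nrm_sum_le (S : Finset (Fin d)) (T : Finset ι) (f : ι → Fin d → ℝ) :
    nrm S (fun k => ∑ i ∈ T, f i k) ≤ ∑ i ∈ T, nrm S (f i) := by
  induction T using Finset.induction_on with
  | empty => simp [nrm]
  | insert j T hj ih =>
    rw [Finset.sum_insert hj]
    have e : (fun k => ∑ i ∈ insert j T, f i k) = fun k => f j k + ∑ i ∈ T, f i k := by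
      funext k
      rw [Finset.sum_insert hj]
    rw [e]
    exact (nrm_add_le S (f j) (fun k => ∑ i ∈ T, f i k)).trans (by linarith)

lemma diff_sum (hJ : StrictMono J) {e : ℕ} {Θ : ℝ} {v : ι → Fin d → ℝ}
    {A : Finset ι} {xl : Fin d → ℝ} {b : ℕ → ℝ} (h : Hst a J e (J e) Θ v A xl b) (S : Finset ι)
    (hS : S ⊆ A) (c : ℕ) (hc : c ≤ e) :
    nrm (gen a J c) (fun k => ∑ i ∈ S, (v i k - trunc a J e v i k)) ≤
      28000 ^ 2 * (25 / 26) ^ (e - c) := by
  have h4 : (0 : ℝ) < (25 / 26) ^ (e - c) := by positivity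
  calc nrm (gen a J c) (fun k => ∑ i ∈ S, (v i k - trunc a J e v i k))
      ≤ ∑ i ∈ S, nrm (gen a J c) (fun k => v i k - trunc a J e v i k) :=
        nrm_sum_le (gen a J c) S (fun i k => v i k - trunc a J e v i k)
    _ ≤ ∑ i ∈ S, (25 / 26) ^ (e - c) * ∑ k ∈ deep a (J e), (al a J e (J e) k * v i k) ^ 2 :=
        Finset.sum_le_sum fun i _ => diff_norm hJ v i hc
    _ ≤ ∑ i ∈ A, (25 / 26) ^ (e - c) * ∑ k ∈ deep a (J e), (al a J e (J e) k * v i k) ^ 2 :=
        Finset.sum_le_sum_of_subset_of_nonneg hS fun i _ _ =>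
          mul_nonneg h4.le (Finset.sum_nonneg fun _ _ => sq_nonneg _)
    _ = (25 / 26) ^ (e - c) * EE v (deep a (J e)) (al a J e (J e)) A := by
        rw [EE, Finset.mul_sum]
    _ ≤ (25 / 26) ^ (e - c) * 28000 ^ 2 := mul_le_mul_of_nonneg_left (En_end h) h4.le
    _ = 28000 ^ 2 * (25 / 26) ^ (e - c) := by ring

lemma nrm_neg (S : Finset (Fin d)) (x : Fin d → ℝ) : nrm S (fun k => - x k) = nrm S x := by
  unfold nrm
  simp

theorem trunc_err (hJ : StrictMono J) {e : ℕ} {Θ : ℝ} {v : ι → Fin d → ℝ}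
    {A : Finset ι} {xl : Fin d → ℝ} {b : ℕ → ℝ} (h : Hst a J e (J e) Θ v A xl b) (S : Finset ι)
    (hS : S ⊆ A) (c : ℕ) (hc : c ≤ e) (x : Fin d → ℝ) :
    nrm (gen a J c) (fun k => x k + ∑ i ∈ S, v i k) ≤
      nrm (gen a J c) (fun k => x k + ∑ i ∈ S, trunc a J e v i k) +
        28000 ^ 2 * (25 / 26) ^ (e - c) := by
  have e1 : (fun k => x k + ∑ i ∈ S, v i k) = fun k => (x k + ∑ i ∈ S, trunc a J e v i k)
      + ∑ i ∈ S, (v i k - trunc a J e v i k) := by
    funext k
    rw [Finset.sum_sub_distrib]; ring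
  rw [e1]
  refine (nrm_add_le _ (fun k => x k + ∑ i ∈ S, trunc a J e v i k)
    (fun k => ∑ i ∈ S, (v i k - trunc a J e v i k))).trans ?_
  have := diff_sum hJ h S hS c hc
  linarith

lemma trunc_err' (hJ : StrictMono J) {e : ℕ} {Θ : ℝ} {v : ι → Fin d → ℝ}
    {A : Finset ι} {xl : Fin d → ℝ} {b : ℕ → ℝ} (h : Hst a J e (J e) Θ v A xl b) (S : Finset ι)
    (hS : S ⊆ A) (c : ℕ) (hc : c ≤ e) (x : Fin d → ℝ) :
    nrm (gen a J c) (fun k => x k + ∑ i ∈ S, trunc a J e v i k) ≤
      nrm (gen a J c) (fun k => x k + ∑ i ∈ S, v i k) +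
        28000 ^ 2 * (25 / 26) ^ (e - c) := by
  have e1 : (fun k => x k + ∑ i ∈ S, trunc a J e v i k) = fun k => (x k + ∑ i ∈ S, v i k)
      + (- ∑ i ∈ S, (v i k - trunc a J e v i k)) := by
    funext k
    rw [Finset.sum_sub_distrib]; ring
  rw [e1]
  refine (nrm_add_le _ (fun k => x k + ∑ i ∈ S, v i k)
    (fun k => - ∑ i ∈ S, (v i k - trunc a J e v i k))).trans ?_
  rw [nrm_neg]
  have := diff_sum hJ h S hS c hc
  linarith

theorem trunc_rich (hJ : StrictMono J) {e : ℕ} {v : ι → Fin d → ℝ} (S : Finset ι)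
    (c : ℕ) (hc : e < c) (x : Fin d → ℝ) :
    nrm (gen a J c) (fun k => x k + ∑ i ∈ S, v i k) =
      nrm (gen a J c) (fun k => x k + ∑ i ∈ S, trunc a J e v i k) := by
  unfold nrm
  congr 1
  refine Finset.sum_congr rfl fun k hk => ?_
  have h1 : (J e : ℝ) < a k := by
    rw [← lt_gi_iff hJ, mem_gen.1 hk]; exact hc
  have h2 : ∑ i ∈ S, v i k = ∑ i ∈ S, trunc a J e v i k :=
    Finset.sum_congr rfl fun i _ => (trunc_eq_rich v i h1).symm
  beta_reduce
  rw [h2]

lemma Rs_succ (hJ : StrictMono J) (e : ℕ) : Rs a J (e + 1) = rich a (J e) := by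
  rw [rich_eq hJ]; rfl

lemma Old_succ (hJ : StrictMono J) (e : ℕ) : Old a J (e + 1) = deep a (J e) := by
  rw [deep_eq hJ]
  unfold Old
  ext k
  simp [Nat.lt_succ_iff, Nat.lt_add_one_iff]

/-- energies of the truncated vectors -/
lemma trunc_ent (hJ : StrictMono J) {e : ℕ} (v : ι → Fin d → ℝ) (i : ι) :
    ∑ k ∈ deep a (J e), (al a J e (J e) k * trunc a J e v i k) ^ 2 ≤ 1 := by
  by_cases hh : 1 < ∑ l ∈ deep a (J e), (al a J e (J e) l * v i l) ^ 2
  · have : ∑ k ∈ deep a (J e), (al a J e (J e) k * trunc a J e v i k) ^ 2 = 0 := by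
      refine Finset.sum_eq_zero fun k hk => ?_
      have : trunc a J e v i k = 0 := by
        unfold trunc
        rw [if_pos ⟨mem_deep.1 hk, hh⟩]
      rw [this]; simp
    rw [this]; norm_num
  · have : ∀ k, trunc a J e v i k = v i k := by
      intro k
      unfold trunc
      rw [if_neg]
      rintro ⟨_, h2⟩
      exact hh h2
    simp_rw [this]
    exact not_lt.1 hh

/-- end of episode `e` -/
theorem Inv_of_Hst (hJ : StrictMono J) {e : ℕ} {Θ : ℝ} {v : ι → Fin d → ℝ}
    {A : Finset ι} {xl : Fin d → ℝ} {b : ℕ → ℝ} (h : Hst a J e (J e) Θ v A xl b) :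
    Inv a J (e + 1) Θ (trunc a J e v) A xl (fun c => b c + 28000 ^ 2 * (25 / 26) ^ (e - c)) := by
  have hrichv : ∀ k ∈ rich a (J e), ∀ i, trunc a J e v i k = v i k := fun k hk i =>
    trunc_eq_rich v i (mem_rich.1 hk)
  have hMM : ∀ k ∈ rich a (J e), ∀ l ∈ rich a (J e), MM (trunc a J e v) A k l = MM v A k l := by
    intro k hk l hl
    unfold MM
    exact Finset.sum_congr rfl fun i _ => by rw [hrichv k hk, hrichv l hl]
  have hmu1 : ∀ k ∈ rich a (J e), 1 ≤ mu a (J e) k := by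
    intro k hk
    have := mem_rich.1 hk
    unfold mu
    exact Real.one_le_rpow (by norm_num) (by linarith)
  have hbe : ∀ k ∈ deep a (J e), (be : ℝ) ^ (e + 1 - gi a J k) = be * al a J e (J e) k := by
    intro k hk
    rw [al_end hJ (mem_deep.1 hk)]
    have h1 : gi a J k ≤ e := (gi_le_iff hJ k e).2 (mem_deep.1 hk)
    rw [Nat.sub_add_comm h1, pow_succ]; ring
  have hlt : (univ.filter (fun k => gi a J k < e + 1)) = deep a (J e) := Old_succ hJ e
  refine
    { unit := ?_
      diag := ?_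
      Q := ?_
      ent := ?_
      Eold := ?_
      ph := ?_
      bl := ?_
      br := ?_ }
  · intro i hi
    exact (Finset.sum_le_sum fun k _ => trunc_sq_le v i k).trans (h.unit i hi)
  · intro k hk
    rw [Rs_succ hJ] at hk
    rw [hMM k hk k hk]
    have hq : QQ a v (J e) (rich a (J e)) A ≤ (1 / 2 : ℝ) ^ 2 := h.Q.trans (by norm_num)
    have := MM_diag_le (a := a) (L := J e) (by norm_num) hq hk (hmu1 k hk)
    refine this.trans (le_of_eq ?_)
    show (1 + 1 / 2) * mu a (J e) k = 3 / 2 * mu a (J e) k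
    ring
  · show QQ a (trunc a J e v) (J e) (rich a (J (e + 1))) A ≤ 1 / 4
    refine le_trans ?_ h.Q
    have hsub : rich a (J (e + 1)) ⊆ rich a (J e) := by
      intro k hk
      rw [mem_rich] at hk ⊢
      have : (J e : ℝ) ≤ J (e + 1) := by exact_mod_cast (hJ (Nat.lt_succ_self e)).le
      linarith
    unfold QQ
    have h0 : ∀ k l, 0 ≤ (MM v A k l - if k = l then mu a (J e) k else 0) ^ 2 *
        (mu a (J e) k * mu a (J e) l) ^ (-(7 / 8) : ℝ) := fun k l => mul_nonneg (sq_nonneg _)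
      (Real.rpow_nonneg (mul_nonneg (by unfold mu; positivity) (by unfold mu; positivity)) _)
    calc ∑ k ∈ rich a (J (e + 1)), ∑ l ∈ rich a (J (e + 1)),
          (MM (trunc a J e v) A k l - if k = l then mu a (J e) k else 0) ^ 2 *
            (mu a (J e) k * mu a (J e) l) ^ (-(7 / 8) : ℝ)
        = ∑ k ∈ rich a (J (e + 1)), ∑ l ∈ rich a (J (e + 1)),
          (MM v A k l - if k = l then mu a (J e) k else 0) ^ 2 *
            (mu a (J e) k * mu a (J e) l) ^ (-(7 / 8) : ℝ) :=
          Finset.sum_congr rfl fun k hk => Finset.sum_congr rfl fun l hl => by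
            rw [hMM k (hsub hk) l (hsub hl)]
      _ ≤ ∑ k ∈ rich a (J (e + 1)), ∑ l ∈ rich a (J e),
          (MM v A k l - if k = l then mu a (J e) k else 0) ^ 2 *
            (mu a (J e) k * mu a (J e) l) ^ (-(7 / 8) : ℝ) :=
          Finset.sum_le_sum fun k _ =>
            Finset.sum_le_sum_of_subset_of_nonneg hsub fun l _ _ => h0 k l
      _ ≤ ∑ k ∈ rich a (J e), ∑ l ∈ rich a (J e),
          (MM v A k l - if k = l then mu a (J e) k else 0) ^ 2 *
            (mu a (J e) k * mu a (J e) l) ^ (-(7 / 8) : ℝ) :=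
          Finset.sum_le_sum_of_subset_of_nonneg hsub fun k _ _ =>
            Finset.sum_nonneg fun l _ => h0 k l
  · intro i _
    rw [hlt]
    have h1 := trunc_ent hJ (a := a) (e := e) v i
    have e1 : ∑ k ∈ deep a (J e), (be ^ (e + 1 - gi a J k) * trunc a J e v i k) ^ 2
        = be ^ 2 * ∑ k ∈ deep a (J e), (al a J e (J e) k * trunc a J e v i k) ^ 2 := by
      rw [Finset.mul_sum]
      exact Finset.sum_congr rfl fun k hk => by rw [hbe k hk]; ring
    rw [e1]
    have h2 : (0 : ℝ) < be ^ 2 := pow_pos be_pos 2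
    nlinarith
  · rw [Old_succ hJ]
    have e1 : EE (trunc a J e v) (deep a (J e)) (fun k => be ^ (e + 1 - gi a J k)) A
        = be ^ 2 * EE (trunc a J e v) (deep a (J e)) (al a J e (J e)) A := by
      unfold EE
      rw [Finset.mul_sum]
      refine Finset.sum_congr rfl fun i _ => ?_
      rw [Finset.mul_sum]
      exact Finset.sum_congr rfl fun k hk => by beta_reduce; rw [hbe k hk]; ring
    have h2 : EE (trunc a J e v) (deep a (J e)) (al a J e (J e)) A
        ≤ EE v (deep a (J e)) (al a J e (J e)) A := by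
      unfold EE
      refine Finset.sum_le_sum fun i _ => Finset.sum_le_sum fun k _ => ?_
      rw [mul_pow, mul_pow]
      exact mul_le_mul_of_nonneg_left (trunc_sq_le v i k) (sq_nonneg _)
    rw [e1]
    exact mul_le_mul_of_nonneg_left (h2.trans (En_end h)) (sq_nonneg _)
  · show PH a (Rs a J (e + 1)) (J e) xl (fun k => xl k + ∑ i ∈ A, trunc a J e v i k) Θ
    rw [Rs_succ hJ]
    intro θ1 θ2
    refine le_trans (le_of_eq ?_) (h.ph θ1 θ2)
    refine Finset.sum_congr rfl fun k hk => ?_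
    have : ∑ i ∈ A, trunc a J e v i k = ∑ i ∈ A, v i k :=
      Finset.sum_congr rfl fun i _ => hrichv k hk i
    beta_reduce
    rw [this]
  · intro c hc
    have h1 := h.bl c (by omega)
    have h4 : (0 : ℝ) ≤ 28000 ^ 2 * (25 / 26) ^ (e - c) := by positivity
    show _ ≤ b c + 28000 ^ 2 * (25 / 26) ^ (e - c)
    linarith
  · intro c hc
    have h1 := h.br c (by omega)
    have h2 := trunc_err' hJ h A (Finset.Subset.refl A) c (by omega) xl
    show _ ≤ b c + 28000 ^ 2 * (25 / 26) ^ (e - c)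
    linarith

end Vale.Agent.P262F
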