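import Vale.Agent.P262F.RootA
import Vale.Agent.P262F.RootB

/-! States at the start and at the end of an episode -/
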