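import Vale.Agent.P262F.Episode
import Vale.Agent.P262F.Root

/-! The recursion over the episodes -/

namespace Vale.Agent.P262F
open Finset

variable {ι : Type*} [DecidableEq ι] {d : ℕ} {a : Fin d → ℝ} {J : ℕ → ℕ}

/-- accumulated costs of the episodes `e, …, E-1` for generation `c` -/
noncomputable def kap (a : Fin d → ℝ) (J : ℕ → ℕ) (E c e : ℕ) : ℝ :=
  ∑ e' ∈ Ico e E, (cost a J c e' + 2 * 28000 ^ 2 * (25 / 26) ^ (e' - c)) + 30000

/-- the goal at the start of episode `e` -/
def Goal (a : Fin d → ℝ) (J : ℕ → ℕ) (E e : ℕ) (Θ : ℝ) (b : ℕ → ℝ) (F : Fin d → ℝ) : Prop :=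
  (∀ c < e, nrm (gen a J c) F ≤ b c + kap a J E c e) ∧
  ∑ c ∈ Ico e E, (max 0 (nrm (gen a J c) F - kap a J E c c)) ^ 2 ≤ Θ + 2 * C1 * (Rs a J e).card

lemma kap_succ {E c e : ℕ} (he : e < E) : kap a J E c e =
    cost a J c e + 2 * 28000 ^ 2 * (25 / 26) ^ (e - c) + kap a J E c (e + 1) := by
  unfold kap
  rw [Finset.sum_eq_sum_Ico_succ_bot he]
  ring

lemma Rs_card (e : ℕ) : (Rs a J e).card = (gen a J e).card + (Rs a J (e + 1)).card := by
  rw [← Finset.card_union_of_disjoint]
  · congr 1
    ext k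
    simp only [Rs, gen, Finset.mem_filter, Finset.mem_univ, true_and, Finset.mem_union]
    omega
  · rw [Finset.disjoint_left]
    intro k hk hk'
    simp only [Rs, gen, Finset.mem_filter, Finset.mem_univ, true_and] at hk hk'
    omega

theorem claim (hJ : StrictMono J) (hg : ∀ e, good a (J e)) (ha : ∀ k, 0 ≤ a k) {E : ℕ}
    (hE : ∀ k, gi a J k < E) (n : ℕ) : ∀ e, e + n = E →
    ∀ (Θ : ℝ) (v : ι → Fin d → ℝ) (A : Finset ι) (xl : Fin d → ℝ) (b : ℕ → ℝ),
      Inv a J e Θ v A xl b → Ord v A xl (Goal a J E e Θ b) := by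
  induction n with
  | zero =>
    intro e he Θ v A xl b h
    obtain rfl : e = E := by omega
    have hRs : Rs a J e = ∅ := by
      ext k
      have := hE k
      simp only [Rs, Finset.mem_filter, Finset.mem_univ, true_and, Finset.notMem_empty, iff_false]
      omega
    have hΘ : 0 ≤ Θ := by
      have := h.ph 0 0
      rw [hRs] at this
      simpa [cnt] using this
    refine (greedy_ord v A xl (Old a J e) (fun k => be ^ (e - gi a J k))).mono ?_
    rintro F ⟨s, ⟨hs0, hs1⟩, hF⟩
    refine ⟨fun c hc => ?_, ?_⟩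
    · have h1 : nrm (gen a J c) (fun k => xl k + s * ∑ i ∈ A, v i k) ≤ b c :=
        nrm_chord _ _ _ hs0 hs1 (h.bl c hc) (h.br c hc)
      have h2 : nrm (gen a J c) (fun k => F k - (xl k + s * ∑ i ∈ A, v i k)) ≤ 30000 := by
        unfold nrm
        rw [Real.sqrt_le_left (by norm_num)]
        have h3 : (be ^ (e - c)) ^ 2 * ∑ k ∈ gen a J c, (F k - (xl k + s * ∑ i ∈ A, v i k)) ^ 2 ≤
            be ^ 2 * 28000 ^ 2 := by
          refine le_trans ?_ (hF.trans h.Eold)
          rw [Finset.mul_sum]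
          have h4 : gen a J c ⊆ Old a J e := by
            intro k hk
            rw [mem_gen] at hk
            simp only [Old, Finset.mem_filter, Finset.mem_univ, true_and]
            omega
          refine le_trans (le_of_eq (Finset.sum_congr rfl fun k hk => ?_))
            (Finset.sum_le_sum_of_subset_of_nonneg h4 fun _ _ _ => sq_nonneg _)
          rw [mem_gen] at hk
          rw [hk, mul_pow]
        have h5 : (be : ℝ) ^ 2 ≤ (be ^ (e - c)) ^ 2 := by
          have : (be : ℝ) ^ 1 ≤ be ^ (e - c) := pow_le_pow_right₀ (by norm_num [be]) (by omega)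
          rw [pow_one] at this
          exact pow_le_pow_left₀ be_pos.le this 2
        have h6 : 0 ≤ ∑ k ∈ gen a J c, (F k - (xl k + s * ∑ i ∈ A, v i k)) ^ 2 :=
          Finset.sum_nonneg fun _ _ => sq_nonneg _
        have h7 : be ^ 2 * ∑ k ∈ gen a J c, (F k - (xl k + s * ∑ i ∈ A, v i k)) ^ 2 ≤
            be ^ 2 * 28000 ^ 2 := le_trans (mul_le_mul_of_nonneg_right h5 h6) h3
        have h8 : (0 : ℝ) < be ^ 2 := pow_pos be_pos 2
        have h9 := le_of_mul_le_mul_left h7 h8
        linarith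
      have h3 := nrm_add_le (gen a J c) (fun k => xl k + s * ∑ i ∈ A, v i k)
        (fun k => F k - (xl k + s * ∑ i ∈ A, v i k))
      have e1 : (fun k => (xl k + s * ∑ i ∈ A, v i k) + (F k - (xl k + s * ∑ i ∈ A, v i k))) = F := by
        ext k; ring
      rw [e1] at h3
      have h4 : kap a J e c e = 30000 := by simp [kap]
      rw [h4]
      linarith
    · rw [Finset.Ico_self, Finset.sum_empty, hRs]
      simpa using hΘ
  | succ n ih =>
    intro e he Θ v A xl b h
    have heE : e < E := by omega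
    obtain ⟨Y, hY0, hR⟩ := leave hJ ha h
    refine episode hJ (hg e) hR ?_
    intro A' xl' hH
    have hI := Inv_of_Hst hJ hH
    have hO := ih (e + 1) (by omega) _ _ _ _ _ hI
    refine hO.change fun S hS hGoal => ?_
    obtain ⟨hG1, hG2⟩ := hGoal
    have hold : ∀ c ≤ e, nrm (gen a J c) (fun k => xl' k + ∑ i ∈ S, v i k) ≤
        (if c = e then √Y else b c) + kap a J E c e := by
      intro c hc
      have h1 := trunc_err hJ hH S hS c hc xl'
      have h2 := hG1 c (by omega)
      rw [kap_succ heE]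
      linarith
    refine ⟨fun c hc => ?_, ?_⟩
    · have := hold c hc.le
      rwa [if_neg (by omega)] at this
    · rw [Finset.sum_eq_sum_Ico_succ_bot heE]
      have h1 : (max 0 (nrm (gen a J e) (fun k => xl' k + ∑ i ∈ S, v i k) - kap a J E e e)) ^ 2
          ≤ Y := by
        have h2 := hold e le_rfl
        rw [if_pos rfl] at h2
        have h3 : max 0 (nrm (gen a J e) (fun k => xl' k + ∑ i ∈ S, v i k) - kap a J E e e) ≤ √Y :=
          max_le (Real.sqrt_nonneg _) (by linarith)
        calc _ ≤ (√Y) ^ 2 := pow_le_pow_left₀ (le_max_left _ _) h3 2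
          _ = Y := Real.sq_sqrt hY0
      have h4 : ∑ c ∈ Ico (e + 1) E,
          (max 0 (nrm (gen a J c) (fun k => xl' k + ∑ i ∈ S, v i k) - kap a J E c c)) ^ 2 =
          ∑ c ∈ Ico (e + 1) E,
          (max 0 (nrm (gen a J c) (fun k => xl' k + ∑ i ∈ S, trunc a J e v i k) -
            kap a J E c c)) ^ 2 := by
        refine Finset.sum_congr rfl fun c hc => ?_
        rw [Finset.mem_Ico] at hc
        rw [trunc_rich hJ (e := e) S c (by omega) xl']
      rw [h4, Rs_card]
      push_cast
      linarith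

end Vale.Agent.P262F
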