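import Vale.Agent.P262F.Claim

/-! The main theorem in coordinates -/

namespace Vale.Agent.P262F
open Finset

variable {d : ℕ} {a : Fin d → ℝ} {J : ℕ → ℕ}

/-- the eigenvalues -/
noncomputable def lam {d N : ℕ} (v : Fin N → Fin d → ℝ) (k : Fin d) : ℝ := ∑ i, v i k ^ 2

/-- logarithms of the eigenvalues, cut at `0` -/
noncomputable def aa {d N : ℕ} (v : Fin N → Fin d → ℝ) (k : Fin d) : ℝ :=
  if 1 ≤ lam v k then Real.logb 2 (lam v k) else 0

lemma aa_nonneg {N : ℕ} (v : Fin N → Fin d → ℝ) (k : Fin d) : 0 ≤ aa v k := by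
  unfold aa
  split_ifs with h
  · exact Real.logb_nonneg (by norm_num) h
  · exact le_rfl

lemma mu_zero_ge {N : ℕ} (v : Fin N → Fin d → ℝ) (k : Fin d) : lam v k ≤ mu (aa v) 0 k := by
  unfold mu aa
  split_ifs with h
  · rw [Nat.cast_zero, sub_zero, Real.rpow_logb (by norm_num) (by norm_num) (by linarith)]
  · simp only [Nat.cast_zero, sub_zero, Real.rpow_zero]
    exact (not_le.mp h).le

lemma mu_zero_eq {N : ℕ} (v : Fin N → Fin d → ℝ) (k : Fin d) (hk : 0 < aa v k) :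
    mu (aa v) 0 k = lam v k := by
  unfold aa at hk
  unfold mu aa
  split_ifs with h
  · rw [Nat.cast_zero, sub_zero, Real.rpow_logb (by norm_num) (by norm_num) (by linarith)]
  · rw [if_neg h] at hk
    exact absurd hk (lt_irrefl _)

lemma inv_zero {N : ℕ} (v : Fin N → Fin d → ℝ) (J : ℕ → ℕ) (b : ℕ → ℝ)
    (h1 : ∀ i, ∑ k, v i k ^ 2 ≤ 1) (h2 : ∀ k, ∑ i, v i k = 0)
    (h3 : ∀ k l, k ≠ l → ∑ i, v i k * v i l = 0) :
    Inv (aa v) J 0 0 v univ (fun _ => 0) b where
  unit := fun i _ => h1 i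
  diag := by
    intro k _
    have h4 : MM v univ k k = lam v k := by
      unfold MM lam
      exact Finset.sum_congr rfl fun _ _ => by ring
    have h5 := mu_zero_ge v k
    have h6 : 0 ≤ lam v k := Finset.sum_nonneg fun _ _ => sq_nonneg _
    rw [h4]
    show lam v k ≤ 3 / 2 * mu (aa v) 0 k
    linarith
  Q := by
    have : QQ (aa v) v (lv0 J 0) (rich (aa v) (J 0)) univ = 0 := by
      unfold QQ
      refine Finset.sum_eq_zero fun k hk => Finset.sum_eq_zero fun l _ => ?_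
      by_cases hkl : k = l
      · subst hkl
        rw [mem_rich] at hk
        have hk0 : 0 < aa v k := lt_of_le_of_lt (Nat.cast_nonneg _) hk
        have h4 : MM v univ k k = mu (aa v) (lv0 J 0) k := by
          show MM v univ k k = mu (aa v) 0 k
          rw [mu_zero_eq v k hk0]
          unfold MM lam
          exact Finset.sum_congr rfl fun _ _ => by ring
        rw [if_pos rfl, h4]
        simp
      · have h4 : MM v univ k l = 0 := h3 k l hkl
        rw [if_neg hkl, h4]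
        simp
    rw [this]
    norm_num
  ent := by
    intro i _
    have : (univ.filter (fun k => gi (aa v) J k < 0)) = ∅ := by
      ext k; simp
    rw [this, Finset.sum_empty]
    positivity
  Eold := by
    have : Old (aa v) J 0 = ∅ := by
      ext k; simp [Old]
    unfold EE
    rw [this]
    simp only [Finset.sum_empty, Finset.sum_const_zero]
    positivity
  ph := by
    intro θ1 θ2
    have h4 : ∀ k, (0 : ℝ) + ∑ i, v i k = 0 := fun k => by rw [h2 k, zero_add]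
    have hC : (0 : ℝ) ≤ C1 := by norm_num [C1]
    refine le_trans (le_of_eq (Finset.sum_eq_zero fun k _ => ?_)) ?_
    · simp only [h4]
      simp
    · positivity
  bl := fun c hc => absurd hc (Nat.not_lt_zero c)
  br := fun c hc => absurd hc (Nat.not_lt_zero c)

lemma sum_gen {E : ℕ} (hE : ∀ k, gi a J k < E) (F : Fin d → ℝ) :
    ∑ k, F k ^ 2 = ∑ c ∈ (range E).filter (fun c => (gen a J c).card ≠ 0), nrm (gen a J c) F ^ 2 := by
  have h1 : ∑ k, F k ^ 2 = ∑ c ∈ range E, ∑ k ∈ gen a J c, F k ^ 2 := by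
    rw [← Finset.sum_fiberwise_of_maps_to (s := univ) (t := range E) (g := gi a J)
      (fun k _ => Finset.mem_range.mpr (hE k))]
    rfl
  rw [h1, Finset.sum_filter]
  refine Finset.sum_congr rfl fun c _ => ?_
  split_ifs with h
  · unfold nrm
    rw [Real.sq_sqrt (Finset.sum_nonneg fun _ _ => sq_nonneg _)]
  · rw [not_not, Finset.card_eq_zero] at h
    rw [h, Finset.sum_empty]

lemma sum_card_gen {E : ℕ} (hE : ∀ k, gi a J k < E) :
    ∑ c ∈ range E, (gen a J c).card = d := by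
  have h := Finset.card_eq_sum_card_fiberwise (s := (univ : Finset (Fin d))) (t := range E)
    (f := gi a J) (fun k _ => Finset.mem_coe.mpr (Finset.mem_range.mpr (hE k)))
  rw [Finset.card_univ, Fintype.card_fin] at h
  exact h.symm

/-- lengths of the gaps -/
noncomputable def bbf (J : ℕ → ℕ) (e : ℕ) : ℝ :=
  if e = 0 then (J 0 : ℝ) else (J e : ℝ) - lv0 J e - 1

lemma bbf_nonneg (hJ : StrictMono J) (e : ℕ) : 0 ≤ bbf J e := by
  unfold bbf
  split_ifs with h
  · positivity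
  · obtain ⟨e', rfl⟩ := Nat.exists_eq_succ_of_ne_zero h
    have : J e' + 1 ≤ J (e' + 1) := hJ (Nat.lt_succ_self e')
    have h2 : (J e' : ℝ) + 1 ≤ (J (e' + 1) : ℝ) := by exact_mod_cast this
    show 0 ≤ (J (e' + 1) : ℝ) - (J e' : ℝ) - 1
    linarith

lemma sum_bbf (E : ℕ) : ∑ e ∈ range (E + 1), bbf J e = (J E : ℝ) - E := by
  induction E with
  | zero => simp [bbf]
  | succ E ih =>
    rw [Finset.sum_range_succ, ih]
    have : bbf J (E + 1) = (J (E + 1) : ℝ) - (J E : ℝ) - 1 := by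
      simp [bbf, lv0]
    rw [this]
    push_cast
    ring

/-- the constant in front of the costs -/
noncomputable def Cb : ℝ := 10 ^ 13 + 2 * 28000 ^ 2

lemma kap_self (hJ : StrictMono J) {E c : ℕ} (hc : c < E) : kap a J E c c ≤
    Cb * √((gen a J c).card : ℝ) +
      Cb * ∑ e ∈ Ico c E, √(((J e - lv0 J e : ℕ) : ℝ) + 1) * ((25 / 26 : ℝ)) ^ (e - c) + 30000 := by
  unfold kap
  have h1 : ∑ e' ∈ Ico c E, (cost a J c e' + 2 * 28000 ^ 2 * (25 / 26) ^ (e' - c)) ≤
      ∑ e' ∈ Ico c E, (Cb * (√(((J e' - lv0 J e' : ℕ) : ℝ) + 1) * ((25 / 26 : ℝ)) ^ (e' - c)) +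
        if c = e' then Cb * √((gen a J c).card : ℝ) else 0) := by
    refine Finset.sum_le_sum fun e' _ => ?_
    have h2 : (J e' : ℝ) - lv0 J e' = ((J e' - lv0 J e' : ℕ) : ℝ) := by
      rw [Nat.cast_sub (lv0_le hJ e')]
    have h3 : (1 : ℝ) ≤ √(((J e' - lv0 J e' : ℕ) : ℝ) + 1) := by
      rw [Real.one_le_sqrt]
      have : (0 : ℝ) ≤ ((J e' - lv0 J e' : ℕ) : ℝ) := Nat.cast_nonneg _
      linarith
    have h4 : (0 : ℝ) ≤ (25 / 26) ^ (e' - c) := by positivity
    unfold cost Cb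
    rw [h2]
    have h5 : (25 / 26 : ℝ) ^ (e' - c) ≤
        √(((J e' - lv0 J e' : ℕ) : ℝ) + 1) * (25 / 26) ^ (e' - c) := by nlinarith
    split_ifs with h
    · subst h
      have : (0 : ℝ) ≤ √((gen a J c).card : ℝ) := Real.sqrt_nonneg _
      nlinarith
    · nlinarith
  have h2 : ∑ e' ∈ Ico c E, (Cb * (√(((J e' - lv0 J e' : ℕ) : ℝ) + 1) * ((25 / 26 : ℝ)) ^ (e' - c)) +
        if c = e' then Cb * √((gen a J c).card : ℝ) else 0) =
      Cb * √((gen a J c).card : ℝ) +
      Cb * ∑ e ∈ Ico c E, √(((J e - lv0 J e : ℕ) : ℝ) + 1) * ((25 / 26 : ℝ)) ^ (e - c) := by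
    rw [Finset.sum_add_distrib, Finset.mul_sum, Finset.sum_ite_eq, if_pos (by simp [hc])]
    ring
  linarith

/-- the constant of the theorem -/
noncomputable def CF : ℝ :=
  4 * C1 + 6 * (Cb ^ 2 + Cb ^ 2 * 676 * (2 + 48 / cc) + 30000 ^ 2)

theorem coordF_aux {d N : ℕ} (v : Fin N → Fin d → ℝ)
    (h1 : ∀ i, ∑ k, v i k ^ 2 ≤ 1) (h2 : ∀ k, ∑ i, v i k = 0)
    (h3 : ∀ k l, k ≠ l → ∑ i, v i k * v i l = 0) :
    ∃ l : List (Fin N), l.Nodup ∧ l.toFinset = univ ∧
      ∀ n, ∑ k, (P262.lsum v (l.take n) k) ^ 2 ≤ CF * d := by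
  obtain ⟨J, hJ, hg, hJn⟩ := exists_J (aa v) (aa_nonneg v)
  obtain ⟨E, hE⟩ : ∃ E, ∀ k, gi (aa v) J k < E + 1 := by
    refine ⟨univ.sup (gi (aa v) J), fun k => ?_⟩
    exact Nat.lt_succ_of_le (Finset.le_sup (f := gi (aa v) J) (Finset.mem_univ k))
  have hO := claim hJ hg (aa_nonneg v) hE (E + 1) 0 (by omega) 0 v univ (fun _ => 0) (fun _ => 0)
    (inv_zero v J _ h1 h2 h3)
  obtain ⟨l, hl1, hl2, hl3⟩ := hO
  refine ⟨l, hl1, hl2, fun n => ?_⟩
  have hG := (hl3 n).2
  have hF : (fun k => (0 : ℝ) + P262.lsum v (l.take n) k) = P262.lsum v (l.take n) := by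
    ext k; rw [zero_add]
  rw [hF] at hG
  set F := P262.lsum v (l.take n) with hFdef
  clear_value F
  -- the sum over the generations
  rw [sum_gen hE F]
  set I := (range (E + 1)).filter (fun c => (gen (aa v) J c).card ≠ 0) with hI
  have hkap0 : ∀ c, c < E + 1 → 0 ≤ kap (aa v) J (E + 1) c c := by
    intro c _
    unfold kap
    have : 0 ≤ ∑ e' ∈ Ico c (E + 1), (cost (aa v) J c e' + 2 * 28000 ^ 2 * (25 / 26) ^ (e' - c)) := by
      refine Finset.sum_nonneg fun e' _ => ?_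
      unfold cost
      have h4 : (0 : ℝ) ≤ if c = e' then √((gen (aa v) J e').card : ℝ) else 0 := by
        split_ifs
        · exact Real.sqrt_nonneg _
        · exact le_rfl
      positivity
    linarith
  have hsplit : ∀ c ∈ I, nrm (gen (aa v) J c) F ^ 2 ≤
      2 * (max 0 (nrm (gen (aa v) J c) F - kap (aa v) J (E + 1) c c)) ^ 2 +
        2 * kap (aa v) J (E + 1) c c ^ 2 := by
    intro c hc
    have hcE : c < E + 1 := Finset.mem_range.mp (Finset.mem_filter.mp hc).1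
    have h4 := hkap0 c hcE
    have h5 : nrm (gen (aa v) J c) F ≤
        max 0 (nrm (gen (aa v) J c) F - kap (aa v) J (E + 1) c c) + kap (aa v) J (E + 1) c c := by
      have := le_max_right 0 (nrm (gen (aa v) J c) F - kap (aa v) J (E + 1) c c)
      linarith
    have h6 := nrm_nonneg (gen (aa v) J c) F
    have h7 := le_max_left 0 (nrm (gen (aa v) J c) F - kap (aa v) J (E + 1) c c)
    nlinarith [sq_nonneg (max 0 (nrm (gen (aa v) J c) F - kap (aa v) J (E + 1) c c) -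
      kap (aa v) J (E + 1) c c)]
  have hA : ∑ c ∈ I, (max 0 (nrm (gen (aa v) J c) F - kap (aa v) J (E + 1) c c)) ^ 2 ≤
      2 * C1 * d := by
    refine le_trans (Finset.sum_le_sum_of_subset_of_nonneg (Finset.filter_subset _ _)
      fun _ _ _ => sq_nonneg _) ?_
    rw [Finset.range_eq_Ico]
    refine hG.trans ?_
    have : ((Rs (aa v) J 0).card : ℝ) ≤ d := by
      have h4 := Finset.card_le_univ (Rs (aa v) J 0)
      rw [Fintype.card_fin] at h4
      exact_mod_cast h4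
    have hC : (0 : ℝ) ≤ C1 := by norm_num [C1]
    nlinarith
  have hB : ∑ c ∈ I, kap (aa v) J (E + 1) c c ^ 2 ≤
      3 * (Cb ^ 2 * d + Cb ^ 2 * 676 * (2 * d + 48 * d / cc) + 30000 ^ 2 * d) := by
    have hks := kappa_sum (E := E + 1) (d := d) (τ := fun e => J e - lv0 J e)
      (g := fun c => (gen (aa v) J c).card) (bb := bbf J) (Cb := Cb) (T := 30000)
      (B := 48 * d / cc) (by unfold Cb; norm_num) (by norm_num) (sum_card_gen hE).le
      (bbf_nonneg hJ) ?_ ?_
    · refine le_trans (Finset.sum_le_sum fun c hc => ?_) hks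
      have hcE : c < E + 1 := Finset.mem_range.mp (Finset.mem_filter.mp hc).1
      exact pow_le_pow_left₀ (hkap0 c hcE) (kap_self hJ hcE) 2
    · intro e
      show ((J e - lv0 J e : ℕ) : ℝ) ≤ 1 + bbf J e
      rw [Nat.cast_sub (lv0_le hJ e)]
      unfold bbf
      split_ifs with h
      · subst h; simp [lv0]
      · linarith
    · rw [sum_bbf]
      have := hJn E
      linarith
  calc ∑ c ∈ I, nrm (gen (aa v) J c) F ^ 2
      ≤ ∑ c ∈ I, (2 * (max 0 (nrm (gen (aa v) J c) F - kap (aa v) J (E + 1) c c)) ^ 2 +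
        2 * kap (aa v) J (E + 1) c c ^ 2) := Finset.sum_le_sum hsplit
    _ = 2 * ∑ c ∈ I, (max 0 (nrm (gen (aa v) J c) F - kap (aa v) J (E + 1) c c)) ^ 2 +
        2 * ∑ c ∈ I, kap (aa v) J (E + 1) c c ^ 2 := by
        rw [Finset.sum_add_distrib, Finset.mul_sum, Finset.mul_sum]
    _ ≤ 2 * (2 * C1 * d) +
        2 * (3 * (Cb ^ 2 * d + Cb ^ 2 * 676 * (2 * d + 48 * d / cc) + 30000 ^ 2 * d)) := by
        linarith
    _ = CF * d := by unfold CF; ring

theorem CF_pos : 0 < CF := by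
  unfold CF Cb C1 cc
  norm_num

/-- the theorem in coordinates -/
theorem coordF : ∃ C : ℝ, 0 < C ∧ ∀ {d N : ℕ} (v : Fin N → Fin d → ℝ),
    (∀ i, ∑ k, v i k ^ 2 ≤ 1) → (∀ k, ∑ i, v i k = 0) →
    (∀ k l, k ≠ l → ∑ i, v i k * v i l = 0) →
    ∃ l : List (Fin N), l.Nodup ∧ l.toFinset = univ ∧
      ∀ n, ∑ k, (P262.lsum v (l.take n) k) ^ 2 ≤ C * d :=
  ⟨CF, CF_pos, fun v h1 h2 h3 => coordF_aux v h1 h2 h3⟩

end Vale.Agent.P262F
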