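import Vale.Agent.P262.Good

/-! Definitions for the full Euclidean Steinitz bound -/

namespace Vale.Agent.P262F
open Finset

variable {ι : Type*} [DecidableEq ι] {d : ℕ}

/-- `K0 = 72 / c₀²`, `c₀ = 1/50` -/
noncomputable def K0 : ℝ := 180000

/-- threshold for good levels, `1 / (3000 K0)` -/
noncomputable def cc : ℝ := 1 / 540000000

/-- constant of the potential, `3 K0` -/
noncomputable def C1 : ℝ := 540000

/-- `μ_k(L) = 2^(a_k - L)` -/
noncomputable def mu (a : Fin d → ℝ) (L : ℕ) (k : Fin d) : ℝ := (2 : ℝ) ^ (a k - (L : ℝ))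

/-- coordinates which are rich for the target level `t` -/
noncomputable def rich (a : Fin d → ℝ) (t : ℕ) : Finset (Fin d) := univ.filter (fun k => (t : ℝ) < a k)

/-- coordinates which are deep for the target level `t` -/
noncomputable def deep (a : Fin d → ℝ) (t : ℕ) : Finset (Fin d) := univ.filter (fun k => a k ≤ (t : ℝ))

/-- number of rich coordinates with `a_k ≤ θ` -/
noncomputable def nn (a : Fin d → ℝ) (t : ℕ) (θ : ℝ) : ℕ := ((rich a t).filter (fun k => a k ≤ θ)).card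

/-- `Γ(t)` -/
noncomputable def Gam (a : Fin d → ℝ) (t : ℕ) : ℝ := ∑ k, (2 : ℝ) ^ (-|a k - (t : ℝ)| / 16)

/-- good levels -/
def good (a : Fin d → ℝ) (t : ℕ) : Prop := Gam a t ≤ cc

/-- second moment matrix of a block -/
def MM (v : ι → Fin d → ℝ) (A : Finset ι) (k l : Fin d) : ℝ := ∑ i ∈ A, v i k * v i l

/-- weighted quadratic deviation of the matrix from `diag μ(L)` on the coordinates `Rc` -/
noncomputable def QQ (a : Fin d → ℝ) (v : ι → Fin d → ℝ) (L : ℕ) (Rc : Finset (Fin d))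
    (A : Finset ι) : ℝ :=
  ∑ k ∈ Rc, ∑ l ∈ Rc, (MM v A k l - if k = l then mu a L k else 0) ^ 2 *
    (mu a L k * mu a L l) ^ (-(7 / 8) : ℝ)

/-- weighted energy of a block on the coordinates `D` -/
def EE (v : ι → Fin d → ℝ) (D : Finset (Fin d)) (α : Fin d → ℝ) (A : Finset ι) : ℝ :=
  ∑ i ∈ A, ∑ k ∈ D, (α k * v i k) ^ 2

/-- `σ₃(L) = ∑_{rich} μ_k(L)^(-3/8)` -/
noncomputable def sig (a : Fin d → ℝ) (t L : ℕ) : ℝ := ∑ k ∈ rich a t, mu a L k ^ (-(3 / 8) : ℝ)

/-- `cap_k = μ_k(L)^(1/8)` -/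
noncomputable def cap (a : Fin d → ℝ) (L : ℕ) (k : Fin d) : ℝ := mu a L k ^ ((1 / 8) : ℝ)

/-- clip `x` to `[-c, c]` -/
noncomputable def clip (x c : ℝ) : ℝ := max (-c) (min x c)

/-- weight of the potential -/
noncomputable def om (x : ℝ) : ℝ := 2 - (2 : ℝ) ^ (-x / 8)

/-- number of coordinates of `Rc` with `a_k ≤ θ` -/
noncomputable def cnt (a : Fin d → ℝ) (Rc : Finset (Fin d)) (θ : ℝ) : ℕ := (Rc.filter (fun k => a k ≤ θ)).card

/-- the potential bound `PH_L(xl, xr; Θ)` on the coordinates `Rc` -/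
def PH (a : Fin d → ℝ) (Rc : Finset (Fin d)) (L : ℕ) (xl xr : Fin d → ℝ) (Θ : ℝ) : Prop :=
  ∀ θ1 θ2 : ℝ, ∑ k ∈ Rc, om (a k - L) *
    max (if a k ≤ θ1 then xl k ^ 2 else 0) (if a k ≤ θ2 then xr k ^ 2 else 0) ≤
      Θ + C1 * (cnt a Rc θ1 + cnt a Rc θ2)

/-- Euclidean norm on the coordinates `S` -/
noncomputable def nrm (S : Finset (Fin d)) (x : Fin d → ℝ) : ℝ := √(∑ k ∈ S, x k ^ 2)

/-- there is an ordering of `A` all of whose prefix sums started at `x` satisfy `P` -/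
def Ord (v : ι → Fin d → ℝ) (A : Finset ι) (x : Fin d → ℝ) (P : (Fin d → ℝ) → Prop) : Prop :=
  ∃ l : List ι, l.Nodup ∧ l.toFinset = A ∧ ∀ n : ℕ, P (fun k => x k + P262.lsum v (l.take n) k)

end Vale.Agent.P262F
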