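import Vale.Agent.P262.Final

/-!
# Reduction of the Steinitz problem to diagonalising coordinates
-/

set_option linter.unusedSectionVars false

open Finset
open scoped RealInnerProductSpace

namespace Vale.Agent.P262F

open Vale.Agent.P262

/-- reduction to coordinates in which the second moment matrix is diagonal -/
theorem steinitz_of_coord {d N : ℕ} {M : ℝ}
    (hcoord : ∀ u : Fin N → Fin d → ℝ, (∀ i, ∑ k, (u i k) ^ 2 ≤ 1) → (∀ k, ∑ i, u i k = 0) →
      (∀ k l, k ≠ l → ∑ i, u i k * u i l = 0) →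
      ∃ l : List (Fin N), l.Nodup ∧ l.toFinset = Finset.univ ∧
        ∀ n, ∑ k, (lsum u (l.take n) k) ^ 2 ≤ M)
    (v : Fin N → EuclideanSpace ℝ (Fin d)) (hv : ∀ i, ‖v i‖ ≤ 1) (hsum : ∑ i, v i = 0) :
    ∃ π : Equiv.Perm (Fin N), ∀ n : ℕ, ‖∑ i : Fin N with i.val < n, v (π i)‖ ^ 2 ≤ M := by
  classical
  let T : EuclideanSpace ℝ (Fin d) →ₗ[ℝ] EuclideanSpace ℝ (Fin d) :=
    { toFun := fun x => ∑ i, ⟪v i, x⟫ • v i
      map_add' := fun x y => by
        simp only [inner_add_right, add_smul, Finset.sum_add_distrib]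
      map_smul' := fun c x => by
        simp only [inner_smul_right, mul_smul, Finset.smul_sum, RingHom.id_apply] }
  have hTapp : ∀ x, T x = ∑ i, ⟪v i, x⟫ • v i := fun _ => rfl
  have hT : T.IsSymmetric := by
    intro x y
    rw [hTapp, hTapp, sum_inner, inner_sum]
    refine Finset.sum_congr rfl fun i _ => ?_
    rw [inner_smul_left, inner_smul_right, real_inner_comm x (v i)]
    simp only [conj_trivial]
    ring
  have hn : Module.finrank ℝ (EuclideanSpace ℝ (Fin d)) = d := finrank_euclideanSpace_fin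
  set b := hT.eigenvectorBasis hn with hb
  set c : Fin N → Fin d → ℝ := fun i k => ⟪b k, v i⟫ with hc
  have hnorm : ∀ x : EuclideanSpace ℝ (Fin d), ∑ k, (⟪b k, x⟫ : ℝ) ^ 2 = ‖x‖ ^ 2 := by
    intro x
    rw [← b.sum_sq_norm_inner_right x]
    refine Finset.sum_congr rfl fun k _ => ?_
    rw [Real.norm_eq_abs, sq_abs]
  have h1 : ∀ i, ∑ k, (c i k) ^ 2 ≤ 1 := by
    intro i
    rw [hnorm]
    have := norm_nonneg (v i)
    have := hv i
    nlinarith
  have h2 : ∀ k, ∑ i, c i k = 0 := by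
    intro k
    simp only [hc]
    rw [← inner_sum, hsum, inner_zero_right]
  have h3 : ∀ k l, k ≠ l → ∑ i, c i k * c i l = 0 := by
    intro k l hkl
    have h4 : ∑ i, c i k * c i l = ⟪b k, T (b l)⟫ := by
      rw [hTapp, inner_sum]
      refine Finset.sum_congr rfl fun i _ => ?_
      rw [inner_smul_right, real_inner_comm (b l) (v i)]
      simp only [hc]; ring
    rw [h4, hb, hT.apply_eigenvectorBasis hn l, inner_smul_right, ← hb]
    have : ⟪b k, b l⟫ = 0 := b.orthonormal.2 hkl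
    rw [this]; simp
  obtain ⟨l, hl, hlB, hle⟩ := hcoord c h1 h2 h3
  obtain ⟨π, hπ⟩ := perm_of_list (d := d) l hl hlB
  refine ⟨π, fun n => ?_⟩
  have h5 := hle n
  refine le_trans (le_of_eq ?_) h5
  rw [← hnorm]
  refine Finset.sum_congr rfl fun k _ => ?_
  rw [inner_sum, ← hπ c n k]


end Vale.Agent.P262F
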