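import Vale.Agent.P262F.Defs

/-! The final sum of the costs -/

namespace Vale.Agent.P262F
open Finset

namespace KappaAux

lemma geo_range (n : ℕ) : ∑ j ∈ range n, ((25 / 26 : ℝ)) ^ j ≤ 26 := by
  have h := geom_sum_eq (x := (25 / 26 : ℝ)) (by norm_num) n
  rw [h]
  have hp : (0 : ℝ) ≤ (25 / 26 : ℝ) ^ n := by positivity
  rw [div_le_iff_of_neg (by norm_num)]
  linarith

lemma geo_Ico (c E : ℕ) : ∑ e ∈ Ico c E, ((25 / 26 : ℝ)) ^ (e - c) ≤ 26 := by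
  rw [Finset.sum_Ico_eq_sum_range]
  simp only [Nat.add_sub_cancel_left]
  exact geo_range _

lemma geo_down (e : ℕ) : ∑ c ∈ range (e + 1), ((25 / 26 : ℝ)) ^ (e - c) ≤ 26 := by
  rw [← Finset.sum_range_reflect]
  refine le_trans (le_of_eq (Finset.sum_congr rfl fun j hj => ?_)) (geo_range (e + 1))
  have := Finset.mem_range.mp hj
  congr 1
  omega

end KappaAux

open KappaAux

theorem kappa_sum {E d : ℕ} {τ g : ℕ → ℕ} {bb : ℕ → ℝ} {Cb T B : ℝ} (hCb : 0 ≤ Cb) (hT : 0 ≤ T)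
    (hg : ∑ c ∈ range E, g c ≤ d) (hbb : ∀ e, 0 ≤ bb e) (hτ : ∀ e, (τ e : ℝ) ≤ 1 + bb e)
    (hB : ∑ e ∈ range E, bb e ≤ B) :
    ∑ c ∈ (range E).filter (fun c => g c ≠ 0),
      (Cb * √(g c) + Cb * ∑ e ∈ Ico c E, √(τ e + 1) * ((25 / 26 : ℝ)) ^ (e - c) + T) ^ 2 ≤
      3 * (Cb ^ 2 * d + Cb ^ 2 * 676 * (2 * d + B) + T ^ 2 * d) := by
  set F := (range E).filter (fun c => g c ≠ 0) with hF
  have hcard : (F.card : ℝ) ≤ d := by
    have h1 : F.card ≤ ∑ c ∈ range E, g c := by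
      calc F.card = ∑ c ∈ F, 1 := by simp
        _ ≤ ∑ c ∈ F, g c := Finset.sum_le_sum fun c hc =>
            Nat.one_le_iff_ne_zero.mpr (Finset.mem_filter.mp hc).2
        _ ≤ ∑ c ∈ range E, g c := Finset.sum_le_sum_of_subset (Finset.filter_subset _ _)
    exact_mod_cast h1.trans hg
  have hgF : ∑ c ∈ F, (g c : ℝ) ≤ d := by
    have h1 : ∑ c ∈ F, g c ≤ d :=
      (Finset.sum_le_sum_of_subset (Finset.filter_subset _ _)).trans hg
    exact_mod_cast h1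
  -- pointwise
  have hpt : ∀ c ∈ F,
      (Cb * √(g c) + Cb * ∑ e ∈ Ico c E, √(τ e + 1) * ((25 / 26 : ℝ)) ^ (e - c) + T) ^ 2 ≤
      3 * (Cb ^ 2 * g c + Cb ^ 2 * (26 * ∑ e ∈ Ico c E, (2 + bb e) * ((25 / 26 : ℝ)) ^ (e - c)) +
        T ^ 2) := by
    intro c _
    set Y := ∑ e ∈ Ico c E, √(τ e + 1) * ((25 / 26 : ℝ)) ^ (e - c) with hY
    have hcs : Y ^ 2 ≤ 26 * ∑ e ∈ Ico c E, (2 + bb e) * ((25 / 26 : ℝ)) ^ (e - c) := by
      have h1 := Finset.sum_sq_le_sum_mul_sum_of_sq_le_mul (Ico c E)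
        (r := fun e => √((τ e : ℝ) + 1) * ((25 / 26 : ℝ)) ^ (e - c))
        (f := fun e => ((25 / 26 : ℝ)) ^ (e - c))
        (g := fun e => (2 + bb e) * ((25 / 26 : ℝ)) ^ (e - c))
        (fun e _ => by positivity)
        (fun e _ => mul_nonneg (by linarith [hbb e]) (by positivity))
        (fun e _ => by
          rw [mul_pow, Real.sq_sqrt (by positivity)]
          have h2 := hτ e
          have h3 : (0 : ℝ) ≤ ((25 / 26 : ℝ)) ^ (e - c) := by positivity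
          have h4 : (τ e : ℝ) + 1 ≤ 2 + bb e := by linarith
          calc ((τ e : ℝ) + 1) * (((25 / 26 : ℝ)) ^ (e - c)) ^ 2
              ≤ (2 + bb e) * (((25 / 26 : ℝ)) ^ (e - c)) ^ 2 :=
                mul_le_mul_of_nonneg_right h4 (by positivity)
            _ = _ := by ring)
      refine h1.trans (mul_le_mul_of_nonneg_right (geo_Ico c E) ?_)
      exact Finset.sum_nonneg fun e _ => mul_nonneg (by linarith [hbb e]) (by positivity)
    have hs := Real.sq_sqrt (Nat.cast_nonneg (α := ℝ) (g c))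
    have h5 : (Cb * √(g c) + Cb * Y + T) ^ 2 ≤
        3 * ((Cb * √(g c)) ^ 2 + (Cb * Y) ^ 2 + T ^ 2) := by
      nlinarith [sq_nonneg (Cb * √(g c) - Cb * Y), sq_nonneg (Cb * √(g c) - T),
        sq_nonneg (Cb * Y - T)]
    have h6 : (Cb * √(g c)) ^ 2 = Cb ^ 2 * g c := by rw [mul_pow, hs]
    have h7 : (Cb * Y) ^ 2 ≤ Cb ^ 2 *
        (26 * ∑ e ∈ Ico c E, (2 + bb e) * ((25 / 26 : ℝ)) ^ (e - c)) := by
      rw [mul_pow]
      exact mul_le_mul_of_nonneg_left hcs (sq_nonneg _)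
    linarith
  refine (Finset.sum_le_sum hpt).trans ?_
  rw [← Finset.mul_sum, Finset.sum_add_distrib, Finset.sum_add_distrib, ← Finset.mul_sum,
    ← Finset.mul_sum, ← Finset.mul_sum, Finset.sum_const, nsmul_eq_mul]
  -- the double sum
  have hdouble : ∑ c ∈ F, ∑ e ∈ Ico c E, (2 + bb e) * ((25 / 26 : ℝ)) ^ (e - c) ≤
      26 * (2 * d + B) := by
    have e1 : ∑ c ∈ F, ∑ e ∈ Ico c E, (2 + bb e) * ((25 / 26 : ℝ)) ^ (e - c) =
        ∑ c ∈ F, 2 * ∑ e ∈ Ico c E, ((25 / 26 : ℝ)) ^ (e - c) +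
          ∑ c ∈ F, ∑ e ∈ Ico c E, bb e * ((25 / 26 : ℝ)) ^ (e - c) := by
      rw [← Finset.sum_add_distrib]
      refine Finset.sum_congr rfl fun c _ => ?_
      rw [Finset.mul_sum, ← Finset.sum_add_distrib]
      exact Finset.sum_congr rfl fun e _ => by ring
    have e2 : ∑ c ∈ F, 2 * ∑ e ∈ Ico c E, ((25 / 26 : ℝ)) ^ (e - c) ≤ 52 * d := by
      calc ∑ c ∈ F, 2 * ∑ e ∈ Ico c E, ((25 / 26 : ℝ)) ^ (e - c)
          ≤ ∑ _c ∈ F, (52 : ℝ) := Finset.sum_le_sum fun c _ => by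
            have := geo_Ico c E
            linarith
        _ = F.card * 52 := by rw [Finset.sum_const, nsmul_eq_mul]
        _ ≤ 52 * d := by linarith
    have e3 : ∑ c ∈ F, ∑ e ∈ Ico c E, bb e * ((25 / 26 : ℝ)) ^ (e - c) ≤
        ∑ c ∈ range E, ∑ e ∈ Ico c E, bb e * ((25 / 26 : ℝ)) ^ (e - c) :=
      Finset.sum_le_sum_of_subset_of_nonneg (Finset.filter_subset _ _) fun c _ _ =>
        Finset.sum_nonneg fun e _ => mul_nonneg (hbb e) (by positivity)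
    have e4 : ∑ c ∈ range E, ∑ e ∈ Ico c E, bb e * ((25 / 26 : ℝ)) ^ (e - c) =
        ∑ e ∈ range E, ∑ c ∈ range (e + 1), bb e * ((25 / 26 : ℝ)) ^ (e - c) := by
      refine Finset.sum_comm' fun c e => ?_
      simp only [Finset.mem_range, Finset.mem_Ico]
      omega
    have e5 : ∑ e ∈ range E, ∑ c ∈ range (e + 1), bb e * ((25 / 26 : ℝ)) ^ (e - c) ≤ 26 * B := by
      calc ∑ e ∈ range E, ∑ c ∈ range (e + 1), bb e * ((25 / 26 : ℝ)) ^ (e - c)
          = ∑ e ∈ range E, bb e * ∑ c ∈ range (e + 1), ((25 / 26 : ℝ)) ^ (e - c) :=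
            Finset.sum_congr rfl fun e _ => by rw [Finset.mul_sum]
        _ ≤ ∑ e ∈ range E, bb e * 26 := Finset.sum_le_sum fun e _ =>
            mul_le_mul_of_nonneg_left (geo_down e) (hbb e)
        _ = 26 * ∑ e ∈ range E, bb e := by rw [← Finset.sum_mul]; ring
        _ ≤ 26 * B := by linarith
    linarith
  have h8 : Cb ^ 2 * ∑ c ∈ F, (g c : ℝ) ≤ Cb ^ 2 * d :=
    mul_le_mul_of_nonneg_left hgF (sq_nonneg _)
  have h9 : Cb ^ 2 * (26 * ∑ c ∈ F, ∑ e ∈ Ico c E, (2 + bb e) * ((25 / 26 : ℝ)) ^ (e - c)) ≤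
      Cb ^ 2 * 676 * (2 * d + B) := by
    have : (26 : ℝ) * ∑ c ∈ F, ∑ e ∈ Ico c E, (2 + bb e) * ((25 / 26 : ℝ)) ^ (e - c) ≤
        676 * (2 * d + B) := by linarith
    calc _ ≤ Cb ^ 2 * (676 * (2 * d + B)) := mul_le_mul_of_nonneg_left this (sq_nonneg _)
      _ = _ := by ring
  have h10 : (F.card : ℝ) * T ^ 2 ≤ T ^ 2 * d := by
    rw [mul_comm]
    exact mul_le_mul_of_nonneg_left hcard (sq_nonneg _)
  linarith

end Vale.Agent.P262F
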