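import Vale.Agent.P262F.JStep
import Vale.Agent.P262F.Kappa

/-! Episodes -/

namespace Vale.Agent.P262F
open Finset

variable {ι : Type*} [DecidableEq ι] {d : ℕ} {a : Fin d → ℝ} {J : ℕ → ℕ}

/-- cost of episode `e` for generation `c` -/
noncomputable def cost (a : Fin d → ℝ) (J : ℕ → ℕ) (c e : ℕ) : ℝ :=
  10 ^ 13 * (√((J e : ℝ) - lv0 J e + 1) * (25 / 26) ^ (e - c) +
    if c = e then √((gen a J e).card) else 0)

lemma Hst.mono_b {e L : ℕ} {Θ : ℝ} {v : ι → Fin d → ℝ} {A : Finset ι} {xl : Fin d → ℝ}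
    {b b' : ℕ → ℝ} (h : Hst a J e L Θ v A xl b) (hb : ∀ c ≤ e, b c ≤ b' c) :
    Hst a J e L Θ v A xl b' :=
  { unit := h.unit, Q := h.Q, ent := h.ent, En := h.En, ph := h.ph
    bl := fun c hc => (h.bl c hc).trans (hb c hc)
    br := fun c hc => (h.br c hc).trans (hb c hc) }

lemma two_pow_clog_le (τ : ℕ) : 2 ^ Nat.clog 2 τ ≤ 2 * (τ + 1) := by
  rcases Nat.lt_or_ge 1 τ with h | h
  · have h1 := Nat.pow_pred_clog_lt_self (b := 2) (by norm_num) h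
    have h2 : 0 < Nat.clog 2 τ := Nat.clog_pos (by norm_num) h
    have h3 : Nat.clog 2 τ = (Nat.clog 2 τ).pred + 1 := by
      rw [← Nat.succ_eq_add_one, Nat.succ_pred_eq_of_pos h2]
    rw [h3, pow_succ]
    omega
  · have : Nat.clog 2 τ = 0 := Nat.clog_of_right_le_one h 2
    rw [this]
    omega

lemma pow_bound {τ i : ℕ} (hi : i ≤ 4 * (28 + Nat.clog 2 τ) + 1) :
    300000000 * (2 : ℝ) ^ ((i : ℝ) / 8) ≤ 9 * 10 ^ 12 * √((τ : ℝ) + 1) := by
  have h1 : ((2 : ℝ) ^ ((i : ℝ) / 8)) ≤ (2 : ℝ) ^ ((4 * (28 + (Nat.clog 2 τ : ℝ)) + 1) / 8) := by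
    apply Real.rpow_le_rpow_of_exponent_le (by norm_num)
    have : (i : ℝ) ≤ 4 * (28 + (Nat.clog 2 τ : ℝ)) + 1 := by exact_mod_cast hi
    linarith
  have h2 : (2 : ℝ) ^ ((4 * (28 + (Nat.clog 2 τ : ℝ)) + 1) / 8) =
      2 ^ 14 * (2 : ℝ) ^ ((1 : ℝ) / 8) * √((2 : ℝ) ^ (Nat.clog 2 τ)) := by
    rw [Real.sqrt_eq_rpow, ← Real.rpow_natCast 2 (Nat.clog 2 τ), ← Real.rpow_mul (by norm_num),
      ← Real.rpow_natCast 2 14, ← Real.rpow_add (by norm_num), ← Real.rpow_add (by norm_num)]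
    congr 1
    push_cast
    ring
  have h3 : √((2 : ℝ) ^ (Nat.clog 2 τ)) ≤ √2 * √((τ : ℝ) + 1) := by
    rw [← Real.sqrt_mul (by norm_num)]
    apply Real.sqrt_le_sqrt
    have := two_pow_clog_le τ
    exact_mod_cast this
  have h4 : (2 : ℝ) ^ ((1 : ℝ) / 8) ≤ 11 / 10 := by
    rw [← Real.rpow_le_rpow_iff (z := 8) (by positivity) (by norm_num) (by norm_num),
      ← Real.rpow_mul (by norm_num)]
    norm_num
  have h5 : √(2 : ℝ) ≤ 1.415 := by
    rw [Real.sqrt_le_left (by norm_num)]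
    norm_num
  have h6 : (0 : ℝ) ≤ √((τ : ℝ) + 1) := Real.sqrt_nonneg _
  have h7 : (0 : ℝ) < (2 : ℝ) ^ ((1 : ℝ) / 8) := by positivity
  calc 300000000 * (2 : ℝ) ^ ((i : ℝ) / 8)
      ≤ 300000000 * (2 ^ 14 * (2 : ℝ) ^ ((1 : ℝ) / 8) * √((2 : ℝ) ^ (Nat.clog 2 τ))) := by
        rw [← h2]; gcongr
    _ ≤ 300000000 * (2 ^ 14 * (11 / 10) * (1.415 * √((τ : ℝ) + 1))) := by
        gcongr
        exact h3.trans (by gcongr)
    _ ≤ 9 * 10 ^ 12 * √((τ : ℝ) + 1) := by nlinarith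

theorem episode (hJ : StrictMono J) {e : ℕ} (hg : good a (J e))
    {Θ : ℝ} {v : ι → Fin d → ℝ} {A : Finset ι} {xl : Fin d → ℝ} {b : ℕ → ℝ}
    (hR : Rst a J e Θ v A xl b) {P : (Fin d → ℝ) → Prop}
    (Hend : ∀ A' xl', Hst a J e (J e) Θ v A' xl' (fun c => b c + cost a J c e) → Ord v A' xl' P) :
    Ord v A xl P := by
  obtain ⟨τ, hτ⟩ := Nat.exists_eq_add_of_le (lv0_le hJ e)
  have hτr : (J e : ℝ) - lv0 J e = τ := by rw [hτ]; push_cast; ring
  set s := 4 * (28 + Nat.clog 2 τ) with hsdef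
  have hq : ∀ c, (0 : ℝ) ≤ (25 / 26) ^ (e - c) := fun c => by positivity
  have key := fun i (hi : i ≤ s + 1) => pow_bound (τ := τ) (i := i) hi
  have hsqrt : √(τ : ℝ) ≤ √((τ : ℝ) + 1) := Real.sqrt_le_sqrt (by linarith)
  have h0 : (0 : ℝ) ≤ √((gen a J e).card : ℝ) := Real.sqrt_nonneg _
  have h1 : (0 : ℝ) ≤ √((τ : ℝ) + 1) := Real.sqrt_nonneg _
  rcases Nat.lt_or_ge τ (s + 2) with hlt | hge
  · -- direct phase
    refine hphase hJ hg (bf := fun c => b c + cost a J c e) Hend τ (lv0 J e) hτ.symm A xl ?_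
    refine (Hst_of_Rst hJ hg hR).mono_b fun c hc => ?_
    have hk := key τ (by omega)
    have hk2 : 300000000 * (2 : ℝ) ^ ((τ : ℝ) / 8) * (25 / 26) ^ (e - c) ≤
        9 * 10 ^ 12 * √((τ : ℝ) + 1) * (25 / 26) ^ (e - c) :=
      mul_le_mul_of_nonneg_right hk (hq c)
    unfold cost
    rw [hτr]
    have h2 : 0 ≤ √((τ : ℝ) + 1) * (25 / 26) ^ (e - c) := mul_nonneg h1 (hq c)
    split_ifs <;> nlinarith
  · -- arrangement into cells first
    have hh : 1 ≤ τ - s - 1 := by omega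
    have h2' : ((s : ℝ) / 4) = ((28 + Nat.clog 2 τ : ℕ) : ℝ) := by
      rw [hsdef]; push_cast; ring
    refine jstep hJ hg (s := s) (h := τ - s - 1) hh (by omega) ?_ ?_ hR ?_
    · rw [hτr, h2', Real.rpow_natCast, pow_add]
      have h3 : τ ≤ 2 ^ Nat.clog 2 τ := Nat.le_pow_clog (by norm_num) τ
      have h4 : (τ : ℝ) ≤ (2 : ℝ) ^ Nat.clog 2 τ := by exact_mod_cast h3
      nlinarith
    · rw [hτr, h2', Real.rpow_natCast, pow_add]
      have h3 : (2 : ℝ) ^ Nat.clog 2 τ ≤ 2 * (τ + 1) := by exact_mod_cast two_pow_clog_le τ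
      have h4 : (1 : ℝ) ≤ τ := by
        have : 1 ≤ τ := by omega
        exact_mod_cast this
      nlinarith
    · intro L' hL' A' xl' hH
      have hi : ∃ i, L' + i = J e ∧ i ≤ s + 1 := by
        rcases hL' with h | h
        · exact ⟨s + 1, by omega, le_rfl⟩
        · exact ⟨s, by omega, by omega⟩
      obtain ⟨i, hi1, hi2⟩ := hi
      refine hphase hJ hg (bf := fun c => b c + cost a J c e) Hend i L' hi1 A' xl' ?_
      refine hH.mono_b fun c hc => ?_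
      have hk := key i hi2
      have hk2 : 300000000 * (2 : ℝ) ^ ((i : ℝ) / 8) * (25 / 26) ^ (e - c) ≤
          9 * 10 ^ 12 * √((τ : ℝ) + 1) * (25 / 26) ^ (e - c) :=
        mul_le_mul_of_nonneg_right hk (hq c)
      unfold cost
      rw [hτr]
      have h2 : 0 ≤ √((τ : ℝ) + 1) * (25 / 26) ^ (e - c) := mul_nonneg h1 (hq c)
      have h3 : 200000000 * √(τ : ℝ) * (25 / 26) ^ (e - c) ≤
          200000000 * √((τ : ℝ) + 1) * (25 / 26) ^ (e - c) := by gcongr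
      split_ifs <;> nlinarith

end Vale.Agent.P262F
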