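import Vale.Agent.P262F.Defs

/-! Counting of bad levels -/

namespace Vale.Agent.P262F
open Finset

variable {d : ℕ}

namespace ExJ

lemma root_le : (2 : ℝ) ^ (-(1 / 16) : ℝ) ≤ 23 / 24 := by
  have h : ((2 : ℝ) ^ (-(1 / 16) : ℝ)) ^ 16 = 1 / 2 := by
    rw [← Real.rpow_natCast, ← Real.rpow_mul (by norm_num)]
    norm_num [Real.rpow_neg_one]
  by_contra hc
  push Not at hc
  have h2 := pow_lt_pow_left₀ hc (by norm_num) (n := 16) (by norm_num)
  rw [h] at h2
  norm_num at h2

lemma term_le {x : ℝ} {j : ℕ} (h : (j : ℝ) ≤ x) : (2 : ℝ) ^ (-x / 16) ≤ (23 / 24 : ℝ) ^ j := by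
  have h1 : (2 : ℝ) ^ (-x / 16) ≤ ((2 : ℝ) ^ (-(1 / 16) : ℝ)) ^ j := by
    rw [← Real.rpow_natCast, ← Real.rpow_mul (by norm_num)]
    apply Real.rpow_le_rpow_of_exponent_le (by norm_num)
    linarith
  exact h1.trans (pow_le_pow_left₀ (by positivity) root_le j)

lemma geo (n : ℕ) : ∑ j ∈ range n, ((23 / 24 : ℝ)) ^ j ≤ 24 := by
  rw [geom_sum_eq (x := (23 / 24 : ℝ)) (by norm_num) n]
  have hp : (0 : ℝ) ≤ (23 / 24 : ℝ) ^ n := by positivity
  rw [div_le_iff_of_neg (by norm_num)]
  linarith

lemma sum_level {x : ℝ} (hx : 0 ≤ x) (M : ℕ) :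
    ∑ t ∈ range M, (2 : ℝ) ^ (-|x - (t : ℝ)| / 16) ≤ 48 := by
  set m := ⌈x⌉₊ with hm
  have h1 : x ≤ m := Nat.le_ceil x
  have h2 : (m : ℝ) < x + 1 := Nat.ceil_lt_add_one hx
  rw [← Finset.sum_filter_add_sum_filter_not (range M) (fun t => t < m)]
  have e1 : ∑ t ∈ (range M).filter (fun t => t < m), (2 : ℝ) ^ (-|x - (t : ℝ)| / 16) ≤ 24 := by
    calc ∑ t ∈ (range M).filter (fun t => t < m), (2 : ℝ) ^ (-|x - (t : ℝ)| / 16)
        ≤ ∑ t ∈ (range M).filter (fun t => t < m), (23 / 24 : ℝ) ^ (m - 1 - t) := by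
          refine Finset.sum_le_sum fun t ht => term_le ?_
          have h3 := (Finset.mem_filter.mp ht).2
          have h4 : ((m - 1 - t : ℕ) : ℝ) = m - 1 - t := by
            rw [Nat.cast_sub (by omega), Nat.cast_sub (by omega)]
            simp
          rw [h4]
          have h5 := le_abs_self (x - (t : ℝ))
          linarith
      _ ≤ ∑ t ∈ range m, (23 / 24 : ℝ) ^ (m - 1 - t) := by
          apply Finset.sum_le_sum_of_subset_of_nonneg
          · intro t ht
            exact Finset.mem_range.mpr (Finset.mem_filter.mp ht).2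
          · intro t _ _
            positivity
      _ = ∑ j ∈ range m, (23 / 24 : ℝ) ^ j := Finset.sum_range_reflect (fun j => (23 / 24 : ℝ) ^ j) m
      _ ≤ 24 := geo m
  have e2 : ∑ t ∈ (range M).filter (fun t => ¬ t < m), (2 : ℝ) ^ (-|x - (t : ℝ)| / 16) ≤ 24 := by
    calc ∑ t ∈ (range M).filter (fun t => ¬ t < m), (2 : ℝ) ^ (-|x - (t : ℝ)| / 16)
        ≤ ∑ t ∈ (range M).filter (fun t => ¬ t < m), (23 / 24 : ℝ) ^ (t - m) := by
          refine Finset.sum_le_sum fun t ht => term_le ?_
          have h3 := (Finset.mem_filter.mp ht).2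
          have h4 : ((t - m : ℕ) : ℝ) = t - m := by
            rw [Nat.cast_sub (by omega)]
          rw [h4]
          have h5 := neg_abs_le (x - (t : ℝ))
          linarith
      _ ≤ ∑ t ∈ Ico m M, (23 / 24 : ℝ) ^ (t - m) := by
          apply Finset.sum_le_sum_of_subset_of_nonneg
          · intro t ht
            have h6 := Finset.mem_filter.mp ht
            have h7 := Finset.mem_range.mp h6.1
            exact Finset.mem_Ico.mpr ⟨by omega, h7⟩
          · intro t _ _
            positivity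
      _ = ∑ j ∈ range (M - m), (23 / 24 : ℝ) ^ j := by
          rw [Finset.sum_Ico_eq_sum_range]
          simp only [Nat.add_sub_cancel_left]
      _ ≤ 24 := geo _
  linarith

lemma bad_card (a : Fin d → ℝ) (ha : ∀ k, 0 ≤ a k) (M : ℕ) [DecidablePred (fun t => good a t)] :
    (((range M).filter (fun t => ¬ good a t)).card : ℝ) ≤ 48 * d / cc := by
  have hcc : (0 : ℝ) < cc := by norm_num [cc]
  rw [le_div_iff₀ hcc]
  have h1 : (((range M).filter (fun t => ¬ good a t)).card : ℝ) * cc ≤
      ∑ t ∈ (range M).filter (fun t => ¬ good a t), Gam a t := by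
    rw [← nsmul_eq_mul, ← Finset.sum_const]
    refine Finset.sum_le_sum fun t ht => ?_
    have := (Finset.mem_filter.mp ht).2
    unfold good at this
    exact (not_le.mp this).le
  have h2 : ∑ t ∈ (range M).filter (fun t => ¬ good a t), Gam a t ≤ ∑ t ∈ range M, Gam a t :=
    Finset.sum_le_sum_of_subset_of_nonneg (Finset.filter_subset _ _) fun t _ _ =>
      Finset.sum_nonneg fun k _ => by positivity
  have h3 : ∑ t ∈ range M, Gam a t ≤ 48 * d := by
    unfold Gam
    rw [Finset.sum_comm]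
    calc ∑ k, ∑ t ∈ range M, (2 : ℝ) ^ (-|a k - (t : ℝ)| / 16) ≤ ∑ _k : Fin d, (48 : ℝ) :=
          Finset.sum_le_sum fun k _ => sum_level (ha k) M
      _ = 48 * d := by
          rw [Finset.sum_const, nsmul_eq_mul]
          simp [mul_comm]
  linarith

end ExJ

open ExJ

/-- the good levels can be enumerated with few gaps -/
theorem exists_J (a : Fin d → ℝ) (ha : ∀ k, 0 ≤ a k) :
    ∃ J : ℕ → ℕ, StrictMono J ∧ (∀ e, good a (J e)) ∧ ∀ n, (J n : ℝ) ≤ n + 48 * d / cc := by
  classical
  have hbad := bad_card a ha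
  have hinf : (Set.ofPred (good a)).Infinite := by
    intro hfin
    -- otherwise all large levels are bad
    obtain ⟨M0, hM0⟩ := hfin.bddAbove
    obtain ⟨N, hN⟩ := exists_nat_gt (48 * (d : ℝ) / cc)
    have h1 : (range (M0 + 1 + N)).filter (fun t => ¬ good a t) ⊇ Ico (M0 + 1) (M0 + 1 + N) := by
      intro t ht
      have h2 := Finset.mem_Ico.mp ht
      refine Finset.mem_filter.mpr ⟨Finset.mem_range.mpr h2.2, fun hgt => ?_⟩
      have := hM0 hgt
      omega
    have h3 := Finset.card_le_card h1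
    rw [Nat.card_Ico] at h3
    have h4 : (N : ℝ) ≤ (((range (M0 + 1 + N)).filter (fun t => ¬ good a t)).card : ℝ) := by
      have : N ≤ ((range (M0 + 1 + N)).filter (fun t => ¬ good a t)).card := by omega
      exact_mod_cast this
    have h5 := hbad (M0 + 1 + N)
    linarith
  refine ⟨Nat.nth (good a), Nat.nth_strictMono hinf, fun e => Nat.nth_mem_of_infinite hinf e,
    fun n => ?_⟩
  have h1 : Nat.count (good a) (Nat.nth (good a) n) = n := Nat.count_nth_of_infinite hinf n
  have h2 := hbad (Nat.nth (good a) n)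
  rw [Nat.count_eq_card_filter_range] at h1
  have h3 := Finset.card_filter_add_card_filter_not (s := range (Nat.nth (good a) n)) (good a)
  rw [Finset.card_range, h1] at h3
  have h4 : (Nat.nth (good a) n : ℝ) =
      n + (((range (Nat.nth (good a) n)).filter (fun t => ¬ good a t)).card : ℝ) := by
    exact_mod_cast h3.symm
  linarith

end Vale.Agent.P262F
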