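import Vale.Agent.P262F.ExJ

/-! Consequences of a level being good; counting of bad levels -/

namespace Vale.Agent.P262F
open Finset

variable {d : ℕ} {a : Fin d → ℝ} {t : ℕ}

namespace GoodAux

lemma t_lt {k : Fin d} (hk : k ∈ rich a t) : (t : ℝ) < a k := by
  unfold rich at hk
  exact (Finset.mem_filter.mp hk).2

lemma le_t {k : Fin d} (hk : k ∈ deep a t) : a k ≤ (t : ℝ) := by
  unfold deep at hk
  exact (Finset.mem_filter.mp hk).2

lemma sub_sum (hg : good a t) (S : Finset (Fin d)) :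
    ∑ k ∈ S, (2 : ℝ) ^ (-|a k - (t : ℝ)| / 16) ≤ cc :=
  le_trans (Finset.sum_le_sum_of_subset_of_nonneg (Finset.subset_univ S)
    fun _ _ _ => by positivity) hg

end GoodAux

open GoodAux

lemma good_rich_sum (hg : good a t) {s : ℝ} (hs : 1 / 16 ≤ s) :
    ∑ k ∈ rich a t, (2 : ℝ) ^ (-s * (a k - t)) ≤ cc := by
  refine le_trans (Finset.sum_le_sum fun k hk => ?_) (sub_sum hg (rich a t))
  have h := t_lt hk
  rw [abs_of_pos (by linarith)]
  apply Real.rpow_le_rpow_of_exponent_le (by norm_num)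
  nlinarith

lemma good_deep_sum (hg : good a t) {s : ℝ} (hs : 1 / 16 ≤ s) :
    ∑ k ∈ deep a t, (2 : ℝ) ^ (-s * (t - a k)) ≤ cc := by
  refine le_trans (Finset.sum_le_sum fun k hk => ?_) (sub_sum hg (deep a t))
  have h := le_t hk
  rw [abs_of_nonpos (by linarith)]
  apply Real.rpow_le_rpow_of_exponent_le (by norm_num)
  nlinarith

lemma good_nn (hg : good a t) {k : Fin d} (hk : k ∈ rich a t) :
    (nn a t (a k) : ℝ) ≤ cc * (2 : ℝ) ^ ((a k - t) / 16) := by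
  have h1 : (nn a t (a k) : ℝ) * (2 : ℝ) ^ (-(a k - t) / 16) ≤ cc := by
    refine le_trans ?_ (sub_sum hg ((rich a t).filter (fun j => a j ≤ a k)))
    unfold nn
    rw [← nsmul_eq_mul, ← Finset.sum_const]
    refine Finset.sum_le_sum fun j hj => ?_
    obtain ⟨hj1, hj2⟩ := Finset.mem_filter.mp hj
    have h := t_lt hj1
    rw [abs_of_pos (by linarith)]
    apply Real.rpow_le_rpow_of_exponent_le (by norm_num)
    linarith
  have h2 : (2 : ℝ) ^ (-(a k - t) / 16) * (2 : ℝ) ^ ((a k - t) / 16) = 1 := by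
    rw [← Real.rpow_add (by norm_num)]
    have : -(a k - (t : ℝ)) / 16 + (a k - t) / 16 = 0 := by ring
    rw [this, Real.rpow_zero]
  calc (nn a t (a k) : ℝ) = (nn a t (a k) : ℝ) * ((2 : ℝ) ^ (-(a k - t) / 16) *
        (2 : ℝ) ^ ((a k - t) / 16)) := by rw [h2, mul_one]
    _ = (nn a t (a k) : ℝ) * (2 : ℝ) ^ (-(a k - t) / 16) * (2 : ℝ) ^ ((a k - t) / 16) := by ring
    _ ≤ cc * (2 : ℝ) ^ ((a k - t) / 16) := mul_le_mul_of_nonneg_right h1 (by positivity)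

lemma good_window (hg : good a t) (L : ℕ) :
    (((deep a t).filter (fun k => (L : ℝ) < a k)).card : ℝ) ≤
      cc * (2 : ℝ) ^ (((t : ℝ) - L) / 16) := by
  set F := (deep a t).filter (fun k => (L : ℝ) < a k) with hF
  have h1 : (F.card : ℝ) * (2 : ℝ) ^ (-((t : ℝ) - L) / 16) ≤ cc := by
    refine le_trans ?_ (sub_sum hg F)
    rw [← nsmul_eq_mul, ← Finset.sum_const]
    refine Finset.sum_le_sum fun j hj => ?_
    obtain ⟨hj1, hj2⟩ := Finset.mem_filter.mp hj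
    have h := le_t hj1
    rw [abs_of_nonpos (by linarith)]
    apply Real.rpow_le_rpow_of_exponent_le (by norm_num)
    linarith
  have h2 : (2 : ℝ) ^ (-((t : ℝ) - L) / 16) * (2 : ℝ) ^ (((t : ℝ) - L) / 16) = 1 := by
    rw [← Real.rpow_add (by norm_num)]
    have : -((t : ℝ) - L) / 16 + ((t : ℝ) - L) / 16 = 0 := by ring
    rw [this, Real.rpow_zero]
  calc (F.card : ℝ) = (F.card : ℝ) * ((2 : ℝ) ^ (-((t : ℝ) - L) / 16) *
        (2 : ℝ) ^ (((t : ℝ) - L) / 16)) := by rw [h2, mul_one]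
    _ = (F.card : ℝ) * (2 : ℝ) ^ (-((t : ℝ) - L) / 16) * (2 : ℝ) ^ (((t : ℝ) - L) / 16) := by ring
    _ ≤ cc * (2 : ℝ) ^ (((t : ℝ) - L) / 16) := mul_le_mul_of_nonneg_right h1 (by positivity)

lemma good_sig (hg : good a t) {L : ℕ} (_hL : L ≤ t) :
    sig a t L ≤ cc * (2 : ℝ) ^ (-(3 / 8) * ((t : ℝ) - L)) := by
  unfold sig mu
  have h1 := good_rich_sum hg (s := 3 / 8) (by norm_num)
  calc ∑ k ∈ rich a t, ((2 : ℝ) ^ (a k - (L : ℝ))) ^ (-(3 / 8) : ℝ)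
      = ∑ k ∈ rich a t, (2 : ℝ) ^ (-(3 / 8) * (a k - t)) * (2 : ℝ) ^ (-(3 / 8) * ((t : ℝ) - L)) := by
        refine Finset.sum_congr rfl fun k _ => ?_
        rw [← Real.rpow_mul (by norm_num), ← Real.rpow_add (by norm_num)]
        congr 1
        ring
    _ = (∑ k ∈ rich a t, (2 : ℝ) ^ (-(3 / 8) * (a k - t))) * (2 : ℝ) ^ (-(3 / 8) * ((t : ℝ) - L)) := by
        rw [Finset.sum_mul]
    _ ≤ cc * (2 : ℝ) ^ (-(3 / 8) * ((t : ℝ) - L)) := mul_le_mul_of_nonneg_right h1 (by positivity)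

lemma good_deep_mu (hg : good a t) (L : ℕ) :
    ∑ k ∈ deep a t, mu a L k ^ ((1 / 4) : ℝ) ≤ cc * (2 : ℝ) ^ (((t : ℝ) - L) / 4) := by
  unfold mu
  have h1 := good_deep_sum hg (s := 1 / 4) (by norm_num)
  calc ∑ k ∈ deep a t, ((2 : ℝ) ^ (a k - (L : ℝ))) ^ ((1 / 4) : ℝ)
      = ∑ k ∈ deep a t, (2 : ℝ) ^ (-(1 / 4) * (t - a k)) * (2 : ℝ) ^ (((t : ℝ) - L) / 4) := by
        refine Finset.sum_congr rfl fun k _ => ?_
        rw [← Real.rpow_mul (by norm_num), ← Real.rpow_add (by norm_num)]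
        congr 1
        ring
    _ = (∑ k ∈ deep a t, (2 : ℝ) ^ (-(1 / 4) * (t - a k))) * (2 : ℝ) ^ (((t : ℝ) - L) / 4) := by
        rw [Finset.sum_mul]
    _ ≤ cc * (2 : ℝ) ^ (((t : ℝ) - L) / 4) := mul_le_mul_of_nonneg_right h1 (by positivity)

lemma mu_ge_of_rich {L : ℕ} (_hL : L ≤ t) {k : Fin d} (hk : k ∈ rich a t) :
    (2 : ℝ) ^ ((t : ℝ) - L) ≤ mu a L k := by
  unfold mu
  apply Real.rpow_le_rpow_of_exponent_le (by norm_num)
  linarith [t_lt hk]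

end Vale.Agent.P262F
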