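import Vale.Agent.P262F.Defs

/-! Basic lemmas on `QQ`, `MM`, `EE` -/

namespace Vale.Agent.P262F
open Finset

section gen
variable {ι : Type*}

/-- weighted `L2` triangle inequality -/
theorem wl2_add (s : Finset ι) (w f g : ι → ℝ) (hw : ∀ i ∈ s, 0 ≤ w i) :
    √(∑ i ∈ s, (f i + g i) ^ 2 * w i) ≤ √(∑ i ∈ s, f i ^ 2 * w i) + √(∑ i ∈ s, g i ^ 2 * w i) := by
  have hf : 0 ≤ ∑ i ∈ s, f i ^ 2 * w i := sum_nonneg fun i hi => mul_nonneg (sq_nonneg _) (hw i hi)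
  have hg : 0 ≤ ∑ i ∈ s, g i ^ 2 * w i := sum_nonneg fun i hi => mul_nonneg (sq_nonneg _) (hw i hi)
  have hcs : ∑ i ∈ s, f i * g i * w i ≤ √(∑ i ∈ s, f i ^ 2 * w i) * √(∑ i ∈ s, g i ^ 2 * w i) := by
    have h1 : (∑ i ∈ s, (f i * √(w i)) * (g i * √(w i))) ^ 2 ≤
        (∑ i ∈ s, (f i * √(w i)) ^ 2) * ∑ i ∈ s, (g i * √(w i)) ^ 2 := sum_mul_sq_le_sq_mul_sq s _ _
    have e1 : ∑ i ∈ s, (f i * √(w i)) * (g i * √(w i)) = ∑ i ∈ s, f i * g i * w i :=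
      sum_congr rfl fun i hi => by
        have := Real.mul_self_sqrt (hw i hi)
        calc _ = f i * g i * (√(w i) * √(w i)) := by ring
          _ = _ := by rw [this]
    have e2 : ∀ f : ι → ℝ, ∑ i ∈ s, (f i * √(w i)) ^ 2 = ∑ i ∈ s, f i ^ 2 * w i := fun f =>
      sum_congr rfl fun i hi => by rw [mul_pow, Real.sq_sqrt (hw i hi)]
    rw [e1, e2, e2] at h1
    rw [← Real.sqrt_mul hf]
    exact Real.le_sqrt_of_sq_le h1
  apply Real.sqrt_le_iff.2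
  refine ⟨by positivity, ?_⟩
  have e3 : ∑ i ∈ s, (f i + g i) ^ 2 * w i = ∑ i ∈ s, f i ^ 2 * w i + ∑ i ∈ s, g i ^ 2 * w i +
      2 * ∑ i ∈ s, f i * g i * w i := by
    rw [mul_sum, ← sum_add_distrib, ← sum_add_distrib]
    exact sum_congr rfl fun i _ => by ring
  rw [e3]
  have s1 := Real.sq_sqrt hf
  have s2 := Real.sq_sqrt hg
  nlinarith

theorem wl2_smul (s : Finset ι) (w f : ι → ℝ) (c : ℝ) :
    √(∑ i ∈ s, (c * f i) ^ 2 * w i) = |c| * √(∑ i ∈ s, f i ^ 2 * w i) := by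
  rw [← Real.sqrt_sq_eq_abs, ← Real.sqrt_mul (sq_nonneg c), mul_sum]
  congr 1
  exact sum_congr rfl fun i _ => by ring

end gen

variable {ι : Type*} {d : ℕ}

theorem mu_pos (a : Fin d → ℝ) (L : ℕ) (k : Fin d) : 0 < mu a L k := by
  unfold mu; positivity

theorem mu_succ (a : Fin d → ℝ) (L : ℕ) (k : Fin d) : mu a L k = 2 * mu a (L + 1) k := by
  unfold mu
  rw [show a k - (L : ℝ) = 1 + (a k - ((L + 1 : ℕ) : ℝ)) by push_cast; ring,
    Real.rpow_add (by norm_num), Real.rpow_one]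

theorem mu_sub (a : Fin d → ℝ) (L h : ℕ) (hh : h ≤ L) (k : Fin d) :
    mu a (L - h) k = 2 ^ h * mu a L k := by
  unfold mu
  rw [show a k - ((L - h : ℕ) : ℝ) = (h : ℝ) + (a k - (L : ℝ)) by
    rw [Nat.cast_sub hh]; ring, Real.rpow_add (by norm_num), Real.rpow_natCast]

theorem one_lt_mu {a : Fin d → ℝ} {t L : ℕ} (hL : L ≤ t) {k : Fin d} (hk : k ∈ rich a t) :
    1 < mu a L k := by
  unfold mu
  have h1 : (t : ℝ) < a k := by simpa [rich] using hk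
  have h2 : (L : ℝ) ≤ t := by exact_mod_cast hL
  exact Real.one_lt_rpow (by norm_num) (by linarith)

theorem QQ_nonneg (a : Fin d → ℝ) (v : ι → Fin d → ℝ) (L : ℕ) (Rc : Finset (Fin d))
    (A : Finset ι) : 0 ≤ QQ a v L Rc A := by
  unfold QQ
  refine sum_nonneg fun k _ => sum_nonneg fun l _ => mul_nonneg (sq_nonneg _) ?_
  exact Real.rpow_nonneg (mul_nonneg (mu_pos a L k).le (mu_pos a L l).le) _

theorem EE_nonneg (v : ι → Fin d → ℝ) (D : Finset (Fin d)) (α : Fin d → ℝ) (A : Finset ι) :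
    0 ≤ EE v D α A := sum_nonneg fun _ _ => sum_nonneg fun _ _ => sq_nonneg _

theorem v_sq_le_one {v : ι → Fin d → ℝ} {i : ι} (hv : ∑ k, v i k ^ 2 ≤ 1) (k : Fin d) :
    v i k ^ 2 ≤ 1 :=
  le_trans (single_le_sum (f := fun k => v i k ^ 2) (fun _ _ => sq_nonneg _) (mem_univ k)) hv

/-- diagonal bound from `QQ` -/
theorem MM_diag_le {a : Fin d → ℝ} {L : ℕ} {v : ι → Fin d → ℝ} {A : Finset ι}
    {Rc : Finset (Fin d)} {s : ℝ} (hs : 0 ≤ s)
    (hQ : QQ a v L Rc A ≤ s ^ 2) {k : Fin d} (hk : k ∈ Rc) (hμ : 1 ≤ mu a L k) :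
    MM v A k k ≤ (1 + s) * mu a L k := by
  have h0 : ∀ k l, 0 ≤ (MM v A k l - if k = l then mu a L k else 0) ^ 2 *
    (mu a L k * mu a L l) ^ (-(7 / 8) : ℝ) := fun k l => mul_nonneg (sq_nonneg _)
      (Real.rpow_nonneg (mul_nonneg (mu_pos a L k).le (mu_pos a L l).le) _)
  have h1 : (MM v A k k - if k = k then mu a L k else 0) ^ 2 *
      (mu a L k * mu a L k) ^ (-(7 / 8) : ℝ) ≤ s ^ 2 := by
    refine le_trans ?_ hQ
    unfold QQ
    refine le_trans ?_ (single_le_sum (f := fun k => ∑ l ∈ Rc,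
      (MM v A k l - if k = l then mu a L k else 0) ^ 2 *
      (mu a L k * mu a L l) ^ (-(7 / 8) : ℝ)) (fun k _ => sum_nonneg fun l _ => h0 k l) hk)
    exact single_le_sum (f := fun l => (MM v A k l - if k = l then mu a L k else 0) ^ 2 *
      (mu a L k * mu a L l) ^ (-(7 / 8) : ℝ)) (fun l _ => h0 k l) hk
  simp only [if_true] at h1
  have hμ0 := mu_pos a L k
  have e1 : (mu a L k * mu a L k) ^ (-(7 / 8) : ℝ) = mu a L k ^ (-(7 / 4) : ℝ) := by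
    rw [Real.mul_rpow hμ0.le hμ0.le, ← Real.rpow_add hμ0]; norm_num
  have h2 : mu a L k ^ (-2 : ℝ) ≤ mu a L k ^ (-(7 / 4) : ℝ) :=
    Real.rpow_le_rpow_of_exponent_le hμ (by norm_num)
  rw [e1] at h1
  have h3 : (MM v A k k - mu a L k) ^ 2 * mu a L k ^ (-2 : ℝ) ≤ s ^ 2 :=
    le_trans (mul_le_mul_of_nonneg_left h2 (sq_nonneg _)) h1
  have e2 : mu a L k ^ (-2 : ℝ) = (mu a L k ^ 2)⁻¹ := by
    rw [Real.rpow_neg hμ0.le]; norm_num
  rw [e2, ← div_eq_mul_inv, div_le_iff₀ (by positivity), ← mul_pow] at h3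
  have h4 := abs_le_of_sq_le_sq h3 (by positivity)
  have := le_abs_self (MM v A k k - mu a L k)
  linarith

/-- fourth moment bound -/
theorem four_moment {a : Fin d → ℝ} {L : ℕ} {v : ι → Fin d → ℝ} {A : Finset ι}
    (hv : ∀ i ∈ A, ∑ k, v i k ^ 2 ≤ 1)
    {Rc : Finset (Fin d)} {C : ℝ} (hC : 0 ≤ C)
    (hM : ∀ k ∈ Rc, MM v A k k ≤ C * mu a L k) :
    ∑ i ∈ A, ∑ k ∈ Rc, ∑ l ∈ Rc, (v i k * v i l) ^ 2 * (mu a L k * mu a L l) ^ (-(7 / 8) : ℝ) ≤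
      C * (∑ k ∈ Rc, mu a L k ^ (-(3 / 8) : ℝ)) ^ 2 := by
  have key : ∀ k ∈ Rc, ∀ l ∈ Rc, ∑ i ∈ A, (v i k * v i l) ^ 2 *
      (mu a L k * mu a L l) ^ (-(7 / 8) : ℝ) ≤
      C * (mu a L k ^ (-(3 / 8) : ℝ) * mu a L l ^ (-(3 / 8) : ℝ)) := by
    intro k hk l hl
    have hμk := mu_pos a L k
    have hμl := mu_pos a L l
    rw [← sum_mul]
    have h1 : ∀ k l : Fin d, ∑ i ∈ A, (v i k * v i l) ^ 2 ≤ MM v A k k := by
      intro k l
      unfold MM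
      refine sum_le_sum fun i hi => ?_
      have := v_sq_le_one (hv i hi) l
      rw [mul_pow]
      nlinarith [sq_nonneg (v i k)]
    have h2 : ∑ i ∈ A, (v i k * v i l) ^ 2 ≤ C * (mu a L k * mu a L l) ^ (1 / 2 : ℝ) := by
      have h3 := le_trans (h1 k l) (hM k hk)
      have h4 : ∑ i ∈ A, (v i k * v i l) ^ 2 ≤ C * mu a L l := by
        refine le_trans ?_ (hM l hl)
        refine le_trans (le_of_eq ?_) (h1 l k)
        exact sum_congr rfl fun i _ => by rw [mul_comm]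
      rcases le_total (mu a L k) (mu a L l) with h | h
      · refine le_trans h3 (mul_le_mul_of_nonneg_left ?_ hC)
        rw [← Real.sqrt_eq_rpow]
        apply Real.le_sqrt_of_sq_le
        nlinarith
      · refine le_trans h4 (mul_le_mul_of_nonneg_left ?_ hC)
        rw [← Real.sqrt_eq_rpow]
        apply Real.le_sqrt_of_sq_le
        nlinarith
    have hp : 0 < mu a L k * mu a L l := mul_pos hμk hμl
    calc _ ≤ C * (mu a L k * mu a L l) ^ (1 / 2 : ℝ) * (mu a L k * mu a L l) ^ (-(7 / 8) : ℝ) :=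
          mul_le_mul_of_nonneg_right h2 (Real.rpow_nonneg hp.le _)
      _ = C * (mu a L k * mu a L l) ^ (-(3 / 8) : ℝ) := by
          rw [mul_assoc, ← Real.rpow_add hp]; norm_num
      _ = _ := by rw [Real.mul_rpow hμk.le hμl.le]
  rw [sum_comm]
  have e : ∑ k ∈ Rc, ∑ i ∈ A, ∑ l ∈ Rc, (v i k * v i l) ^ 2 *
      (mu a L k * mu a L l) ^ (-(7 / 8) : ℝ) = ∑ k ∈ Rc, ∑ l ∈ Rc, ∑ i ∈ A, (v i k * v i l) ^ 2 *
      (mu a L k * mu a L l) ^ (-(7 / 8) : ℝ) := sum_congr rfl fun k _ => sum_comm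
  rw [e]
  calc _ ≤ ∑ k ∈ Rc, ∑ l ∈ Rc, C * (mu a L k ^ (-(3 / 8) : ℝ) * mu a L l ^ (-(3 / 8) : ℝ)) :=
        sum_le_sum fun k hk => sum_le_sum fun l hl => key k hk l hl
    _ = _ := by
        rw [sq, sum_mul_sum, mul_sum]
        refine sum_congr rfl fun k _ => ?_
        rw [mul_sum]

/-- quadratic form bound -/
theorem quad_form {a : Fin d → ℝ} {L : ℕ} {v : ι → Fin d → ℝ} {A : Finset ι}
    {Rc : Finset (Fin d)} {s : ℝ} (hs : 0 ≤ s)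
    (hQ : QQ a v L Rc A ≤ s ^ 2) (hμ : ∀ k ∈ Rc, 1 ≤ mu a L k) (y : Fin d → ℝ) :
    |∑ i ∈ A, (∑ k ∈ Rc, y k * v i k) ^ 2 - ∑ k ∈ Rc, mu a L k * y k ^ 2| ≤
      s * ∑ k ∈ Rc, mu a L k * y k ^ 2 := by
  have e1 : ∑ i ∈ A, (∑ k ∈ Rc, y k * v i k) ^ 2 = ∑ k ∈ Rc, ∑ l ∈ Rc, y k * y l * MM v A k l := by
    unfold MM
    simp_rw [sq, sum_mul_sum]
    rw [sum_comm]
    refine sum_congr rfl fun k _ => ?_
    rw [sum_comm]
    refine sum_congr rfl fun l _ => ?_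
    rw [mul_sum]
    exact sum_congr rfl fun i _ => by ring
  have e2 : ∑ k ∈ Rc, mu a L k * y k ^ 2 = ∑ k ∈ Rc, ∑ l ∈ Rc, y k * y l *
      (if k = l then mu a L k else 0) := by
    refine sum_congr rfl fun k hk => ?_
    rw [sum_eq_single k]
    · simp only [if_true]; ring
    · intro l _ hl; rw [if_neg (Ne.symm hl)]; ring
    · intro h; exact absurd hk h
  have hT : 0 ≤ ∑ k ∈ Rc, mu a L k * y k ^ 2 :=
    sum_nonneg fun k _ => mul_nonneg (mu_pos a L k).le (sq_nonneg _)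
  have e3 : ∑ i ∈ A, (∑ k ∈ Rc, y k * v i k) ^ 2 - ∑ k ∈ Rc, mu a L k * y k ^ 2 =
      ∑ p ∈ Rc ×ˢ Rc, ((MM v A p.1 p.2 - if p.1 = p.2 then mu a L p.1 else 0) *
        (mu a L p.1 * mu a L p.2) ^ (-(7 / 16) : ℝ)) *
        (y p.1 * y p.2 * (mu a L p.1 * mu a L p.2) ^ ((7 / 16) : ℝ)) := by
    rw [e1, e2, ← sum_sub_distrib, sum_product]
    refine sum_congr rfl fun k _ => ?_
    rw [← sum_sub_distrib]
    refine sum_congr rfl fun l _ => ?_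
    have hp : 0 < mu a L k * mu a L l := mul_pos (mu_pos a L k) (mu_pos a L l)
    have h5 : (mu a L k * mu a L l) ^ (-(7 / 16) : ℝ) * (mu a L k * mu a L l) ^ ((7 / 16) : ℝ) = 1 := by
      rw [← Real.rpow_add hp]; norm_num
    show y k * y l * MM v A k l - y k * y l * (if k = l then mu a L k else 0) =
      ((MM v A k l - if k = l then mu a L k else 0) * (mu a L k * mu a L l) ^ (-(7 / 16) : ℝ)) *
        (y k * y l * (mu a L k * mu a L l) ^ ((7 / 16) : ℝ))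
    calc _ = ((MM v A k l - if k = l then mu a L k else 0)) * (y k * y l) * 1 := by ring
      _ = _ := by rw [← h5]; ring
  have hcs := sum_mul_sq_le_sq_mul_sq (Rc ×ˢ Rc)
    (fun p => (MM v A p.1 p.2 - if p.1 = p.2 then mu a L p.1 else 0) *
        (mu a L p.1 * mu a L p.2) ^ (-(7 / 16) : ℝ))
    (fun p => y p.1 * y p.2 * (mu a L p.1 * mu a L p.2) ^ ((7 / 16) : ℝ))
  rw [← e3] at hcs
  have e4 : ∑ p ∈ Rc ×ˢ Rc, ((MM v A p.1 p.2 - if p.1 = p.2 then mu a L p.1 else 0) *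
        (mu a L p.1 * mu a L p.2) ^ (-(7 / 16) : ℝ)) ^ 2 = QQ a v L Rc A := by
    unfold QQ
    rw [sum_product]
    refine sum_congr rfl fun k _ => sum_congr rfl fun l _ => ?_
    have hp : 0 < mu a L k * mu a L l := mul_pos (mu_pos a L k) (mu_pos a L l)
    rw [mul_pow, ← Real.rpow_natCast ((mu a L k * mu a L l) ^ (-(7 / 16) : ℝ)) 2,
      ← Real.rpow_mul hp.le]
    norm_num
  have e5 : ∑ p ∈ Rc ×ˢ Rc, (y p.1 * y p.2 * (mu a L p.1 * mu a L p.2) ^ ((7 / 16) : ℝ)) ^ 2 =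
      (∑ k ∈ Rc, mu a L k ^ ((7 / 8) : ℝ) * y k ^ 2) ^ 2 := by
    rw [sq (∑ k ∈ Rc, _), sum_mul_sum, sum_product]
    refine sum_congr rfl fun k _ => sum_congr rfl fun l _ => ?_
    have hk := mu_pos a L k
    have hl := mu_pos a L l
    have hp : 0 < mu a L k * mu a L l := mul_pos hk hl
    rw [mul_pow, ← Real.rpow_natCast ((mu a L k * mu a L l) ^ ((7 / 16) : ℝ)) 2,
      ← Real.rpow_mul hp.le, show ((7 / 16 : ℝ) * ((2 : ℕ) : ℝ)) = 7 / 8 by norm_num,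
      Real.mul_rpow hk.le hl.le]
    ring
  have h6 : ∑ k ∈ Rc, mu a L k ^ ((7 / 8) : ℝ) * y k ^ 2 ≤ ∑ k ∈ Rc, mu a L k * y k ^ 2 := by
    refine sum_le_sum fun k hk => mul_le_mul_of_nonneg_right ?_ (sq_nonneg _)
    calc _ ≤ mu a L k ^ (1 : ℝ) := Real.rpow_le_rpow_of_exponent_le (hμ k hk) (by norm_num)
      _ = _ := Real.rpow_one _
  have h7 : 0 ≤ ∑ k ∈ Rc, mu a L k ^ ((7 / 8) : ℝ) * y k ^ 2 :=
    sum_nonneg fun k _ => mul_nonneg (Real.rpow_nonneg (mu_pos a L k).le _) (sq_nonneg _)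
  rw [e4, e5] at hcs
  apply abs_le_of_sq_le_sq _ (by positivity)
  calc _ ≤ QQ a v L Rc A * (∑ k ∈ Rc, mu a L k ^ ((7 / 8) : ℝ) * y k ^ 2) ^ 2 := hcs
    _ ≤ s ^ 2 * (∑ k ∈ Rc, mu a L k * y k ^ 2) ^ 2 :=
        mul_le_mul hQ (pow_le_pow_left₀ h7 h6 2) (sq_nonneg _) (sq_nonneg _)
    _ = _ := by ring

end Vale.Agent.P262F
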