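import Vale.Agent.P262F.M2
import Vale.Agent.P262F.QLem
import Vale.Agent.P262F.Good

/-! M3: the steered halving -/

namespace Vale.Agent.P262F
open Finset

variable {ι : Type*} [DecidableEq ι] {d : ℕ}

/-- solving the linear system on the rich coordinates -/
theorem solve_rich {a : Fin d → ℝ} {L : ℕ} {v : ι → Fin d → ℝ} {A : Finset ι}
    {Rc : Finset (Fin d)}
    (hQ : QQ a v L Rc A ≤ (1 / 2) ^ 2) (hμ : ∀ k ∈ Rc, 1 ≤ mu a L k) (g : Fin d → ℝ) :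
    ∃ y : Fin d → ℝ, (∀ k ∈ Rc, ∑ l ∈ Rc, MM v A k l * y l = g k) ∧
      ∑ i ∈ A, (∑ k ∈ Rc, y k * v i k) ^ 2 ≤ 2 * ∑ k ∈ Rc, g k ^ 2 / mu a L k := by
  classical
  have hquad : ∀ y : Fin d → ℝ, (1 / 2) * ∑ k ∈ Rc, mu a L k * y k ^ 2 ≤
      ∑ i ∈ A, (∑ k ∈ Rc, y k * v i k) ^ 2 := by
    intro y
    have h := quad_form (by norm_num : (0 : ℝ) ≤ 1 / 2) hQ hμ y
    have h2 := neg_abs_le (∑ i ∈ A, (∑ k ∈ Rc, y k * v i k) ^ 2 - ∑ k ∈ Rc, mu a L k * y k ^ 2)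
    linarith
  have hexp : ∀ y : Fin d → ℝ, ∑ i ∈ A, (∑ k ∈ Rc, y k * v i k) ^ 2 =
      ∑ k ∈ Rc, y k * ∑ l ∈ Rc, MM v A k l * y l := by
    intro y
    unfold MM
    simp_rw [sq, sum_mul_sum]
    rw [sum_comm]
    refine sum_congr rfl fun k _ => ?_
    rw [sum_comm, mul_sum]
    refine sum_congr rfl fun l _ => ?_
    rw [sum_mul, mul_sum]
    exact sum_congr rfl fun i _ => by ring
  -- the linear map
  let T : (Fin d → ℝ) →ₗ[ℝ] (Fin d → ℝ) :=
    { toFun := fun y k => if k ∈ Rc then ∑ l ∈ Rc, MM v A k l * y l else y k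
      map_add' := by
        intro y z
        ext k
        show (if k ∈ Rc then ∑ l ∈ Rc, MM v A k l * (y l + z l) else (y k + z k)) =
          (if k ∈ Rc then ∑ l ∈ Rc, MM v A k l * y l else y k) +
          (if k ∈ Rc then ∑ l ∈ Rc, MM v A k l * z l else z k)
        by_cases hk : k ∈ Rc
        · simp only [hk, if_true, mul_add, sum_add_distrib]
        · simp only [hk, if_false]
      map_smul' := by
        intro c y
        ext k
        show (if k ∈ Rc then ∑ l ∈ Rc, MM v A k l * (c * y l) else c * y k) =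
          c * (if k ∈ Rc then ∑ l ∈ Rc, MM v A k l * y l else y k)
        by_cases hk : k ∈ Rc
        · simp only [hk, if_true, mul_sum]
          exact sum_congr rfl fun l _ => by ring
        · simp only [hk, if_false] }
  have hTk : ∀ y k, k ∈ Rc → T y k = ∑ l ∈ Rc, MM v A k l * y l := by
    intro y k hk
    show (if k ∈ Rc then _ else _) = _
    rw [if_pos hk]
  have hTn : ∀ y k, k ∉ Rc → T y k = y k := by
    intro y k hk
    show (if k ∈ Rc then _ else _) = _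
    rw [if_neg hk]
  have hinj : Function.Injective T := by
    rw [← LinearMap.ker_eq_bot, LinearMap.ker_eq_bot']
    intro y hy
    have h1 : ∑ i ∈ A, (∑ k ∈ Rc, y k * v i k) ^ 2 = 0 := by
      rw [hexp y]
      refine sum_eq_zero fun k hk => ?_
      rw [← hTk y k hk, hy]
      simp
    have h2 := hquad y
    rw [h1] at h2
    have h3 : ∑ k ∈ Rc, mu a L k * y k ^ 2 = 0 := by
      refine le_antisymm (by linarith) (sum_nonneg fun k _ => mul_nonneg (mu_pos a L k).le (sq_nonneg _))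
    have h4 := (sum_eq_zero_iff_of_nonneg
      (fun k _ => mul_nonneg (mu_pos a L k).le (sq_nonneg _))).1 h3
    ext k
    by_cases hk : k ∈ Rc
    · have := h4 k hk
      rcases mul_eq_zero.1 this with h | h
      · exact absurd h (mu_pos a L k).ne'
      · simpa using h
    · rw [← hTn y k hk, hy]
  obtain ⟨y, hy⟩ := (LinearMap.injective_iff_surjective.1 hinj) g
  refine ⟨y, fun k hk => by rw [← hTk y k hk, hy], ?_⟩
  have e1 : ∑ i ∈ A, (∑ k ∈ Rc, y k * v i k) ^ 2 = ∑ k ∈ Rc, y k * g k := by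
    rw [hexp y]
    refine sum_congr rfl fun k hk => ?_
    rw [← hTk y k hk, hy]
  have h2 := hquad y
  set q := ∑ i ∈ A, (∑ k ∈ Rc, y k * v i k) ^ 2
  have hG : 0 ≤ ∑ k ∈ Rc, g k ^ 2 / mu a L k :=
    sum_nonneg fun k _ => div_nonneg (sq_nonneg _) (mu_pos a L k).le
  -- weighted Cauchy–Schwarz / AM-GM
  have h5 : ∑ k ∈ Rc, y k * g k ≤ ∑ k ∈ Rc, (1 / 4 * (mu a L k * y k ^ 2) + g k ^ 2 / mu a L k) := by
    refine sum_le_sum fun k _ => ?_
    have hm := mu_pos a L k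
    rw [← sub_nonneg]
    have : 1 / 4 * (mu a L k * y k ^ 2) + g k ^ 2 / mu a L k - y k * g k =
      (mu a L k * y k / 2 - g k) ^ 2 / mu a L k := by
      field_simp
      ring
    rw [this]
    positivity
  rw [sum_add_distrib, ← mul_sum] at h5
  rw [e1] at h2 ⊢
  linarith

/-- `signs` over a finset, without prefixes -/
theorem signsA {C1 C2 R : Type*} [Fintype C1] [Fintype C2] [Fintype R]
    {A : Finset ι} {v : ι → Fin d → ℝ} (hv : ∀ i ∈ A, ∑ k, v i k ^ 2 ≤ 1)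
    (x : ι → ℝ) (hx : ∀ i ∈ A, |x i| ≤ 1)
    (S : C1 → Finset (Fin d)) (B : C1 → ℝ)
    (φ : C2 → R → ι → ℝ) (H lam : C2 → ℝ) (hH0 : ∀ c, 0 < H c)
    (hH : ∀ c, ∑ r, ∑ i ∈ A, φ c r i ^ 2 ≤ H c)
    (hsum : ∑ c, (2 : ℝ) ^ (((S c).card : ℝ) / 2) * Real.exp (-(B c) / K0)
      + ∑ c, √2 * Real.exp (-(lam c)) ≤ 1 / 2) :
    ∃ ε : ι → ℝ, (∀ i ∈ A, ε i = 1 ∨ ε i = -1) ∧
      (∀ c, ∑ k ∈ S c, (∑ i ∈ A, (ε i - x i) * v i k) ^ 2 ≤ B c) ∧
      (∀ c, ∑ r, (∑ i ∈ A, (ε i - x i) * φ c r i) ^ 2 ≤ K0 * lam c * H c) := by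
  classical
  obtain ⟨ε, h1, h2, h3⟩ := signs (ι := {i // i ∈ A}) (fun i k => v i.1 k) (fun i => hv i.1 i.2)
    (fun i => x i.1) (fun i => hx i.1 i.2) (fun _ => 0) (fun _ : C1 => 1) S B
    (fun c r i => φ c r i.1) H lam hH0
    (fun c => by
      refine le_trans (le_of_eq ?_) (hH c)
      exact sum_congr rfl fun r _ => sum_coe_sort A (fun i => φ c r i ^ 2)) hsum
  have key : ∀ F : ι → ℝ, ∑ i ∈ A, ((if h : i ∈ A then ε ⟨i, h⟩ else 0) - x i) * F i =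
      ∑ i : {i // i ∈ A}, (ε i - x i.1) * F i.1 := by
    intro F
    rw [← sum_coe_sort A]
    refine sum_congr rfl fun i _ => ?_
    rw [dif_pos i.2]
  refine ⟨fun i => if h : i ∈ A then ε ⟨i, h⟩ else 0, ?_, ?_, ?_⟩
  · intro i hi
    simp only [hi, dif_pos]
    exact h1 _
  · intro c
    refine le_trans (le_of_eq ?_) (h2 c)
    refine sum_congr rfl fun k _ => ?_
    rw [key (fun i => v i k)]
    congr 1
    refine sum_congr ?_ fun _ _ => rfl
    ext i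
    simp
  · intro c
    refine le_trans (le_of_eq ?_) (h3 c)
    refine sum_congr rfl fun r _ => ?_
    rw [key (fun i => φ c r i)]

theorem two_rpow_le_exp {x : ℝ} (hx : 0 ≤ x) : (2 : ℝ) ^ x ≤ Real.exp x := by
  rw [Real.rpow_def_of_pos (by norm_num)]
  apply Real.exp_le_exp.2
  have := Real.log_two_lt_d9
  nlinarith

theorem exp_neg_le (n : ℕ) : Real.exp (-(n : ℝ)) ≤ (1 / 2) ^ n := by
  have h : Real.exp (-(n : ℝ)) = (Real.exp (-1)) ^ n := by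
    rw [← Real.exp_nat_mul]; congr 1; ring
  rw [h]
  refine pow_le_pow_left₀ (Real.exp_pos _).le ?_ n
  rw [Real.exp_neg]
  have h1 : (2 : ℝ) ≤ Real.exp 1 := by have := Real.exp_one_gt_d9; linarith
  rw [one_div]
  exact inv_anti₀ (by norm_num) h1

/-- the bounds of the prefix constraints -/
noncomputable def Bfun (N u : ℕ) : Option (Fin N) → ℝ
  | none => K0 * ((u : ℝ) + 4)
  | some c => 6 * K0 * ((c : ℕ) + 1 : ℝ)

/-- the sum over the families of constraints -/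
theorem hsum_aux (N u : ℕ) (S : Option (Fin N) → Finset (Fin d))
    (hS : ∀ c : Fin N, (S (some c)).card ≤ (c : ℕ) + 1) (hU : (S none).card ≤ u) :
    ∑ c : Option (Fin N), (2 : ℝ) ^ (((S c).card : ℝ) / 2) *
      Real.exp (-(Bfun N u c) / K0)
      + ∑ _c : Fin 3, √2 * Real.exp (-4) ≤ 1 / 2 := by
  have hK : (0 : ℝ) < K0 := by norm_num [K0]
  rw [Fintype.sum_option]
  simp only [Bfun]
  have e0 : (2 : ℝ) ^ (((S none).card : ℝ) / 2) * Real.exp (-(K0 * ((u : ℝ) + 4)) / K0) ≤ 1 / 16 := by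
    have h1 : (2 : ℝ) ^ (((S none).card : ℝ) / 2) ≤ Real.exp (u : ℝ) := by
      refine le_trans (two_rpow_le_exp (by positivity)) (Real.exp_le_exp.2 ?_)
      have : ((S none).card : ℝ) ≤ u := by exact_mod_cast hU
      have h0 : (0 : ℝ) ≤ (S none).card := by positivity
      linarith
    have h2 : -(K0 * ((u : ℝ) + 4)) / K0 = -(u : ℝ) + -((4 : ℕ) : ℝ) := by
      field_simp
      push_cast
      ring
    rw [h2, Real.exp_add]
    have h3 := exp_neg_le 4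
    calc _ ≤ Real.exp (u : ℝ) * (Real.exp (-(u : ℝ)) * Real.exp (-((4 : ℕ) : ℝ))) :=
          mul_le_mul_of_nonneg_right h1 (by positivity)
      _ = Real.exp (-((4 : ℕ) : ℝ)) := by
          rw [← mul_assoc, ← Real.exp_add]; simp
      _ ≤ _ := by refine le_trans h3 ?_; norm_num
  have e1 : ∀ c : Fin N, (2 : ℝ) ^ (((S (some c)).card : ℝ) / 2) *
      Real.exp (-(6 * K0 * ((c : ℕ) + 1 : ℝ)) / K0) ≤ (1 / 32) ^ ((c : ℕ) + 1) := by
    intro c
    have h1 : (2 : ℝ) ^ (((S (some c)).card : ℝ) / 2) ≤ Real.exp ((c : ℕ) + 1 : ℝ) := by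
      refine le_trans (two_rpow_le_exp (by positivity)) (Real.exp_le_exp.2 ?_)
      have : ((S (some c)).card : ℝ) ≤ (c : ℕ) + 1 := by exact_mod_cast hS c
      have h0 : (0 : ℝ) ≤ (S (some c)).card := by positivity
      linarith
    have h2 : -(6 * K0 * ((c : ℕ) + 1 : ℝ)) / K0 = -(((c : ℕ) : ℝ) + 1) +
        -((5 * ((c : ℕ) + 1) : ℕ) : ℝ) := by
      field_simp
      push_cast
      ring
    rw [h2, Real.exp_add]
    have h3 := exp_neg_le (5 * ((c : ℕ) + 1))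
    calc _ ≤ Real.exp ((c : ℕ) + 1 : ℝ) * (Real.exp (-(((c : ℕ) : ℝ) + 1)) *
          Real.exp (-((5 * ((c : ℕ) + 1) : ℕ) : ℝ))) :=
          mul_le_mul_of_nonneg_right h1 (by positivity)
      _ = Real.exp (-((5 * ((c : ℕ) + 1) : ℕ) : ℝ)) := by
          rw [← mul_assoc, ← Real.exp_add]; simp
      _ ≤ _ := by
          refine le_trans h3 (le_of_eq ?_)
          rw [pow_mul]; norm_num
  have e2 : ∑ c : Fin N, (1 / 32 : ℝ) ^ ((c : ℕ) + 1) ≤ 1 / 31 := by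
    rw [Fin.sum_univ_eq_sum_range (fun n => (1 / 32 : ℝ) ^ (n + 1))]
    have h : ∀ n : ℕ, ∑ i ∈ range n, (1 / 32 : ℝ) ^ (i + 1) = 1 / 31 * (1 - (1 / 32) ^ n) := by
      intro n
      induction n with
      | zero => simp
      | succ n ih => rw [sum_range_succ, ih]; ring
    rw [h]
    have : (0 : ℝ) ≤ (1 / 32) ^ N := by positivity
    linarith
  have e3 : ∑ c : Fin N, (2 : ℝ) ^ (((S (some c)).card : ℝ) / 2) *
      Real.exp (-(6 * K0 * ((c : ℕ) + 1 : ℝ)) / K0) ≤ 1 / 31 :=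
    le_trans (sum_le_sum fun c _ => e1 c) e2
  have e4 : ∑ _c : Fin 3, √2 * Real.exp (-4) ≤ 3 * (3 / 2 * (1 / 16)) := by
    rw [sum_const, card_univ, Fintype.card_fin, nsmul_eq_mul]
    have h1 : √2 ≤ 3 / 2 := by
      rw [Real.sqrt_le_left (by norm_num)]; norm_num
    have h2 : Real.exp (-4) ≤ 1 / 16 := by
      have := exp_neg_le 4
      norm_num at this ⊢
      exact this
    have h3 := Real.exp_pos (-4)
    push_cast
    nlinarith [Real.sqrt_nonneg 2]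
  have e5 := add_le_add (add_le_add e0 e3) e4
  refine le_trans e5 (by norm_num)

/-- combining the balanced part and the steering part -/
theorem comb {R : Type*} (s : Finset R) (A : Finset ι) (φ : R → ι → ℝ) (ε x : ι → ℝ) {H : ℝ}
    (hH : ∑ r ∈ s, ∑ i ∈ A, φ r i ^ 2 ≤ H)
    (h1 : ∑ r ∈ s, (∑ i ∈ A, (ε i - x i) * φ r i) ^ 2 ≤ K0 * 4 * H)
    (hx : ∑ i ∈ A, x i ^ 2 ≤ 1 / 10 ^ 8) :
    ∑ r ∈ s, (∑ i ∈ A, ε i * φ r i) ^ 2 ≤ (4 * K0 + 1) * H := by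
  have hH0 : 0 ≤ H := le_trans (sum_nonneg fun _ _ => sum_nonneg fun _ _ => sq_nonneg _) hH
  have hrow : ∀ r ∈ s, (∑ i ∈ A, ε i * φ r i) ^ 2 ≤
      (1 + 1 / (8 * K0)) * (∑ i ∈ A, (ε i - x i) * φ r i) ^ 2 +
        (1 + 8 * K0) * (1 / 10 ^ 8 * ∑ i ∈ A, φ r i ^ 2) := by
    intro r _
    have e : ∑ i ∈ A, ε i * φ r i = ∑ i ∈ A, (ε i - x i) * φ r i + ∑ i ∈ A, x i * φ r i := by
      rw [← sum_add_distrib]; exact sum_congr rfl fun i _ => by ring
    have h2 : (∑ i ∈ A, x i * φ r i) ^ 2 ≤ 1 / 10 ^ 8 * ∑ i ∈ A, φ r i ^ 2 :=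
      le_trans (sum_mul_sq_le_sq_mul_sq A _ _)
        (mul_le_mul_of_nonneg_right hx (sum_nonneg fun _ _ => sq_nonneg _))
    rw [e]
    set p := ∑ i ∈ A, (ε i - x i) * φ r i
    set q := ∑ i ∈ A, x i * φ r i
    have h3 : (p + q) ^ 2 ≤ (1 + 1 / (8 * K0)) * p ^ 2 + (1 + 8 * K0) * q ^ 2 := by
      have h4 : (1 + 1 / (8 * K0)) * p ^ 2 + (1 + 8 * K0) * q ^ 2 - (p + q) ^ 2 =
          (p - 8 * K0 * q) ^ 2 / (8 * K0) := by
        have : K0 ≠ 0 := by norm_num [K0]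
        field_simp
        ring
      have h5 : 0 ≤ (p - 8 * K0 * q) ^ 2 / (8 * K0) := by
        apply div_nonneg (sq_nonneg _); norm_num [K0]
      linarith
    refine le_trans h3 ?_
    have h6 : (0 : ℝ) ≤ 1 + 8 * K0 := by norm_num [K0]
    have := mul_le_mul_of_nonneg_left h2 h6
    linarith
  calc _ ≤ ∑ r ∈ s, ((1 + 1 / (8 * K0)) * (∑ i ∈ A, (ε i - x i) * φ r i) ^ 2 +
        (1 + 8 * K0) * (1 / 10 ^ 8 * ∑ i ∈ A, φ r i ^ 2)) := sum_le_sum hrow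
    _ = (1 + 1 / (8 * K0)) * ∑ r ∈ s, (∑ i ∈ A, (ε i - x i) * φ r i) ^ 2 +
        (1 + 8 * K0) * (1 / 10 ^ 8 * ∑ r ∈ s, ∑ i ∈ A, φ r i ^ 2) := by
        rw [sum_add_distrib, mul_sum, mul_sum, mul_sum]
    _ ≤ (1 + 1 / (8 * K0)) * (K0 * 4 * H) + (1 + 8 * K0) * (1 / 10 ^ 8 * H) := by
        have a1 : (0 : ℝ) ≤ 1 + 1 / (8 * K0) := by norm_num [K0]
        have a2 : (0 : ℝ) ≤ 1 + 8 * K0 := by norm_num [K0]
        have a3 := mul_le_mul_of_nonneg_left h1 a1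
        have a4 : 1 / 10 ^ 8 * ∑ r ∈ s, ∑ i ∈ A, φ r i ^ 2 ≤ 1 / 10 ^ 8 * H :=
          mul_le_mul_of_nonneg_left hH (by norm_num)
        have a5 := mul_le_mul_of_nonneg_left a4 a2
        linarith
    _ ≤ _ := by
        have : (1 + 1 / (8 * K0)) * (K0 * 4 * H) + (1 + 8 * K0) * (1 / 10 ^ 8 * H) =
          ((1 + 1 / (8 * K0)) * (K0 * 4) + (1 + 8 * K0) * (1 / 10 ^ 8)) * H := by ring
        rw [this]
        refine mul_le_mul_of_nonneg_right ?_ hH0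
        norm_num [K0]

/-- the rows of the three linear-form constraints -/
noncomputable def phiR (Rc D : Finset (Fin d)) (f : ι → ℝ) (F : Fin d → ι → ℝ)
    (G : Fin d → Fin d → ι → ℝ) : Fin 3 → ((Fin d × Fin d) ⊕ (Fin d ⊕ Unit)) → ι → ℝ :=
  ![Sum.elim (fun _ _ => 0) (Sum.elim (fun _ _ => 0) (fun _ => f)),
    Sum.elim (fun _ _ => 0) (Sum.elim (fun k => if k ∈ D then F k else fun _ => 0) (fun _ _ => 0)),
    Sum.elim (fun p => if p.1 ∈ Rc ∧ p.2 ∈ Rc then G p.1 p.2 else fun _ => 0) (fun _ _ => 0)]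

theorem phiR_zero (Rc D : Finset (Fin d)) (f : ι → ℝ) (F : Fin d → ι → ℝ)
    (G : Fin d → Fin d → ι → ℝ) (T : (ι → ℝ) → ℝ) (hT : T (fun _ => 0) = 0) :
    ∑ r, T (phiR Rc D f F G 0 r) = T f := by
  simp [phiR, Fintype.sum_sum_type, hT]

theorem phiR_one (Rc D : Finset (Fin d)) (f : ι → ℝ) (F : Fin d → ι → ℝ)
    (G : Fin d → Fin d → ι → ℝ) (T : (ι → ℝ) → ℝ) (hT : T (fun _ => 0) = 0) :
    ∑ r, T (phiR Rc D f F G 1 r) = ∑ k ∈ D, T (F k) := by
  simp [phiR, Fintype.sum_sum_type, hT, apply_ite T, sum_ite_mem]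

theorem phiR_two (Rc D : Finset (Fin d)) (f : ι → ℝ) (F : Fin d → ι → ℝ)
    (G : Fin d → Fin d → ι → ℝ) (T : (ι → ℝ) → ℝ) (hT : T (fun _ => 0) = 0) :
    ∑ r, T (phiR Rc D f F G 2 r) = ∑ k ∈ Rc, ∑ l ∈ Rc, T (G k l) := by
  simp only [phiR, Fintype.sum_sum_type, Matrix.cons_val, Sum.elim_inl, Sum.elim_inr, hT,
    apply_ite T, Fintype.sum_prod_type, sum_const_zero, add_zero]
  rw [← sum_filter_add_sum_filter_not univ (fun k => k ∈ Rc)]
  have h1 : ∑ x with x ∉ Rc, ∑ y, (if x ∈ Rc ∧ y ∈ Rc then T (G x y) else 0) = 0 := by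
    refine sum_eq_zero fun x hx => ?_
    have : x ∉ Rc := (mem_filter.1 hx).2
    simp [this]
  rw [h1, add_zero]
  have h2 : (univ.filter fun k => k ∈ Rc) = Rc := by ext; simp
  rw [h2]
  refine sum_congr rfl fun x hx => ?_
  simp only [hx, true_and]
  rw [sum_ite_mem, univ_inter]

theorem qq_half {a : Fin d → ℝ} {L : ℕ} {v : ι → Fin d → ℝ} {A A' : Finset ι}
    {Rc : Finset (Fin d)} (G : Fin d → Fin d → ℝ)
    (hM : ∀ k ∈ Rc, ∀ l ∈ Rc, MM v A' k l = (MM v A k l + G k l) / 2) :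
    √(QQ a v (L + 1) Rc A') ≤ (2 : ℝ) ^ (-(1 / 8) : ℝ) * (√(QQ a v L Rc A) +
      √(∑ k ∈ Rc, ∑ l ∈ Rc, G k l ^ 2 * (mu a L k * mu a L l) ^ (-(7 / 8) : ℝ))) := by
  have e1 : QQ a v (L + 1) Rc A' = ((2 : ℝ) ^ (-(1 / 8) : ℝ)) ^ 2 *
      ∑ p ∈ Rc ×ˢ Rc, ((MM v A p.1 p.2 - if p.1 = p.2 then mu a L p.1 else 0) + G p.1 p.2) ^ 2 *
        (mu a L p.1 * mu a L p.2) ^ (-(7 / 8) : ℝ) := by
    unfold QQ
    rw [sum_product, mul_sum]
    refine sum_congr rfl fun k hk => ?_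
    rw [mul_sum]
    refine sum_congr rfl fun l hl => ?_
    have hk0 := mu_pos a L k
    have hl0 := mu_pos a L l
    have e2 : (MM v A' k l - if k = l then mu a (L + 1) k else 0) =
        ((MM v A k l - if k = l then mu a L k else 0) + G k l) / 2 := by
      rw [hM k hk l hl, mu_succ a L k]
      split_ifs <;> ring
    have e3 : (mu a (L + 1) k * mu a (L + 1) l) ^ (-(7 / 8) : ℝ) =
        (2 : ℝ) ^ (7 / 4 : ℝ) * (mu a L k * mu a L l) ^ (-(7 / 8) : ℝ) := by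
      have h1 : mu a (L + 1) k * mu a (L + 1) l = (2 : ℝ) ^ (-2 : ℝ) * (mu a L k * mu a L l) := by
        rw [mu_succ a L k, mu_succ a L l, Real.rpow_neg (by norm_num)]
        norm_num
        ring
      rw [h1, Real.mul_rpow (by positivity) (by positivity), ← Real.rpow_mul (by norm_num)]
      norm_num
    have e4 : ((2 : ℝ) ^ (-(1 / 8) : ℝ)) ^ 2 = (2 : ℝ) ^ (7 / 4 : ℝ) / 4 := by
      rw [← Real.rpow_natCast ((2 : ℝ) ^ (-(1 / 8) : ℝ)) 2, ← Real.rpow_mul (by norm_num)]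
      have : (2 : ℝ) ^ (7 / 4 : ℝ) / 4 = (2 : ℝ) ^ (7 / 4 : ℝ) * (2 : ℝ) ^ (-2 : ℝ) := by
        rw [Real.rpow_neg (by norm_num)]; norm_num
        ring
      rw [this, ← Real.rpow_add (by norm_num)]
      norm_num
    rw [e2, e3, e4]
    ring
  have hc : (0 : ℝ) ≤ (2 : ℝ) ^ (-(1 / 8) : ℝ) := by positivity
  rw [e1, Real.sqrt_mul (sq_nonneg _), Real.sqrt_sq hc]
  refine mul_le_mul_of_nonneg_left ?_ hc
  refine le_trans (wl2_add _ _ _ _ fun p _ => ?_) (le_of_eq ?_)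
  · exact Real.rpow_nonneg (mul_nonneg (mu_pos a L _).le (mu_pos a L _).le) _
  · unfold QQ
    rw [sum_product, sum_product]

theorem clip_abs (x : ℝ) {c : ℝ} (hc : 0 ≤ c) : |clip x c| ≤ c := by
  unfold clip
  rw [abs_le]
  exact ⟨le_max_left _ _, max_le (by linarith) (min_le_right _ _)⟩

/-- the steering vector -/
theorem steer {a : Fin d → ℝ} {t L : ℕ} (hL : L ≤ t) (hg : good a t)
    {v : ι → Fin d → ℝ} {A : Finset ι} (hQ : QQ a v L (rich a t) A ≤ 1 / 4)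
    (g : Fin d → ℝ) (hgc : ∀ k ∈ rich a t, |g k| ≤ cap a L k) :
    ∃ x : ι → ℝ, (∀ k ∈ rich a t, ∑ i ∈ A, x i * v i k = - g k) ∧
      ∑ i ∈ A, x i ^ 2 ≤ 2 * cc * (2 : ℝ) ^ (-(3 / 4) * ((t : ℝ) - L)) := by
  obtain ⟨y, hy1, hy2⟩ := solve_rich (by linarith : QQ a v L (rich a t) A ≤ (1 / 2) ^ 2)
    (fun k hk => (one_lt_mu hL hk).le) g
  refine ⟨fun i => -∑ k ∈ rich a t, y k * v i k, ?_, ?_⟩
  · intro k hk
    rw [← hy1 k hk]
    unfold MM
    simp_rw [neg_mul, sum_neg_distrib, sum_mul]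
    rw [sum_comm]
    congr 1
    exact sum_congr rfl fun l _ => sum_congr rfl fun i _ => by ring
  · simp only [neg_sq]
    refine le_trans hy2 ?_
    rw [mul_assoc]
    refine mul_le_mul_of_nonneg_left ?_ (by norm_num)
    have h1 : ∀ k ∈ rich a t, g k ^ 2 / mu a L k ≤
        (2 : ℝ) ^ (-(3 / 4) * (a k - t)) * (2 : ℝ) ^ (-(3 / 4) * ((t : ℝ) - L)) := by
      intro k hk
      have hm := mu_pos a L k
      have h2 : g k ^ 2 ≤ mu a L k ^ (1 / 4 : ℝ) := by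
        have h3 := hgc k hk
        have h4 : g k ^ 2 ≤ cap a L k ^ 2 := sq_le_sq' (by linarith [neg_abs_le (g k)])
          (le_trans (le_abs_self _) h3)
        refine le_trans h4 (le_of_eq ?_)
        unfold cap
        rw [← Real.rpow_natCast _ 2, ← Real.rpow_mul hm.le]
        norm_num
      rw [div_le_iff₀ hm]
      refine le_trans h2 (le_of_eq ?_)
      unfold mu
      rw [← Real.rpow_mul (by norm_num), ← Real.rpow_add (by norm_num),
        ← Real.rpow_add (by norm_num)]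
      congr 1
      ring
    refine le_trans (sum_le_sum h1) ?_
    rw [← sum_mul]
    exact mul_le_mul_of_nonneg_right (good_rich_sum hg (by norm_num)) (by positivity)

theorem half_add {A : Finset ι} {ε : ι → ℝ} (hε : ∀ i ∈ A, ε i = 1 ∨ ε i = -1) (F : ι → ℝ) :
    ∑ i ∈ A.filter (fun i => ε i = 1), F i = (∑ i ∈ A, F i + ∑ i ∈ A, ε i * F i) / 2 := by
  rw [sum_filter, ← sum_add_distrib, sum_div]
  refine sum_congr rfl fun i hi => ?_
  rcases hε i hi with h | h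
  · simp [h]
  · rw [if_neg (by rw [h]; norm_num), h]; ring

theorem half_sub {A : Finset ι} {ε : ι → ℝ} (hε : ∀ i ∈ A, ε i = 1 ∨ ε i = -1) (F : ι → ℝ) :
    ∑ i ∈ A \ A.filter (fun i => ε i = 1), F i = (∑ i ∈ A, F i - ∑ i ∈ A, ε i * F i) / 2 := by
  have h1 := half_add hε F
  have h2 := sum_sdiff (f := F) (filter_subset (fun i => ε i = 1) A)
  linarith

/-- the family of coordinate sets -/
noncomputable def Sfam (a : Fin d → ℝ) (t : ℕ) (U : Finset (Fin d)) :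
    Option (Fin (rich a t).card) → Finset (Fin d)
  | none => U
  | some c => open Classical in if h : ∃ θ : ℝ, nn a t θ = (c : ℕ) + 1 then
        (rich a t).filter (fun k => a k ≤ h.choose) else ∅

theorem Sfam_card (a : Fin d → ℝ) (t : ℕ) (U : Finset (Fin d)) (c : Fin (rich a t).card) :
    (Sfam a t U (some c)).card ≤ (c : ℕ) + 1 := by
  simp only [Sfam]
  split_ifs with h
  · exact h.choose_spec.le
  · simp

theorem Sfam_spec (a : Fin d → ℝ) (t : ℕ) (U : Finset (Fin d)) (e : Fin d → ℝ)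
    (he : ∀ c, ∑ k ∈ Sfam a t U c, e k ^ 2 ≤ Bfun (rich a t).card U.card c) (θ : ℝ) :
    ∑ k ∈ (rich a t).filter (fun k => a k ≤ θ), e k ^ 2 ≤ 6 * K0 * nn a t θ := by
  classical
  rcases Nat.eq_zero_or_pos (nn a t θ) with h0 | hpos
  · have : (rich a t).filter (fun k => a k ≤ θ) = ∅ := card_eq_zero.1 h0
    rw [this, h0]
    simp
  · have hle : nn a t θ ≤ (rich a t).card := card_filter_le _ _
    have hc : nn a t θ - 1 < (rich a t).card := by omega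
    have hex : ∃ θ' : ℝ, nn a t θ' = (nn a t θ - 1) + 1 := ⟨θ, by omega⟩
    have h3 := he (some ⟨nn a t θ - 1, hc⟩)
    have hS' : Sfam a t U (some ⟨nn a t θ - 1, hc⟩) =
        (rich a t).filter (fun k => a k ≤ hex.choose) := by
      simp only [Sfam]
      exact dif_pos hex
    have hcard : nn a t hex.choose = nn a t θ := by
      have := hex.choose_spec
      omega
    have heq : (rich a t).filter (fun k => a k ≤ hex.choose) =
        (rich a t).filter (fun k => a k ≤ θ) := by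
      rcases le_total hex.choose θ with h | h
      · exact eq_of_subset_of_card_le
          (monotone_filter_right _ fun k _ hk => le_trans hk h) hcard.ge
      · exact (eq_of_subset_of_card_le
          (monotone_filter_right _ fun k _ hk => le_trans hk h) hcard.le).symm
    rw [hS', heq] at h3
    refine le_trans h3 (le_of_eq ?_)
    show 6 * K0 * (((nn a t θ - 1 : ℕ) : ℝ) + 1) = _
    have : ((nn a t θ - 1 : ℕ) : ℝ) + 1 = nn a t θ := by
      have h5 : (nn a t θ - 1) + 1 = nn a t θ := by omega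
      exact_mod_cast h5
    rw [this]

/-- the signs -/
theorem exists_eps {a : Fin d → ℝ} {t : ℕ}
    {v : ι → Fin d → ℝ} {A : Finset ι} (hv : ∀ i ∈ A, ∑ k, v i k ^ 2 ≤ 1)
    (x : ι → ℝ) (hx : ∑ i ∈ A, x i ^ 2 ≤ 1 / 10 ^ 8)
    (f : ι → ℝ) (F : Fin d → ι → ℝ) (G : Fin d → Fin d → ι → ℝ) {W σ : ℝ} (hW0 : 0 < W)
    (hσ : rich a t ≠ ∅ → 0 < σ)
    (hH0 : ∑ i ∈ A, f i ^ 2 ≤ 3 * W)
    (hH1 : ∑ k ∈ deep a t, ∑ i ∈ A, F k i ^ 2 ≤ W)
    (hH2 : ∑ k ∈ rich a t, ∑ l ∈ rich a t, ∑ i ∈ A, G k l i ^ 2 ≤ 3 / 2 * σ ^ 2)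
    (U : Finset (Fin d)) :
    ∃ ε : ι → ℝ, (∀ i ∈ A, ε i = 1 ∨ ε i = -1) ∧
      (∑ i ∈ A, ε i * f i) ^ 2 ≤ (4 * K0 + 1) * (3 * W) ∧
      ∑ k ∈ deep a t, (∑ i ∈ A, ε i * F k i) ^ 2 ≤ (4 * K0 + 1) * W ∧
      ∑ k ∈ rich a t, ∑ l ∈ rich a t, (∑ i ∈ A, ε i * G k l i) ^ 2 ≤
        (4 * K0 + 1) * (3 / 2 * σ ^ 2) ∧
      ∑ k ∈ U, (∑ i ∈ A, (ε i - x i) * v i k) ^ 2 ≤ K0 * ((U.card : ℝ) + 4) ∧
      ∀ θ : ℝ, ∑ k ∈ (rich a t).filter (fun k => a k ≤ θ),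
        (∑ i ∈ A, (ε i - x i) * v i k) ^ 2 ≤ 6 * K0 * nn a t θ := by
  classical
  have hx4 : ∀ i ∈ A, |x i| ≤ 1 := by
    intro i hi
    have := le_trans (single_le_sum (f := fun i => x i ^ 2) (fun _ _ => sq_nonneg _) hi) hx
    have h3 : x i ^ 2 ≤ 1 := le_trans this (by norm_num)
    exact abs_le_one_iff_mul_self_le_one.2 (by nlinarith)
  set HQ : ℝ := if rich a t = ∅ then 1 else 3 / 2 * σ ^ 2 with hHQ
  have hHQ0 : 0 < HQ := by
    rw [hHQ]
    split_ifs with h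
    · norm_num
    · have := hσ h; positivity
  have hHQ1 : ∑ k ∈ rich a t, ∑ l ∈ rich a t, ∑ i ∈ A, G k l i ^ 2 ≤ HQ := by
    rw [hHQ]
    split_ifs with h
    · rw [h]; simp
    · exact hH2
  have hsum := hsum_aux (rich a t).card U.card (Sfam a t U) (Sfam_card a t U) le_rfl
  obtain ⟨ε, hε1, hε2, hε3⟩ := signsA hv x hx4 (Sfam a t U) (Bfun (rich a t).card U.card)
    (phiR (rich a t) (deep a t) f F G) ![3 * W, W, HQ] (fun _ => 4)
    (by
      intro c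
      fin_cases c
      · show 0 < 3 * W; positivity
      · exact hW0
      · exact hHQ0)
    (by
      intro c
      fin_cases c
      · show ∑ r, (fun F : ι → ℝ => ∑ i ∈ A, F i ^ 2) (phiR (rich a t) (deep a t) f F G 0 r) ≤ 3 * W
        rw [phiR_zero (T := fun F : ι → ℝ => ∑ i ∈ A, F i ^ 2) (hT := by simp)]
        exact hH0
      · show ∑ r, (fun F : ι → ℝ => ∑ i ∈ A, F i ^ 2) (phiR (rich a t) (deep a t) f F G 1 r) ≤ W
        rw [phiR_one (T := fun F : ι → ℝ => ∑ i ∈ A, F i ^ 2) (hT := by simp)]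
        exact hH1
      · show ∑ r, (fun F : ι → ℝ => ∑ i ∈ A, F i ^ 2) (phiR (rich a t) (deep a t) f F G 2 r) ≤ HQ
        rw [phiR_two (T := fun F : ι → ℝ => ∑ i ∈ A, F i ^ 2) (hT := by simp)]
        exact hHQ1) hsum
  have r0 : (∑ i ∈ A, (ε i - x i) * f i) ^ 2 ≤ K0 * 4 * (3 * W) := by
    have := hε3 0
    rw [phiR_zero (T := fun F : ι → ℝ => (∑ i ∈ A, (ε i - x i) * F i) ^ 2) (hT := by simp)] at this
    exact this
  have r1 : ∑ k ∈ deep a t, (∑ i ∈ A, (ε i - x i) * F k i) ^ 2 ≤ K0 * 4 * W := by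
    have := hε3 1
    rw [phiR_one (T := fun F : ι → ℝ => (∑ i ∈ A, (ε i - x i) * F i) ^ 2) (hT := by simp)] at this
    exact this
  have r2 : ∑ k ∈ rich a t, ∑ l ∈ rich a t, (∑ i ∈ A, (ε i - x i) * G k l i) ^ 2 ≤
      K0 * 4 * HQ := by
    have := hε3 2
    rw [phiR_two (T := fun F : ι → ℝ => (∑ i ∈ A, (ε i - x i) * F i) ^ 2) (hT := by simp)] at this
    exact this
  refine ⟨ε, hε1, ?_, comb (deep a t) A F ε x hH1 r1 hx, ?_, hε2 none, ?_⟩
  · have := comb (univ : Finset Unit) A (fun _ => f) ε x (H := 3 * W) (by simpa using hH0)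
      (by simpa using r0) hx
    simpa using this
  · by_cases hne : rich a t = ∅
    · rw [hne]
      simp only [sum_empty]
      have : (0 : ℝ) ≤ 4 * K0 + 1 := by norm_num [K0]
      positivity
    · have h3 := comb (rich a t ×ˢ rich a t) A (fun p => G p.1 p.2) ε x (H := HQ)
        (by rw [sum_product]; exact hHQ1) (by rw [sum_product]; exact r2) hx
      rw [sum_product] at h3
      refine le_trans h3 ?_
      rw [hHQ, if_neg hne]
  · exact Sfam_spec a t U _ hε2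

/-- the bound of the fourth moments with the weights of the rows -/
theorem rowQ {a : Fin d → ℝ} {t L : ℕ} (hL : L ≤ t)
    {v : ι → Fin d → ℝ} {A : Finset ι} (hv : ∀ i ∈ A, ∑ k, v i k ^ 2 ≤ 1)
    (hQ : QQ a v L (rich a t) A ≤ 1 / 4) :
    ∑ k ∈ rich a t, ∑ l ∈ rich a t, ∑ i ∈ A,
      (v i k * v i l * (mu a L k * mu a L l) ^ (-(7 / 16) : ℝ)) ^ 2 ≤ 3 / 2 * sig a t L ^ 2 := by
  have hGsq : ∀ k l i, (v i k * v i l * (mu a L k * mu a L l) ^ (-(7 / 16) : ℝ)) ^ 2 =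
      (v i k * v i l) ^ 2 * (mu a L k * mu a L l) ^ (-(7 / 8) : ℝ) := by
    intro k l i
    have hp : 0 < mu a L k * mu a L l := mul_pos (mu_pos a L k) (mu_pos a L l)
    rw [mul_pow, ← Real.rpow_natCast ((mu a L k * mu a L l) ^ (-(7 / 16) : ℝ)) 2,
      ← Real.rpow_mul hp.le]
    norm_num
  have h3 := four_moment (a := a) (L := L) (Rc := rich a t) hv (by norm_num : (0 : ℝ) ≤ 3 / 2)
    (fun k hk => by
      have := MM_diag_le (by norm_num : (0 : ℝ) ≤ 1 / 2)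
        (by linarith : QQ a v L (rich a t) A ≤ (1 / 2) ^ 2) hk (one_lt_mu hL hk).le
      linarith)
  refine le_trans (le_of_eq ?_) h3
  calc _ = ∑ k ∈ rich a t, ∑ i ∈ A, ∑ l ∈ rich a t,
        (v i k * v i l * (mu a L k * mu a L l) ^ (-(7 / 16) : ℝ)) ^ 2 :=
        sum_congr rfl fun k _ => sum_comm
    _ = ∑ i ∈ A, ∑ k ∈ rich a t, ∑ l ∈ rich a t,
        (v i k * v i l * (mu a L k * mu a L l) ^ (-(7 / 16) : ℝ)) ^ 2 := sum_comm
    _ = _ := sum_congr rfl fun i _ => sum_congr rfl fun k _ => sum_congr rfl fun l _ =>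
        hGsq k l i

theorem rowQ_sqrt {a : Fin d → ℝ} {t L : ℕ} {v : ι → Fin d → ℝ} {A : Finset ι} {ε : ι → ℝ}
    (h : ∑ k ∈ rich a t, ∑ l ∈ rich a t, (∑ i ∈ A, ε i *
      (v i k * v i l * (mu a L k * mu a L l) ^ (-(7 / 16) : ℝ))) ^ 2 ≤
        (4 * K0 + 1) * (3 / 2 * sig a t L ^ 2)) :
    √(∑ k ∈ rich a t, ∑ l ∈ rich a t, (∑ i ∈ A, ε i * (v i k * v i l)) ^ 2 *
      (mu a L k * mu a L l) ^ (-(7 / 8) : ℝ)) ≤ 3 * √K0 * sig a t L := by
  have hK : (0 : ℝ) < K0 := by norm_num [K0]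
  have hsig0 : 0 ≤ sig a t L := sum_nonneg fun k _ => Real.rpow_nonneg (mu_pos a L k).le _
  have hq0 : (0 : ℝ) ≤ 3 * √K0 * sig a t L := by positivity
  have hGs : ∀ k l, (∑ i ∈ A, ε i * (v i k * v i l)) ^ 2 * (mu a L k * mu a L l) ^ (-(7 / 8) : ℝ) =
      (∑ i ∈ A, ε i * (v i k * v i l * (mu a L k * mu a L l) ^ (-(7 / 16) : ℝ))) ^ 2 := by
    intro k l
    have hp : 0 < mu a L k * mu a L l := mul_pos (mu_pos a L k) (mu_pos a L l)
    have e1 : ∑ i ∈ A, ε i * (v i k * v i l * (mu a L k * mu a L l) ^ (-(7 / 16) : ℝ)) =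
        (∑ i ∈ A, ε i * (v i k * v i l)) * (mu a L k * mu a L l) ^ (-(7 / 16) : ℝ) := by
      rw [sum_mul]
      exact sum_congr rfl fun i _ => by ring
    rw [e1, mul_pow, ← Real.rpow_natCast ((mu a L k * mu a L l) ^ (-(7 / 16) : ℝ)) 2,
      ← Real.rpow_mul hp.le]
    norm_num
  rw [Real.sqrt_le_left hq0]
  have h9 : (3 * √K0 * sig a t L) ^ 2 = 9 * K0 * sig a t L ^ 2 := by
    rw [mul_pow, mul_pow, Real.sq_sqrt hK.le]; norm_num
  rw [h9]
  have h5 : (4 * K0 + 1) * (3 / 2 * sig a t L ^ 2) ≤ 9 * K0 * sig a t L ^ 2 := by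
    have : (0 : ℝ) ≤ sig a t L ^ 2 := sq_nonneg _
    have h4 : (4 * K0 + 1) * (3 / 2) ≤ 9 * K0 := by norm_num [K0]
    nlinarith
  refine le_trans (le_of_eq ?_) (le_trans h h5)
  exact sum_congr rfl fun k _ => sum_congr rfl fun l _ => hGs k l

theorem U_bound {t L : ℕ} {v : ι → Fin d → ℝ} {A : Finset ι} {D U : Finset (Fin d)} (hU : U ⊆ D)
    {x ε : ι → ℝ} (hx2 : ∑ i ∈ A, x i ^ 2 ≤ 2 * cc * (2 : ℝ) ^ (-(3 / 4) * ((t : ℝ) - L)))
    {α : Fin d → ℝ} {W : ℝ} (hW0 : 0 < W) (hW : EE v D α A ≤ W)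
    (hUα : ∀ k ∈ U, (2 : ℝ) ^ (-(3 / 8) * ((t : ℝ) - L)) ≤ α k)
    (h4 : ∑ k ∈ U, (∑ i ∈ A, (ε i - x i) * v i k) ^ 2 ≤ K0 * ((U.card : ℝ) + 4)) :
    ∑ k ∈ U, ((∑ i ∈ A, ε i * v i k) / 2) ^ 2 ≤ K0 * ((U.card : ℝ) + 4) + W := by
  have hK : (0 : ℝ) < K0 := by norm_num [K0]
  have h3 : ∀ k, ((∑ i ∈ A, ε i * v i k) / 2) ^ 2 ≤
      (∑ i ∈ A, (ε i - x i) * v i k) ^ 2 / 2 + (∑ i ∈ A, x i * v i k) ^ 2 / 2 := by
    intro k
    have : ∑ i ∈ A, ε i * v i k = ∑ i ∈ A, (ε i - x i) * v i k + ∑ i ∈ A, x i * v i k := by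
      rw [← sum_add_distrib]; exact sum_congr rfl fun i _ => by ring
    rw [this]
    nlinarith [sq_nonneg (∑ i ∈ A, (ε i - x i) * v i k - ∑ i ∈ A, x i * v i k)]
  have h5 : ∑ k ∈ U, (∑ i ∈ A, x i * v i k) ^ 2 ≤ 2 * cc * W := by
    calc _ ≤ ∑ k ∈ U, (∑ i ∈ A, x i ^ 2) * ∑ i ∈ A, v i k ^ 2 :=
          sum_le_sum fun k _ => sum_mul_sq_le_sq_mul_sq A _ _
      _ = (∑ i ∈ A, x i ^ 2) * ∑ k ∈ U, ∑ i ∈ A, v i k ^ 2 := by rw [mul_sum]
      _ ≤ (2 * cc * (2 : ℝ) ^ (-(3 / 4) * ((t : ℝ) - L))) * ∑ k ∈ U, ∑ i ∈ A, v i k ^ 2 :=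
          mul_le_mul_of_nonneg_right hx2 (sum_nonneg fun _ _ => sum_nonneg fun _ _ => sq_nonneg _)
      _ = 2 * cc * ∑ k ∈ U, ∑ i ∈ A, (2 : ℝ) ^ (-(3 / 4) * ((t : ℝ) - L)) * v i k ^ 2 := by
          rw [mul_assoc, mul_sum]
          congr 1
          exact sum_congr rfl fun k _ => by rw [mul_sum]
      _ ≤ 2 * cc * ∑ k ∈ U, ∑ i ∈ A, (α k * v i k) ^ 2 := by
          refine mul_le_mul_of_nonneg_left ?_ (by norm_num [cc])
          refine sum_le_sum fun k hk => sum_le_sum fun i _ => ?_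
          rw [mul_pow]
          refine mul_le_mul_of_nonneg_right ?_ (sq_nonneg _)
          have h6 := hUα k hk
          have h7 : (2 : ℝ) ^ (-(3 / 4) * ((t : ℝ) - L)) =
              ((2 : ℝ) ^ (-(3 / 8) * ((t : ℝ) - L))) ^ 2 := by
            rw [← Real.rpow_natCast _ 2, ← Real.rpow_mul (by norm_num)]
            congr 1
            push_cast
            ring
          rw [h7]
          exact pow_le_pow_left₀ (by positivity) h6 2
      _ ≤ 2 * cc * W := by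
          refine mul_le_mul_of_nonneg_left ?_ (by norm_num [cc])
          refine le_trans (sum_le_sum_of_subset_of_nonneg hU fun _ _ _ =>
            sum_nonneg fun _ _ => sq_nonneg _) ?_
          rw [sum_comm]
          exact hW
  refine le_trans (sum_le_sum fun k _ => h3 k) ?_
  rw [sum_add_distrib, ← sum_div, ← sum_div]
  have h8 : 2 * cc * W ≤ W := by
    have : 2 * cc ≤ 1 := by norm_num [cc]
    nlinarith
  have h9 : 0 ≤ K0 * ((U.card : ℝ) + 4) := by positivity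
  linarith

theorem hsplit {a : Fin d → ℝ} {t L : ℕ} (hL : L ≤ t) (hg : good a t)
    {v : ι → Fin d → ℝ} {A : Finset ι} (hv : ∀ i ∈ A, ∑ k, v i k ^ 2 ≤ 1)
    (hQ : QQ a v L (rich a t) A ≤ 1 / 4)
    (α : Fin d → ℝ) (hα : ∀ k, 0 < α k)
    (hent : ∀ i ∈ A, ∑ k ∈ deep a t, (α k * v i k) ^ 2 ≤ 3)
    {W : ℝ} (hW0 : 0 < W) (hW : EE v (deep a t) α A ≤ W)
    (U : Finset (Fin d)) (hU : U ⊆ deep a t)
    (hUα : ∀ k ∈ U, (2 : ℝ) ^ (-(3 / 8) * ((t : ℝ) - L)) ≤ α k)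
    (xl : Fin d → ℝ) :
    ∃ A1 ⊆ A, ∃ e : Fin d → ℝ,
      (√(QQ a v (L + 1) (rich a t) A1) ≤
        (2 : ℝ) ^ (-(1 / 8) : ℝ) * (√(QQ a v L (rich a t) A) + 3 * √K0 * sig a t L)) ∧
      (√(QQ a v (L + 1) (rich a t) (A \ A1)) ≤
        (2 : ℝ) ^ (-(1 / 8) : ℝ) * (√(QQ a v L (rich a t) A) + 3 * √K0 * sig a t L)) ∧
      EE v (deep a t) α A1 ≤ (W + 6 * √K0 * √W) / 2 ∧
      EE v (deep a t) α (A \ A1) ≤ (W + 6 * √K0 * √W) / 2 ∧
      ∑ k ∈ deep a t, (α k * (∑ i ∈ A1, v i k - (∑ i ∈ A, v i k) / 2)) ^ 2 ≤ 2 * K0 * W ∧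
      ∑ k ∈ U, (∑ i ∈ A1, v i k - (∑ i ∈ A, v i k) / 2) ^ 2 ≤ K0 * (U.card + 4) + W ∧
      (∀ θ : ℝ, ∑ k ∈ (rich a t).filter (fun k => a k ≤ θ), e k ^ 2 ≤ 6 * K0 * nn a t θ) ∧
      (∀ k ∈ rich a t, xl k + ∑ i ∈ A1, v i k =
        (xl k + (∑ i ∈ A, v i k) / 2) -
          clip (xl k + (∑ i ∈ A, v i k) / 2) (cap a L k / 2) + e k / 2) := by
  classical
  have hK : (0 : ℝ) < K0 := by norm_num [K0]
  have hcap : ∀ k, 0 ≤ cap a L k := fun k => Real.rpow_nonneg (mu_pos a L k).le _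
  have htL : (0 : ℝ) ≤ (t : ℝ) - L := by
    have : (L : ℝ) ≤ t := by exact_mod_cast hL
    linarith
  -- steering
  obtain ⟨x, hx1, hx2⟩ := steer hL hg hQ
    (fun k => 2 * clip (xl k + (∑ i ∈ A, v i k) / 2) (cap a L k / 2)) (fun k _ => by
      rw [abs_mul, abs_of_nonneg (by norm_num : (0 : ℝ) ≤ 2)]
      have := clip_abs (xl k + (∑ i ∈ A, v i k) / 2) (by have := hcap k; linarith :
        (0 : ℝ) ≤ cap a L k / 2)
      linarith)
  have hx3 : ∑ i ∈ A, x i ^ 2 ≤ 1 / 10 ^ 8 := by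
    have h2 : (2 : ℝ) ^ (-(3 / 4) * ((t : ℝ) - L)) ≤ 1 :=
      Real.rpow_le_one_of_one_le_of_nonpos (by norm_num) (by nlinarith)
    have h20 : (0 : ℝ) < (2 : ℝ) ^ (-(3 / 4) * ((t : ℝ) - L)) := by positivity
    refine le_trans hx2 ?_
    have : (2 * cc : ℝ) ≤ 1 / 10 ^ 8 := by norm_num [cc]
    have h0 : (0 : ℝ) ≤ 2 * cc := by norm_num [cc]
    nlinarith
  set f : ι → ℝ := fun i => ∑ k ∈ deep a t, (α k * v i k) ^ 2 with hf
  have hf0 : ∀ i, 0 ≤ f i := fun i => sum_nonneg fun _ _ => sq_nonneg _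
  have hfW : ∑ i ∈ A, f i ≤ W := hW
  have hH0' : ∑ i ∈ A, f i ^ 2 ≤ 3 * W := by
    calc _ ≤ ∑ i ∈ A, 3 * f i := sum_le_sum fun i hi => by
          have := hent i hi
          have h0 := hf0 i
          have : f i ≤ 3 := this
          nlinarith
      _ = 3 * ∑ i ∈ A, f i := by rw [mul_sum]
      _ ≤ _ := by linarith
  obtain ⟨ε, hε1, c0, c1, c2, c3, c4⟩ := exists_eps (t := t) hv x hx3 f (fun k i => α k * v i k)
    (fun k l i => v i k * v i l * (mu a L k * mu a L l) ^ (-(7 / 16) : ℝ)) (σ := sig a t L) hW0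
    (fun hne => sum_pos (fun k _ => Real.rpow_pos_of_pos (mu_pos a L k) _)
      (nonempty_iff_ne_empty.2 hne)) hH0' (by rw [sum_comm]; exact hW) (rowQ hL hv hQ) U
  have hqs := rowQ_sqrt c2
  have h28 : (0 : ℝ) ≤ (2 : ℝ) ^ (-(1 / 8) : ℝ) := by positivity
  have hE6 : |∑ i ∈ A, ε i * f i| ≤ 6 * √K0 * √W := by
    apply abs_le_of_sq_le_sq _ (by positivity)
    refine le_trans c0 ?_
    rw [mul_pow, mul_pow, Real.sq_sqrt hK.le, Real.sq_sqrt hW0.le]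
    have h4 : (4 * K0 + 1) * 3 ≤ 6 ^ 2 * K0 := by norm_num [K0]
    nlinarith
  set A1 := A.filter (fun i => ε i = 1) with hA1
  have hdev : ∀ k, ∑ i ∈ A1, v i k - (∑ i ∈ A, v i k) / 2 = (∑ i ∈ A, ε i * v i k) / 2 := by
    intro k
    rw [hA1, half_add hε1 (fun i => v i k)]
    ring
  refine ⟨A1, filter_subset _ _, fun k => ∑ i ∈ A, (ε i - x i) * v i k, ?_, ?_, ?_, ?_, ?_, ?_,
    c4, ?_⟩
  · refine le_trans (qq_half (A := A) (fun k l => ∑ i ∈ A, ε i * (v i k * v i l)) ?_) ?_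
    · intro k _ l _
      exact half_add hε1 (fun i => v i k * v i l)
    · exact mul_le_mul_of_nonneg_left (by linarith) h28
  · refine le_trans (qq_half (A := A) (fun k l => - ∑ i ∈ A, ε i * (v i k * v i l)) ?_) ?_
    · intro k _ l _
      rw [← sub_eq_add_neg]
      exact half_sub hε1 (fun i => v i k * v i l)
    · simp only [neg_sq]
      exact mul_le_mul_of_nonneg_left (by linarith) h28
  · have h3 : EE v (deep a t) α A1 = (∑ i ∈ A, f i + ∑ i ∈ A, ε i * f i) / 2 := half_add hε1 f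
    rw [h3]
    have := le_abs_self (∑ i ∈ A, ε i * f i)
    linarith
  · have h3 : EE v (deep a t) α (A \ A1) = (∑ i ∈ A, f i - ∑ i ∈ A, ε i * f i) / 2 :=
      half_sub hε1 f
    rw [h3]
    have := neg_abs_le (∑ i ∈ A, ε i * f i)
    linarith
  · have h3 : ∀ k, (α k * (∑ i ∈ A1, v i k - (∑ i ∈ A, v i k) / 2)) ^ 2 =
        (∑ i ∈ A, ε i * (α k * v i k)) ^ 2 / 4 := by
      intro k
      rw [hdev k]
      have : ∑ i ∈ A, ε i * (α k * v i k) = α k * ∑ i ∈ A, ε i * v i k := by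
        rw [mul_sum]; exact sum_congr rfl fun i _ => by ring
      rw [this]
      ring
    rw [sum_congr rfl fun k _ => h3 k, ← sum_div]
    have h4 : (4 * K0 + 1) ≤ 8 * K0 := by norm_num [K0]
    nlinarith
  · rw [sum_congr rfl fun k _ => by rw [hdev k]]
    exact U_bound hU hx2 hW0 hW hUα c3
  · intro k hk
    have h3 := hdev k
    have h4 : ∑ i ∈ A, ε i * v i k = ∑ i ∈ A, (ε i - x i) * v i k + ∑ i ∈ A, x i * v i k := by
      rw [← sum_add_distrib]; exact sum_congr rfl fun i _ => by ring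
    rw [h4, hx1 k hk] at h3
    show xl k + ∑ i ∈ A1, v i k = _
    linarith

end Vale.Agent.P262F
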