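import Vale.Agent.P262F.Defs

/-!
# Orderings: monotonicity, concatenation, cells, modification, greedy ordering
-/

set_option linter.unusedSectionVars false

namespace Vale.Agent.P262F
open Finset

variable {ι : Type*} [DecidableEq ι] {d : ℕ}

lemma Ord.mono {v : ι → Fin d → ℝ} {A : Finset ι} {x : Fin d → ℝ} {P P' : (Fin d → ℝ) → Prop}
    (h : Ord v A x P) (hP : ∀ y, P y → P' y) : Ord v A x P' := by
  obtain ⟨l, h1, h2, h3⟩ := h
  exact ⟨l, h1, h2, fun n => hP _ (h3 n)⟩

lemma ord_empty {v : ι → Fin d → ℝ} {x : Fin d → ℝ} {P : (Fin d → ℝ) → Prop} (hx : P x) :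
    Ord v ∅ x P := by
  refine ⟨[], List.nodup_nil, rfl, fun n => ?_⟩
  have : (fun k => x k + P262.lsum v (([] : List ι).take n) k) = x := by
    ext k
    simp [P262.lsum]
  rw [this]
  exact hx

lemma ord_singleton {v : ι → Fin d → ℝ} {x : Fin d → ℝ} {P : (Fin d → ℝ) → Prop} {i : ι}
    (hx : P x) (hx' : P (fun k => x k + v i k)) : Ord v {i} x P := by
  refine ⟨[i], List.nodup_singleton i, by simp, fun n => ?_⟩
  rcases n with _ | n
  · have : (fun k => x k + P262.lsum v (([i] : List ι).take 0) k) = x := by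
      ext k
      simp [P262.lsum]
    rw [this]
    exact hx
  · have : (fun k => x k + P262.lsum v (([i] : List ι).take (n + 1)) k)
        = fun k => x k + v i k := by
      ext k
      simp [P262.lsum]
    rw [this]
    exact hx'

/-- the value at the end of an ordering -/
lemma Ord.last {v : ι → Fin d → ℝ} {A : Finset ι} {x : Fin d → ℝ} {P : (Fin d → ℝ) → Prop}
    (h : Ord v A x P) : P (fun k => x k + ∑ i ∈ A, v i k) := by
  obtain ⟨l, h1, h2, h3⟩ := h
  have h4 := h3 l.length
  rw [List.take_length] at h4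
  have : (fun k => x k + P262.lsum v l k) = fun k => x k + ∑ i ∈ A, v i k := by
    ext k
    rw [P262.lsum_eq_sum v l h1, h2]
  rw [this] at h4
  exact h4

lemma Ord.first {v : ι → Fin d → ℝ} {A : Finset ι} {x : Fin d → ℝ} {P : (Fin d → ℝ) → Prop}
    (h : Ord v A x P) : P x := by
  obtain ⟨l, h1, h2, h3⟩ := h
  have h4 := h3 0
  have : (fun k => x k + P262.lsum v (l.take 0) k) = x := by
    ext k
    simp [P262.lsum]
  rw [this] at h4
  exact h4

lemma ord_append {v : ι → Fin d → ℝ} {A A1 A2 : Finset ι} {x : Fin d → ℝ}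
    {P : (Fin d → ℝ) → Prop} (hA : A1 ∪ A2 = A) (hd : Disjoint A1 A2)
    (h1 : Ord v A1 x P) (h2 : Ord v A2 (fun k => x k + ∑ i ∈ A1, v i k) P) : Ord v A x P := by
  obtain ⟨l₁, hl₁, hB₁, hle₁⟩ := h1
  obtain ⟨l₂, hl₂, hB₂, hle₂⟩ := h2
  refine ⟨l₁ ++ l₂, ?_, ?_, fun n => ?_⟩
  · rw [List.nodup_append']
    refine ⟨hl₁, hl₂, ?_⟩
    intro a ha hb
    rw [← hB₁, ← hB₂] at hd
    exact (Finset.disjoint_left.mp hd) (List.mem_toFinset.mpr ha) (List.mem_toFinset.mpr hb)
  · rw [List.toFinset_append, hB₁, hB₂, hA]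
  · rcases le_total n l₁.length with hn | hn
    · have : (l₁ ++ l₂).take n = l₁.take n := by
        rw [List.take_append]
        simp [Nat.sub_eq_zero_of_le hn]
      rw [this]
      exact hle₁ n
    · have : (l₁ ++ l₂).take n = l₁ ++ l₂.take (n - l₁.length) := by
        rw [List.take_append, List.take_of_length_le hn]
      rw [this]
      have h3 := hle₂ (n - l₁.length)
      have : (fun k => x k + P262.lsum v (l₁ ++ l₂.take (n - l₁.length)) k)
          = fun k => (x k + ∑ i ∈ A1, v i k) + P262.lsum v (l₂.take (n - l₁.length)) k := by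
        ext k
        rw [P262.lsum_append, P262.lsum_eq_sum v l₁ hl₁, hB₁, add_assoc]
      rw [this]
      exact h3

/-- splitting into a part and the rest -/
lemma ord_split {v : ι → Fin d → ℝ} {A A1 : Finset ι} {x : Fin d → ℝ}
    {P : (Fin d → ℝ) → Prop} (hA : A1 ⊆ A)
    (h1 : Ord v A1 x P) (h2 : Ord v (A \ A1) (fun k => x k + ∑ i ∈ A1, v i k) P) : Ord v A x P :=
  ord_append (Finset.union_sdiff_of_subset hA) Finset.disjoint_sdiff h1 h2

/-- arrangement into cells -/
lemma ord_cells {v : ι → Fin d → ℝ} {x : Fin d → ℝ} {P : (Fin d → ℝ) → Prop} (cell : ι → ℕ)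
    (n : ℕ) : ∀ {A : Finset ι}, (∀ i ∈ A, cell i < n) → P x →
    (∀ q < n, Ord v (A.filter (fun i => cell i = q))
      (fun k => x k + ∑ i ∈ A with cell i < q, v i k) P) → Ord v A x P := by
  induction n with
  | zero =>
    intro A hA hx _
    have : A = ∅ := by
      rw [Finset.eq_empty_iff_forall_notMem]
      intro i hi
      exact absurd (hA i hi) (by omega)
    rw [this]
    exact ord_empty hx
  | succ n ih =>
    intro A hA hx h
    have h1 : Ord v (A.filter (fun i => cell i < n)) x P := by
      apply ih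
      · intro i hi
        exact (Finset.mem_filter.mp hi).2
      · exact hx
      · intro q hq
        have h2 := h q (by omega)
        have e1 : (A.filter (fun i => cell i < n)).filter (fun i => cell i = q)
            = A.filter (fun i => cell i = q) := by
          ext i
          simp only [Finset.mem_filter]
          constructor
          · rintro ⟨⟨ha, _⟩, hb⟩; exact ⟨ha, hb⟩
          · rintro ⟨ha, hb⟩; exact ⟨⟨ha, by omega⟩, hb⟩
        have e2 : (A.filter (fun i => cell i < n)).filter (fun i => cell i < q)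
            = A.filter (fun i => cell i < q) := by
          ext i
          simp only [Finset.mem_filter]
          constructor
          · rintro ⟨⟨ha, _⟩, hb⟩; exact ⟨ha, hb⟩
          · rintro ⟨ha, hb⟩; exact ⟨⟨ha, by omega⟩, hb⟩
        rw [e1, e2]
        exact h2
    refine ord_append (A1 := A.filter (fun i => cell i < n)) (A2 := A.filter (fun i => cell i = n))
      ?_ ?_ h1 (h n (by omega))
    · ext i
      simp only [Finset.mem_union, Finset.mem_filter]
      constructor
      · rintro (⟨ha, _⟩ | ⟨ha, _⟩) <;> exact ha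
      · intro ha
        have := hA i ha
        rcases Nat.lt_succ_iff_lt_or_eq.mp this with h | h
        · left; exact ⟨ha, h⟩
        · right; exact ⟨ha, h⟩
    · rw [Finset.disjoint_left]
      intro i hi hj
      have h1 := (Finset.mem_filter.mp hi).2
      have h2 := (Finset.mem_filter.mp hj).2
      omega

/-- modification of the vectors (deletion of entries): every prefix position moves by at most
`h k` in coordinate `k` -/
lemma ord_modify {v v' : ι → Fin d → ℝ} {A : Finset ι} {x h : Fin d → ℝ}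
    {P P' : (Fin d → ℝ) → Prop} (hh : ∀ k, ∑ i ∈ A, |v i k - v' i k| ≤ h k)
    (hP : ∀ y z : Fin d → ℝ, P' y → (∀ k, |z k - y k| ≤ h k) → P z)
    (hO : Ord v' A x P') : Ord v A x P := by
  obtain ⟨l, hl, hA, hle⟩ := hO
  refine ⟨l, hl, hA, fun n => hP _ _ (hle n) fun k => ?_⟩
  have hnd : (l.take n).Nodup := hl.sublist (List.take_sublist n l)
  have hsub : (l.take n).toFinset ⊆ A := by
    rw [← hA]
    intro i hi
    rw [List.mem_toFinset] at hi ⊢
    exact List.mem_of_mem_take hi
  have e : (x k + P262.lsum v (l.take n) k) - (x k + P262.lsum v' (l.take n) k)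
      = P262.lsum v (l.take n) k - P262.lsum v' (l.take n) k := by ring
  rw [e, P262.lsum_eq_sum _ _ hnd, P262.lsum_eq_sum _ _ hnd, ← Finset.sum_sub_distrib]
  refine (Finset.abs_sum_le_sum_abs _ _).trans ?_
  exact (Finset.sum_le_sum_of_subset_of_nonneg hsub fun _ _ _ => abs_nonneg _).trans (hh k)

/-- the general form with the exact deviation: `z - y` is a partial sum of the modification -/
lemma ord_modify' {v v' : ι → Fin d → ℝ} {A : Finset ι} {x : Fin d → ℝ}
    {P P' : (Fin d → ℝ) → Prop}
    (hP : ∀ (y z : Fin d → ℝ) (B : Finset ι), B ⊆ A → P' y →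
      (∀ k, z k - y k = ∑ i ∈ B, (v i k - v' i k)) → P z)
    (hO : Ord v' A x P') : Ord v A x P := by
  obtain ⟨l, hl, hA, hle⟩ := hO
  refine ⟨l, hl, hA, fun n => hP _ _ (l.take n).toFinset ?_ (hle n) fun k => ?_⟩
  · rw [← hA]
    intro i hi
    rw [List.mem_toFinset] at hi ⊢
    exact List.mem_of_mem_take hi
  · have hnd : (l.take n).Nodup := hl.sublist (List.take_sublist n l)
    have e : (x k + P262.lsum v (l.take n) k) - (x k + P262.lsum v' (l.take n) k)
        = P262.lsum v (l.take n) k - P262.lsum v' (l.take n) k := by ring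
    rw [e, P262.lsum_eq_sum _ _ hnd, P262.lsum_eq_sum _ _ hnd, ← Finset.sum_sub_distrib]

theorem Ord.append {v : ι → Fin d → ℝ} {A1 A2 : Finset ι} {x : Fin d → ℝ} {P : (Fin d → ℝ) → Prop}
    (hd : Disjoint A1 A2) (h1 : Ord v A1 x P) (h2 : Ord v A2 (fun k => x k + ∑ i ∈ A1, v i k) P) :
    Ord v (A1 ∪ A2) x P := ord_append rfl hd h1 h2

/-- concatenation over the cells `q < n` -/
theorem Ord.cells {v : ι → Fin d → ℝ} {A : Finset ι} {x : Fin d → ℝ} {P : (Fin d → ℝ) → Prop}
    (cell : ι → ℕ) (n : ℕ) (hn : 0 < n) (hc : ∀ i ∈ A, cell i < n)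
    (h : ∀ q < n, Ord v (A.filter (fun i => cell i = q))
      (fun k => x k + ∑ i ∈ A with cell i < q, v i k) P) :
    Ord v A x P := by
  refine ord_cells cell n hc ?_ h
  have h0 := (h 0 hn).first
  have e : (fun k => x k + ∑ i ∈ A with cell i < 0, v i k) = x := by
    ext k
    simp
  rw [e] at h0
  exact h0

/-- change of vectors and of the property -/
theorem Ord.change {v v' : ι → Fin d → ℝ} {A : Finset ι} {x : Fin d → ℝ}
    {P P' : (Fin d → ℝ) → Prop} (h : Ord v' A x P')
    (hP : ∀ S ⊆ A, P' (fun k => x k + ∑ i ∈ S, v' i k) → P (fun k => x k + ∑ i ∈ S, v i k)) :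
    Ord v A x P := by
  obtain ⟨l, hl, hA, hle⟩ := h
  refine ⟨l, hl, hA, fun n => ?_⟩
  have hnd : (l.take n).Nodup := hl.sublist (List.take_sublist n l)
  have hsub : (l.take n).toFinset ⊆ A := by
    rw [← hA]
    intro i hi
    rw [List.mem_toFinset] at hi ⊢
    exact List.mem_of_mem_take hi
  have e1 : (fun k => x k + P262.lsum v (l.take n) k)
      = fun k => x k + ∑ i ∈ (l.take n).toFinset, v i k := by
    ext k
    rw [P262.lsum_eq_sum _ _ hnd]
  have e2 : (fun k => x k + P262.lsum v' (l.take n) k)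
      = fun k => x k + ∑ i ∈ (l.take n).toFinset, v' i k := by
    ext k
    rw [P262.lsum_eq_sum _ _ hnd]
  rw [e1]
  apply hP _ hsub
  rw [← e2]
  exact hle n

/-- greedy ordering: all remaining sums are controlled in `ℓ²` -/
lemma greedy_end (v : ι → Fin d → ℝ) (A : Finset ι) (x : Fin d → ℝ) :
    Ord v A x (fun y => ∑ k, ((x k + ∑ i ∈ A, v i k) - y k) ^ 2 ≤
      ∑ k, (∑ i ∈ A, v i k) ^ 2 + ∑ k, ∑ i ∈ A, (v i k) ^ 2) := by
  obtain ⟨l, hl, hA, hle⟩ := P262.greedy v A.card A rfl
  refine ⟨l, hl, hA, fun n => ?_⟩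
  have h := hle n
  refine le_trans (le_of_eq ?_) h
  refine Finset.sum_congr rfl fun k _ => ?_
  congr 1
  have h1 : P262.lsum v l k = P262.lsum v (l.take n) k + P262.lsum v (l.drop n) k := by
    rw [← P262.lsum_append, List.take_append_drop]
  have h2 : P262.lsum v l k = ∑ i ∈ A, v i k := by
    rw [P262.lsum_eq_sum v l hl, hA]
  rw [← h2, h1]
  ring

/-- greedy ordering: prefix sums stay near the chord in a weighted norm -/
theorem greedy_ord (v : ι → Fin d → ℝ) (A : Finset ι) (x : Fin d → ℝ) (D : Finset (Fin d))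
    (α : Fin d → ℝ) :
    Ord v A x (fun F => ∃ s ∈ Set.Icc (0 : ℝ) 1,
      ∑ k ∈ D, (α k * (F k - (x k + s * ∑ i ∈ A, v i k))) ^ 2 ≤ EE v D α A) := by
  classical
  rcases A.eq_empty_or_nonempty with rfl | hne
  · apply ord_empty
    refine ⟨0, ⟨le_refl _, zero_le_one⟩, ?_⟩
    simp [EE]
  have hN : (0 : ℝ) < (A.card : ℝ) := by exact_mod_cast hne.card_pos
  set N : ℝ := (A.card : ℝ) with hNdef
  set S : Fin d → ℝ := fun k => ∑ i ∈ A, v i k with hS
  set u : ι → Fin d → ℝ := fun i k => if k ∈ D then α k * (v i k - S k / N) else 0 with hu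
  obtain ⟨l, hl, hA, hle⟩ := P262.greedy u A.card A rfl
  have hlen : (l.length : ℝ) = N := by
    rw [← List.toFinset_card_of_nodup hl, hA]
  have htot : ∀ k, ∑ i ∈ A, u i k = 0 := by
    intro k
    simp only [hu]
    split_ifs with hk
    · rw [← Finset.mul_sum, Finset.sum_sub_distrib, Finset.sum_const, nsmul_eq_mul, ← hNdef]
      have : S k - N * (S k / N) = 0 := by field_simp; ring
      show α k * (S k - N * (S k / N)) = 0
      rw [this, mul_zero]
    · exact Finset.sum_const_zero
  have hen : ∑ k, ∑ i ∈ A, (u i k) ^ 2 ≤ EE v D α A := by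
    unfold EE
    rw [Finset.sum_comm]
    rw [Finset.sum_comm (s := A) (t := D)]
    rw [Finset.sum_comm]
    have h1 : ∀ k, ∑ i ∈ A, (u i k) ^ 2 = if k ∈ D then ∑ i ∈ A, (α k * (v i k - S k / N)) ^ 2
        else 0 := by
      intro k
      simp only [hu]
      split_ifs with hk
      · rfl
      · simp
    simp only [h1]
    rw [Finset.sum_ite_mem, Finset.univ_inter]
    refine Finset.sum_le_sum fun k _ => ?_
    have h2 : ∀ i, (α k * (v i k - S k / N)) ^ 2
        = (α k * v i k) ^ 2 - 2 * (α k ^ 2 * (S k / N)) * v i k + α k ^ 2 * (S k / N) ^ 2 := by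
      intro i
      ring
    simp only [h2]
    rw [Finset.sum_add_distrib, Finset.sum_sub_distrib, ← Finset.mul_sum, Finset.sum_const,
      nsmul_eq_mul, ← hNdef]
    have h3 : 2 * (α k ^ 2 * (S k / N)) * ∑ i ∈ A, v i k = 2 * (α k ^ 2 * (S k ^ 2 / N)) := by
      show 2 * (α k ^ 2 * (S k / N)) * S k = _
      ring
    have h4 : N * (α k ^ 2 * (S k / N) ^ 2) = α k ^ 2 * (S k ^ 2 / N) := by
      field_simp
    rw [h3, h4]
    have h5 : 0 ≤ α k ^ 2 * (S k ^ 2 / N) := by positivity
    linarith
  refine ⟨l, hl, hA, fun n => ?_⟩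
  refine ⟨((l.take n).length : ℝ) / N, ⟨by positivity, ?_⟩, ?_⟩
  · rw [div_le_one hN, ← hlen]
    have : (l.take n).length ≤ l.length := by
      rw [List.length_take]; exact min_le_right _ _
    exact_mod_cast this
  · have h6 := hle n
    simp only [htot] at h6
    have h7 : ∑ k ∈ D, (α k * ((x k + P262.lsum v (l.take n) k) -
        (x k + ((l.take n).length : ℝ) / N * ∑ i ∈ A, v i k))) ^ 2
        = ∑ k, (P262.lsum u (l.drop n) k) ^ 2 := by
      have h8 : ∀ k, P262.lsum u (l.drop n) k = if k ∈ D then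
          -(α k * (P262.lsum v (l.take n) k - ((l.take n).length : ℝ) / N * S k)) else 0 := by
        intro k
        have h9 : P262.lsum u l k = P262.lsum u (l.take n) k + P262.lsum u (l.drop n) k := by
          rw [← P262.lsum_append, List.take_append_drop]
        have h10 : P262.lsum u l k = 0 := by
          rw [P262.lsum_eq_sum u l hl, hA, htot]
        have h11 : P262.lsum u (l.drop n) k = - P262.lsum u (l.take n) k := by linarith
        rw [h11]
        unfold P262.lsum
        simp only [hu]
        split_ifs with hk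
        · congr 1
          generalize l.take n = m
          induction m with
          | nil => simp
          | cons b m ih =>
            simp only [List.map_cons, List.sum_cons, List.length_cons]
            rw [ih]
            push_cast
            ring
        · simp
      simp only [h8]
      have h12 : ∀ k, (if k ∈ D then
          -(α k * (P262.lsum v (l.take n) k - ((l.take n).length : ℝ) / N * S k)) else 0) ^ 2
          = if k ∈ D then
          (α k * (P262.lsum v (l.take n) k - ((l.take n).length : ℝ) / N * S k)) ^ 2 else 0 := by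
        intro k
        split_ifs
        · ring
        · ring
      simp only [h12]
      rw [Finset.sum_ite_mem, Finset.univ_inter]
      refine Finset.sum_congr rfl fun k _ => ?_
      show _ = (α k * (P262.lsum v (l.take n) k - ((l.take n).length : ℝ) / N * S k)) ^ 2
      congr 1
      have : ∑ i ∈ A, v i k = S k := rfl
      rw [this]
      ring
    show ∑ k ∈ D, (α k * ((x k + P262.lsum v (l.take n) k) -
        (x k + ((l.take n).length : ℝ) / N * ∑ i ∈ A, v i k))) ^ 2 ≤ EE v D α A
    rw [h7]
    refine h6.trans ?_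
    simp only [ne_eq, OfNat.ofNat_ne_zero, not_false_eq_true, zero_pow, Finset.sum_const_zero,
      zero_add]
    exact hen

end Vale.Agent.P262F
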