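import Vale.Agent.P262F.Good

/-! The potential lemma and the geometry of steered midpoints -/

namespace Vale.Agent.P262F
open Finset

variable {d : ℕ}

/-- a steered midpoint: bounded by its own error or by a large old endpoint -/
def Mid (a : Fin d → ℝ) (t L : ℕ) (xl xr E P : Fin d → ℝ) : Prop :=
  (∀ k ∈ rich a t, 0 ≤ E k) ∧
  (∀ θ : ℝ, ∑ k ∈ (rich a t).filter (fun k => a k ≤ θ), E k ≤ 3 / 2 * K0 * nn a t θ) ∧
  ∀ k ∈ rich a t, P k ^ 2 ≤ max (E k)
    (if cap a L k ^ 2 / 16 ≤ max (xl k ^ 2) (xr k ^ 2) then max (xl k ^ 2) (xr k ^ 2) else 0)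

namespace PHLaux

lemma clip_of_le {x c : ℝ} (h : |x| ≤ c) : clip x c = x := by
  unfold clip
  rw [abs_le] at h
  rw [min_eq_left h.2, max_eq_right h.1]

lemma abs_sub_clip {x c : ℝ} (hc : 0 ≤ c) (h : c < |x|) : |x - clip x c| = |x| - c := by
  unfold clip
  rcases le_or_gt 0 x with hx | hx
  · rw [abs_of_nonneg hx] at h ⊢
    rw [min_eq_right h.le, max_eq_right (by linarith), abs_of_nonneg (by linarith)]
  · rw [abs_of_neg hx] at h ⊢
    rw [min_eq_left (by linarith), max_eq_left (by linarith), abs_of_neg (by linarith)]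
    ring

lemma cap_eq (a : Fin d → ℝ) (L : ℕ) (k : Fin d) : cap a L k = (2 : ℝ) ^ ((a k - L) / 8) := by
  unfold cap mu
  rw [← Real.rpow_mul (by norm_num)]
  congr 1
  ring

lemma cap_pos (a : Fin d → ℝ) (L : ℕ) (k : Fin d) : 0 < cap a L k := by
  rw [cap_eq]
  positivity

lemma cap_sq (a : Fin d → ℝ) (L : ℕ) (k : Fin d) : cap a L k ^ 2 = (2 : ℝ) ^ ((a k - L) / 4) := by
  rw [cap_eq, ← Real.rpow_natCast, ← Real.rpow_mul (by norm_num)]
  congr 1
  push_cast
  ring

lemma t_lt {a : Fin d → ℝ} {t : ℕ} {k : Fin d} (hk : k ∈ rich a t) : (t : ℝ) < a k := by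
  unfold rich at hk
  exact (Finset.mem_filter.mp hk).2

lemma two_rpow : (2 : ℝ) ^ (-(1 / 8) : ℝ) ≤ 93 / 100 := by
  have h : ((2 : ℝ) ^ (-(1 / 8) : ℝ)) ^ 8 = 1 / 2 := by
    rw [← Real.rpow_natCast, ← Real.rpow_mul (by norm_num)]
    norm_num [Real.rpow_neg_one]
  by_contra hc
  push Not at hc
  have h2 := pow_lt_pow_left₀ hc (by norm_num) (n := 8) (by norm_num)
  rw [h] at h2
  norm_num at h2

lemma om_mono {x y : ℝ} (h : x ≤ y) : om x ≤ om y := by
  unfold om
  have : (2 : ℝ) ^ (-y / 8) ≤ (2 : ℝ) ^ (-x / 8) :=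
    Real.rpow_le_rpow_of_exponent_le (by norm_num) (by linarith)
  linarith

lemma om_le_two (x : ℝ) : om x ≤ 2 := by
  unfold om
  have : (0 : ℝ) < (2 : ℝ) ^ (-x / 8) := by positivity
  linarith

lemma one_le_om {x : ℝ} (hx : 0 ≤ x) : 1 ≤ om x := by
  unfold om
  have : (2 : ℝ) ^ (-x / 8) ≤ 1 := Real.rpow_le_one_of_one_le_of_nonpos (by norm_num) (by linarith)
  linarith

lemma om_diff {x y z : ℝ} (h : x + 1 ≤ y) (hz : x ≤ z) :
    7 / 100 * (2 : ℝ) ^ (-z / 8) ≤ om y - om x := by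
  unfold om
  have h1 : (2 : ℝ) ^ (-y / 8) ≤ (2 : ℝ) ^ (-x / 8) * (2 : ℝ) ^ (-(1 / 8) : ℝ) := by
    rw [← Real.rpow_add (by norm_num)]
    exact Real.rpow_le_rpow_of_exponent_le (by norm_num) (by linarith)
  have h2 : (2 : ℝ) ^ (-z / 8) ≤ (2 : ℝ) ^ (-x / 8) :=
    Real.rpow_le_rpow_of_exponent_le (by norm_num) (by linarith)
  have h3 := two_rpow
  have h4 : (0 : ℝ) < (2 : ℝ) ^ (-x / 8) := by positivity
  nlinarith

end PHLaux

open PHLaux

theorem mid_of_split {a : Fin d → ℝ} {t L : ℕ} (hL : L ≤ t) (hg : good a t)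
    {xl xr ch av e P : Fin d → ℝ}
    (hch : ∀ k ∈ rich a t, |ch k| ≤ max |xl k| |xr k|)
    (hdev : ∀ k ∈ rich a t, |av k - ch k| ≤ cap a L k / 4)
    (he : ∀ θ : ℝ, ∑ k ∈ (rich a t).filter (fun k => a k ≤ θ), e k ^ 2 ≤ 6 * K0 * nn a t θ)
    (hP : ∀ k ∈ rich a t, P k = av k - clip (av k) (cap a L k / 2) + e k / 2) :
    Mid a t L xl xr (fun k => e k ^ 2 / 4) P := by
  refine ⟨fun k _ => by positivity, fun θ => ?_, fun k hk => ?_⟩
  · have h := he θ
    rw [← Finset.sum_div]
    linarith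
  · have hcp := cap_pos a L k
    have hek : e k ^ 2 ≤ cap a L k ^ 2 / 64 := by
      have h1 : e k ^ 2 ≤ ∑ j ∈ (rich a t).filter (fun j => a j ≤ a k), e j ^ 2 :=
        Finset.single_le_sum (f := fun j => e j ^ 2) (fun j _ => sq_nonneg (e j))
          (Finset.mem_filter.mpr ⟨hk, le_rfl⟩)
      have h2 := he (a k)
      have h3 := good_nn hg hk
      have h4 : (2 : ℝ) ^ ((a k - t) / 16) ≤ cap a L k ^ 2 := by
        rw [cap_sq]
        apply Real.rpow_le_rpow_of_exponent_le (by norm_num)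
        have h5 := t_lt hk
        have h6 : (L : ℝ) ≤ t := by exact_mod_cast hL
        linarith
      have h7 : (6 * K0 * nn a t (a k) : ℝ) ≤ 6 * K0 * (cc * cap a L k ^ 2) := by
        apply mul_le_mul_of_nonneg_left _ (by norm_num [K0])
        exact h3.trans (mul_le_mul_of_nonneg_left h4 (by norm_num [cc]))
      have h8 : (6 : ℝ) * K0 * (cc * cap a L k ^ 2) = 1 / 500 * cap a L k ^ 2 := by
        unfold K0 cc
        ring
      nlinarith [sq_nonneg (cap a L k)]
    have heabs : |e k| ≤ cap a L k / 8 := by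
      apply abs_le_of_sq_le_sq _ (by positivity)
      calc e k ^ 2 ≤ cap a L k ^ 2 / 64 := hek
        _ = (cap a L k / 8) ^ 2 := by ring
    rcases le_or_gt |av k| (cap a L k / 2) with h | h
    · rw [hP k hk, clip_of_le h]
      refine le_trans (le_of_eq ?_) (le_max_left _ _)
      ring
    · have h1 := abs_sub_clip (by positivity) h
      have h2 : |P k| ≤ |av k| - cap a L k / 2 + |e k| / 2 := by
        rw [hP k hk]
        calc |av k - clip (av k) (cap a L k / 2) + e k / 2|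
            ≤ |av k - clip (av k) (cap a L k / 2)| + |e k / 2| := abs_add_le _ _
          _ = |av k| - cap a L k / 2 + |e k| / 2 := by
              rw [h1, abs_div, abs_of_pos (by norm_num : (0 : ℝ) < 2)]
      have h3 : |av k| ≤ |ch k| + cap a L k / 4 := by
        have := hdev k hk
        have h4 : |av k| ≤ |av k - ch k| + |ch k| := by
          have := abs_add_le (av k - ch k) (ch k)
          simpa using this
        linarith
      have h5 : |P k| ≤ |ch k| := by linarith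
      have h6 : cap a L k / 4 ≤ |ch k| := by linarith
      have h7 := hch k hk
      have h8 : max |xl k| |xr k| ^ 2 = max (xl k ^ 2) (xr k ^ 2) := by
        rcases le_total |xl k| |xr k| with h9 | h9
        · rw [max_eq_right h9, max_eq_right (sq_le_sq.mpr h9), sq_abs]
        · rw [max_eq_left h9, max_eq_left (sq_le_sq.mpr h9), sq_abs]
      have h9 : cap a L k ^ 2 / 16 ≤ max (xl k ^ 2) (xr k ^ 2) := by
        rw [← h8]
        have := h6.trans h7
        have h10 : (cap a L k / 4) ^ 2 ≤ max |xl k| |xr k| ^ 2 :=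
          pow_le_pow_left₀ (by positivity) this 2
        calc cap a L k ^ 2 / 16 = (cap a L k / 4) ^ 2 := by ring
          _ ≤ _ := h10
      rw [if_pos h9]
      refine le_trans ?_ (le_max_right _ _)
      rw [← h8, ← sq_abs (P k)]
      exact pow_le_pow_left₀ (abs_nonneg _) (h5.trans h7) 2

namespace PHLaux

/-- the key estimate: passing from the weights of level `L0` to those of level `L'` gains
`4 C1 n(θ⋆)`, where `θ⋆` is the largest `a_k` in a set `S` of coordinates with a large endpoint -/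
lemma star {a : Fin d → ℝ} {t L0 L L' : ℕ} (h0 : L0 < L') (h1 : L ≤ L') (h3 : L' ≤ t)
    (hg : good a t) {xl xr : Fin d → ℝ} {Θ : ℝ} (h : PH a (rich a t) L0 xl xr Θ)
    (S : Finset (Fin d)) (hS : S ⊆ rich a t)
    (hbig : ∀ k ∈ S, cap a L k ^ 2 / 16 ≤ max (xl k ^ 2) (xr k ^ 2)) :
    ∃ θs : ℝ, (∀ k ∈ S, a k ≤ θs) ∧ ∀ φ1 φ2 : ℝ, θs ≤ φ1 → θs ≤ φ2 →
      ∑ k ∈ rich a t, om (a k - L') *
        max (if a k ≤ φ1 then xl k ^ 2 else 0) (if a k ≤ φ2 then xr k ^ 2 else 0) ≤
        Θ + C1 * (cnt a (rich a t) φ1 + cnt a (rich a t) φ2) - 4 * C1 * cnt a (rich a t) θs := by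
  have hL0 : (L0 : ℝ) + 1 ≤ L' := by exact_mod_cast h0
  have hLL : (L : ℝ) ≤ L' := by exact_mod_cast h1
  have hLt : (L' : ℝ) ≤ t := by exact_mod_cast h3
  have hmx : ∀ (φ1 φ2 : ℝ) (k : Fin d), 0 ≤
      max (if a k ≤ φ1 then xl k ^ 2 else 0) (if a k ≤ φ2 then xr k ^ 2 else 0) := by
    intro φ1 φ2 k
    refine le_trans ?_ (le_max_left _ _)
    split_ifs <;> positivity
  have hmono : ∀ k, om (a k - L') ≤ om (a k - L0) := fun k => om_mono (by linarith)
  rcases S.eq_empty_or_nonempty with hSe | hSn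
  · subst hSe
    refine ⟨t, by simp, fun φ1 φ2 _ _ => ?_⟩
    have hz : (cnt a (rich a t) (t : ℝ) : ℝ) = 0 := by
      unfold cnt
      rw [Finset.card_eq_zero.mpr]
      · simp
      · apply Finset.filter_eq_empty_iff.mpr
        intro k hk
        exact not_le.mpr (t_lt hk)
    rw [hz]
    have := h φ1 φ2
    refine le_trans (Finset.sum_le_sum fun k _ =>
      mul_le_mul_of_nonneg_right (hmono k) (hmx φ1 φ2 k)) ?_
    linarith
  · obtain ⟨ks, hks, hmax⟩ := Finset.exists_max_image S a hSn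
    refine ⟨a ks, hmax, fun φ1 φ2 hφ1 hφ2 => ?_⟩
    have hkr := hS hks
    have hm := h φ1 φ2
    -- the gain at `ks`
    have hgain : 4 * C1 * (cnt a (rich a t) (a ks) : ℝ) ≤
        (om (a ks - L0) - om (a ks - L')) *
          max (if a ks ≤ φ1 then xl ks ^ 2 else 0) (if a ks ≤ φ2 then xr ks ^ 2 else 0) := by
      rw [if_pos hφ1, if_pos hφ2]
      have hb := hbig ks hks
      have ht := t_lt hkr
      have hd : 7 / 100 * (2 : ℝ) ^ (-(a ks - L) / 8) ≤ om (a ks - L0) - om (a ks - L') :=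
        om_diff (by linarith) (by linarith)
      have hp : (0 : ℝ) < (2 : ℝ) ^ (-(a ks - L) / 8) := by positivity
      have hn : (cnt a (rich a t) (a ks) : ℝ) ≤ cc * (2 : ℝ) ^ ((a ks - t) / 16) := good_nn hg hkr
      have he : (2 : ℝ) ^ ((a ks - t) / 16) ≤ (2 : ℝ) ^ ((a ks - L) / 8) := by
        apply Real.rpow_le_rpow_of_exponent_le (by norm_num)
        linarith
      have hprod : (2 : ℝ) ^ (-(a ks - L) / 8) * cap a L ks ^ 2 = (2 : ℝ) ^ ((a ks - L) / 8) := by
        rw [cap_sq, ← Real.rpow_add (by norm_num)]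
        congr 1
        ring
      calc 4 * C1 * (cnt a (rich a t) (a ks) : ℝ)
          ≤ 4 * C1 * (cc * (2 : ℝ) ^ ((a ks - L) / 8)) := by
            apply mul_le_mul_of_nonneg_left _ (by norm_num [C1])
            exact hn.trans (mul_le_mul_of_nonneg_left he (by norm_num [cc]))
        _ = 1 / 250 * ((2 : ℝ) ^ (-(a ks - L) / 8) * cap a L ks ^ 2) := by
            rw [hprod]
            unfold C1 cc
            ring
        _ ≤ 7 / 100 * (2 : ℝ) ^ (-(a ks - L) / 8) * (cap a L ks ^ 2 / 16) := by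
            nlinarith [mul_nonneg hp.le (sq_nonneg (cap a L ks))]
        _ ≤ (om (a ks - L0) - om (a ks - L')) * max (xl ks ^ 2) (xr ks ^ 2) := by
            apply mul_le_mul hd hb (by positivity)
            exact le_trans (by positivity) hd
    have hle : ∑ k ∈ rich a t, om (a k - L') *
        max (if a k ≤ φ1 then xl k ^ 2 else 0) (if a k ≤ φ2 then xr k ^ 2 else 0) ≤
        ∑ k ∈ rich a t, om (a k - L0) *
          max (if a k ≤ φ1 then xl k ^ 2 else 0) (if a k ≤ φ2 then xr k ^ 2 else 0) -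
        (om (a ks - L0) - om (a ks - L')) *
          max (if a ks ≤ φ1 then xl ks ^ 2 else 0) (if a ks ≤ φ2 then xr ks ^ 2 else 0) := by
      rw [le_sub_iff_add_le, ← Finset.add_sum_erase _ _ hkr, ← Finset.add_sum_erase (rich a t)
        (fun k => om (a k - L0) *
          max (if a k ≤ φ1 then xl k ^ 2 else 0) (if a k ≤ φ2 then xr k ^ 2 else 0)) hkr]
      have : ∑ k ∈ (rich a t).erase ks, om (a k - L') *
          max (if a k ≤ φ1 then xl k ^ 2 else 0) (if a k ≤ φ2 then xr k ^ 2 else 0) ≤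
          ∑ k ∈ (rich a t).erase ks, om (a k - L0) *
          max (if a k ≤ φ1 then xl k ^ 2 else 0) (if a k ≤ φ2 then xr k ^ 2 else 0) :=
        Finset.sum_le_sum fun k _ => mul_le_mul_of_nonneg_right (hmono k) (hmx φ1 φ2 k)
      linarith
    linarith

lemma cnt_max (a : Fin d → ℝ) (R : Finset (Fin d)) (x y : ℝ) :
    (cnt a R (max x y) : ℝ) ≤ cnt a R x + cnt a R y := by
  rcases le_total x y with h | h
  · rw [max_eq_right h]
    have : (0 : ℝ) ≤ cnt a R x := Nat.cast_nonneg _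
    linarith
  · rw [max_eq_left h]
    have : (0 : ℝ) ≤ cnt a R y := Nat.cast_nonneg _
    linarith

/-- the error terms cost at most `C1 n(θ)` -/
lemma err {a : Fin d → ℝ} {t L L' : ℕ} {xl xr E P : Fin d → ℝ} (hM : Mid a t L xl xr E P) (θ : ℝ) :
    ∑ k ∈ rich a t, om (a k - L') * (if a k ≤ θ then E k else 0) ≤ C1 * cnt a (rich a t) θ := by
  have h1 : ∑ k ∈ rich a t, om (a k - L') * (if a k ≤ θ then E k else 0) ≤
      ∑ k ∈ rich a t, 2 * (if a k ≤ θ then E k else 0) := by
    refine Finset.sum_le_sum fun k hk => mul_le_mul_of_nonneg_right (om_le_two _) ?_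
    split_ifs
    · exact hM.1 k hk
    · exact le_rfl
  have h2 := hM.2.1 θ
  rw [← Finset.mul_sum, ← Finset.sum_filter] at h1
  have h3 : (nn a t θ : ℝ) = cnt a (rich a t) θ := rfl
  rw [h3] at h2
  have h4 : C1 = 3 * K0 := by norm_num [C1, K0]
  rw [h4]
  linarith

/-- pointwise bound of a steered midpoint -/
lemma mid_le {a : Fin d → ℝ} {t L : ℕ} {xl xr E P : Fin d → ℝ} (hM : Mid a t L xl xr E P)
    {S : Finset (Fin d)} {θ θs : ℝ}
    (hS : ∀ k ∈ rich a t, a k ≤ θ → cap a L k ^ 2 / 16 ≤ max (xl k ^ 2) (xr k ^ 2) → k ∈ S)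
    (hθs : ∀ k ∈ S, a k ≤ θs) {φ1 φ2 : ℝ} (h1 : θs ≤ φ1) (h2 : θs ≤ φ2) {k : Fin d}
    (hk : k ∈ rich a t) :
    (if a k ≤ θ then P k ^ 2 else 0) ≤
      max (if a k ≤ φ1 then xl k ^ 2 else 0) (if a k ≤ φ2 then xr k ^ 2 else 0) +
        (if a k ≤ θ then E k else 0) := by
  have hmx : 0 ≤ max (if a k ≤ φ1 then xl k ^ 2 else 0) (if a k ≤ φ2 then xr k ^ 2 else 0) := by
    refine le_trans ?_ (le_max_left _ _)
    split_ifs <;> positivity
  have hE := hM.1 k hk
  by_cases hθ : a k ≤ θ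
  · rw [if_pos hθ, if_pos hθ]
    refine (hM.2.2 k hk).trans ?_
    by_cases hb : cap a L k ^ 2 / 16 ≤ max (xl k ^ 2) (xr k ^ 2)
    · rw [if_pos hb]
      have h3 := hθs k (hS k hk hθ hb)
      rw [if_pos (h3.trans h1), if_pos (h3.trans h2)] at *
      exact max_le (by linarith) (by linarith)
    · rw [if_neg hb, max_eq_left hE]
      linarith
  · rw [if_neg hθ, if_neg hθ]
    linarith

end PHLaux

/-- the potential is preserved by steered midpoints -/
theorem ph_step {a : Fin d → ℝ} {t L0 L L' : ℕ} (h0 : L0 < L') (h1 : L ≤ L') (h2 : L' ≤ L + 1)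
    (h3 : L' ≤ t) (hg : good a t) {xl xr P Q : Fin d → ℝ} {Θ : ℝ}
    (h : PH a (rich a t) L0 xl xr Θ)
    (hP : (∀ k ∈ rich a t, P k = xl k) ∨ ∃ E, Mid a t L xl xr E P)
    (hQ : (∀ k ∈ rich a t, Q k = xr k) ∨ ∃ E, Mid a t L xl xr E Q) :
    PH a (rich a t) L' P Q Θ := by
  classical
  intro θ1 θ2
  have hLt : (L' : ℝ) ≤ t := by exact_mod_cast h3
  have hom : ∀ k ∈ rich a t, 0 ≤ om (a k - L') := fun k hk => by
    have := one_le_om (x := a k - L') (by linarith [t_lt hk])
    linarith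
  have hC : (0 : ℝ) ≤ C1 := by norm_num [C1]
  have hcn : ∀ θ, (0 : ℝ) ≤ cnt a (rich a t) θ := fun θ => Nat.cast_nonneg _
  rcases hP with hP | ⟨E, hE⟩ <;> rcases hQ with hQ | ⟨F, hF⟩
  · -- both old
    obtain ⟨θs, -, hs⟩ := star (L := L) h0 h1 h3 hg h ∅ (by simp) (by simp)
    have hmono : ∀ k, om (a k - L') ≤ om (a k - L0) := fun k => om_mono (by
      have : (L0 : ℝ) ≤ L' := by exact_mod_cast h0.le
      linarith)
    refine le_trans (Finset.sum_le_sum fun k hk => ?_) (h θ1 θ2)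
    rw [hP k hk, hQ k hk]
    apply mul_le_mul_of_nonneg_right (hmono k)
    refine le_trans ?_ (le_max_left _ _)
    split_ifs <;> positivity
  · -- `P` old, `Q` mid
    obtain ⟨θs, hθ, hs⟩ := star (L := L) h0 h1 h3 hg h
      ((rich a t).filter (fun k => a k ≤ θ2 ∧ cap a L k ^ 2 / 16 ≤ max (xl k ^ 2) (xr k ^ 2)))
      (Finset.filter_subset _ _) (fun k hk => (Finset.mem_filter.mp hk).2.2)
    have hs' := hs (max θ1 θs) θs (le_max_right _ _) le_rfl
    have he := err (L' := L') hF θ2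
    have hc := cnt_max a (rich a t) θ1 θs
    have hpt : ∑ k ∈ rich a t, om (a k - L') *
        max (if a k ≤ θ1 then P k ^ 2 else 0) (if a k ≤ θ2 then Q k ^ 2 else 0) ≤
        ∑ k ∈ rich a t, om (a k - L') *
          max (if a k ≤ max θ1 θs then xl k ^ 2 else 0) (if a k ≤ θs then xr k ^ 2 else 0) +
        ∑ k ∈ rich a t, om (a k - L') * (if a k ≤ θ2 then F k else 0) := by
      rw [← Finset.sum_add_distrib]
      refine Finset.sum_le_sum fun k hk => ?_
      rw [← mul_add]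
      apply mul_le_mul_of_nonneg_left _ (hom k hk)
      apply max_le
      · rw [hP k hk]
        have h5 : (if a k ≤ θ1 then xl k ^ 2 else 0) ≤ (if a k ≤ max θ1 θs then xl k ^ 2 else 0) := by
          by_cases h6 : a k ≤ θ1
          · rw [if_pos h6, if_pos (h6.trans (le_max_left _ _))]
          · rw [if_neg h6]
            split_ifs <;> positivity
        have h7 : 0 ≤ (if a k ≤ θ2 then F k else 0) := by
          split_ifs
          · exact hF.1 k hk
          · exact le_rfl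
        have h8 := le_max_left (if a k ≤ max θ1 θs then xl k ^ 2 else 0)
          (if a k ≤ θs then xr k ^ 2 else 0)
        linarith
      · exact mid_le hF (fun k hk h5 h6 => Finset.mem_filter.mpr ⟨hk, h5, h6⟩) hθ
          (le_max_right _ _) le_rfl hk
    nlinarith [hcn θs, hcn θ1, hcn θ2]
  · -- `P` mid, `Q` old
    obtain ⟨θs, hθ, hs⟩ := star (L := L) h0 h1 h3 hg h
      ((rich a t).filter (fun k => a k ≤ θ1 ∧ cap a L k ^ 2 / 16 ≤ max (xl k ^ 2) (xr k ^ 2)))
      (Finset.filter_subset _ _) (fun k hk => (Finset.mem_filter.mp hk).2.2)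
    have hs' := hs θs (max θ2 θs) le_rfl (le_max_right _ _)
    have he := err (L' := L') hE θ1
    have hc := cnt_max a (rich a t) θ2 θs
    have hpt : ∑ k ∈ rich a t, om (a k - L') *
        max (if a k ≤ θ1 then P k ^ 2 else 0) (if a k ≤ θ2 then Q k ^ 2 else 0) ≤
        ∑ k ∈ rich a t, om (a k - L') *
          max (if a k ≤ θs then xl k ^ 2 else 0) (if a k ≤ max θ2 θs then xr k ^ 2 else 0) +
        ∑ k ∈ rich a t, om (a k - L') * (if a k ≤ θ1 then E k else 0) := by
      rw [← Finset.sum_add_distrib]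
      refine Finset.sum_le_sum fun k hk => ?_
      rw [← mul_add]
      apply mul_le_mul_of_nonneg_left _ (hom k hk)
      apply max_le
      · exact mid_le hE (fun k hk h5 h6 => Finset.mem_filter.mpr ⟨hk, h5, h6⟩) hθ
          le_rfl (le_max_right _ _) hk
      · rw [hQ k hk]
        have h5 : (if a k ≤ θ2 then xr k ^ 2 else 0) ≤ (if a k ≤ max θ2 θs then xr k ^ 2 else 0) := by
          by_cases h6 : a k ≤ θ2
          · rw [if_pos h6, if_pos (h6.trans (le_max_left _ _))]
          · rw [if_neg h6]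
            split_ifs <;> positivity
        have h7 : 0 ≤ (if a k ≤ θ1 then E k else 0) := by
          split_ifs
          · exact hE.1 k hk
          · exact le_rfl
        have h8 := le_max_right (if a k ≤ θs then xl k ^ 2 else 0)
          (if a k ≤ max θ2 θs then xr k ^ 2 else 0)
        linarith
    nlinarith [hcn θs, hcn θ1, hcn θ2]
  · -- both mid
    obtain ⟨θs, hθ, hs⟩ := star (L := L) h0 h1 h3 hg h
      ((rich a t).filter (fun k => (a k ≤ θ1 ∨ a k ≤ θ2) ∧
        cap a L k ^ 2 / 16 ≤ max (xl k ^ 2) (xr k ^ 2)))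
      (Finset.filter_subset _ _) (fun k hk => (Finset.mem_filter.mp hk).2.2)
    have hs' := hs θs θs le_rfl le_rfl
    have he1 := err (L' := L') hE θ1
    have he2 := err (L' := L') hF θ2
    have hpt : ∑ k ∈ rich a t, om (a k - L') *
        max (if a k ≤ θ1 then P k ^ 2 else 0) (if a k ≤ θ2 then Q k ^ 2 else 0) ≤
        ∑ k ∈ rich a t, om (a k - L') *
          max (if a k ≤ θs then xl k ^ 2 else 0) (if a k ≤ θs then xr k ^ 2 else 0) +
        ∑ k ∈ rich a t, om (a k - L') * (if a k ≤ θ1 then E k else 0) +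
        ∑ k ∈ rich a t, om (a k - L') * (if a k ≤ θ2 then F k else 0) := by
      rw [← Finset.sum_add_distrib, ← Finset.sum_add_distrib]
      refine Finset.sum_le_sum fun k hk => ?_
      rw [← mul_add, ← mul_add]
      apply mul_le_mul_of_nonneg_left _ (hom k hk)
      have h5 : 0 ≤ (if a k ≤ θ1 then E k else 0) := by
        split_ifs
        · exact hE.1 k hk
        · exact le_rfl
      have h6 : 0 ≤ (if a k ≤ θ2 then F k else 0) := by
        split_ifs
        · exact hF.1 k hk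
        · exact le_rfl
      apply max_le
      · have := mid_le hE (S := (rich a t).filter (fun k => (a k ≤ θ1 ∨ a k ≤ θ2) ∧
          cap a L k ^ 2 / 16 ≤ max (xl k ^ 2) (xr k ^ 2)))
          (fun k hk h5 h6 => Finset.mem_filter.mpr ⟨hk, Or.inl h5, h6⟩) hθ
          (le_refl θs) (le_refl θs) hk
        linarith
      · have := mid_le hF (S := (rich a t).filter (fun k => (a k ≤ θ1 ∨ a k ≤ θ2) ∧
          cap a L k ^ 2 / 16 ≤ max (xl k ^ 2) (xr k ^ 2)))
          (fun k hk h5 h6 => Finset.mem_filter.mpr ⟨hk, Or.inr h5, h6⟩) hθ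
          (le_refl θs) (le_refl θs) hk
        linarith
    nlinarith [hcn θs, hcn θ1, hcn θ2]

end Vale.Agent.P262F
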