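import Vale.Agent.P262F.State
import Vale.Agent.P262F.PHL
import Vale.Agent.P262F.M3
import Vale.Agent.P262F.OrdL

/-! The phase of steered halvings -/

namespace Vale.Agent.P262F
open Finset

variable {ι : Type*} [DecidableEq ι] {d : ℕ} {a : Fin d → ℝ} {J : ℕ → ℕ}

lemma al_sq_succ {e L : ℕ} (k : Fin d) :
    al a J e (L + 1) k ^ 2 ≤ (2 : ℝ) ^ ((3 / 4) : ℝ) * al a J e L k ^ 2 := by
  have h1 : (1 : ℝ) ≤ (2 : ℝ) ^ ((3 / 4) : ℝ) := Real.one_le_rpow (by norm_num) (by norm_num)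
  have hsq : ∀ x : ℝ, 0 < x → (x ^ (-(3 / 8) : ℝ)) ^ 2 = x ^ (-(3 / 4) : ℝ) := by
    intro x hx
    rw [← Real.rpow_natCast (x ^ (-(3 / 8) : ℝ)) 2, ← Real.rpow_mul hx.le]
    norm_num
  unfold al
  by_cases hg : gi a J k < e
  · simp only [hg, if_true]
    nlinarith [sq_nonneg (be ^ (e - gi a J k))]
  · simp only [hg, if_false]
    by_cases h2 : ((L + 1 : ℕ) : ℝ) < a k
    · have h3 : (L : ℝ) < a k := by push_cast at h2; linarith
      rw [if_pos h2, if_pos h3, hsq _ (mu_pos a _ k), hsq _ (mu_pos a _ k)]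
      have e1 : mu a L k = 2 * mu a (L + 1) k := by
        unfold mu
        rw [show a k - (L : ℝ) = 1 + (a k - ((L + 1 : ℕ) : ℝ)) by push_cast; ring,
          Real.rpow_add (by norm_num), Real.rpow_one]
      rw [e1, Real.mul_rpow (by norm_num) (mu_pos a _ k).le, ← mul_assoc, ← Real.rpow_add (by norm_num)]
      norm_num
    · rw [if_neg h2]
      by_cases h3 : (L : ℝ) < a k
      · rw [if_pos h3, hsq _ (mu_pos a _ k)]
        have h4 : mu a L k ≤ 2 := by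
          unfold mu
          calc (2 : ℝ) ^ (a k - (L : ℝ)) ≤ (2 : ℝ) ^ (1 : ℝ) := by
                apply Real.rpow_le_rpow_of_exponent_le (by norm_num)
                push_cast at h2
                linarith
            _ = 2 := by norm_num
        have h5 : (2 : ℝ) ^ (-(3 / 4) : ℝ) ≤ mu a L k ^ (-(3 / 4) : ℝ) :=
          Real.rpow_le_rpow_of_nonpos (mu_pos a _ k) h4 (by norm_num)
        have h6 : (2 : ℝ) ^ ((3 / 4) : ℝ) * (2 : ℝ) ^ (-(3 / 4) : ℝ) = 1 := by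
          rw [← Real.rpow_add (by norm_num)]; norm_num
        have := mul_le_mul_of_nonneg_left h5 (le_trans zero_le_one h1)
        linarith
      · rw [if_neg h3]
        linarith

lemma EE_succ (_hJ : StrictMono J) {e L : ℕ} (v : ι → Fin d → ℝ) (A : Finset ι) :
    EE v (deep a (J e)) (al a J e (L + 1)) A ≤
      (2 : ℝ) ^ ((3 / 4) : ℝ) * EE v (deep a (J e)) (al a J e L) A := by
  unfold EE
  rw [mul_sum]
  refine sum_le_sum fun i _ => ?_
  rw [mul_sum]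
  refine sum_le_sum fun k _ => ?_
  rw [mul_pow, mul_pow, ← mul_assoc]
  exact mul_le_mul_of_nonneg_right (al_sq_succ k) (sq_nonneg _)

lemma nrm_old (hJ : StrictMono J) {e L c : ℕ} (hc : c < e) {y : Fin d → ℝ} {B : ℝ}
    (h : ∑ k ∈ deep a (J e), (al a J e L k * y k) ^ 2 ≤ B) :
    nrm (gen a J c) y ≤ √B * (25 / 26) ^ (e - c) := by
  have hsub : gen a J c ⊆ deep a (J e) := by
    intro k hk
    rw [mem_gen] at hk
    rw [mem_deep, ← gi_le_iff hJ]
    omega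
  have h1 : ∑ k ∈ gen a J c, (al a J e L k * y k) ^ 2 ≤ B :=
    le_trans (sum_le_sum_of_subset_of_nonneg hsub fun _ _ _ => sq_nonneg _) h
  have h2 : ∑ k ∈ gen a J c, (al a J e L k * y k) ^ 2 =
      (be ^ (e - c)) ^ 2 * ∑ k ∈ gen a J c, y k ^ 2 := by
    rw [mul_sum]
    refine sum_congr rfl fun k hk => ?_
    rw [mem_gen] at hk
    have : al a J e L k = be ^ (e - c) := by
      unfold al
      rw [if_pos (by omega), hk]
    rw [this, mul_pow]
  rw [h2] at h1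
  have h3 := Real.sqrt_le_sqrt h1
  rw [Real.sqrt_mul (sq_nonneg _), Real.sqrt_sq (pow_nonneg be_pos.le _)] at h3
  have h4 : (25 / 26 : ℝ) ^ (e - c) * be ^ (e - c) = 1 := by
    rw [← mul_pow]; norm_num [be]
  have h5 : (0 : ℝ) ≤ (25 / 26 : ℝ) ^ (e - c) := by positivity
  unfold nrm
  calc √(∑ k ∈ gen a J c, y k ^ 2) = ((25 / 26 : ℝ) ^ (e - c) * be ^ (e - c)) *
        √(∑ k ∈ gen a J c, y k ^ 2) := by rw [h4, one_mul]
    _ = (be ^ (e - c) * √(∑ k ∈ gen a J c, y k ^ 2)) * (25 / 26 : ℝ) ^ (e - c) := by ring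
    _ ≤ _ := mul_le_mul_of_nonneg_right h3 h5

lemma nrm_cur (hJ : StrictMono J) {e L : ℕ} {y : Fin d → ℝ} {B B' : ℝ}
    (h : ∑ k ∈ deep a (J e), (al a J e L k * y k) ^ 2 ≤ B)
    (h' : ∑ k ∈ (gen a J e).filter (fun k => (L : ℝ) < a k), y k ^ 2 ≤ B') :
    nrm (gen a J e) y ≤ √(B + B') := by
  unfold nrm
  apply Real.sqrt_le_sqrt
  rw [← Finset.sum_filter_add_sum_filter_not (gen a J e) (fun k => (L : ℝ) < a k)]
  have h1 : ∑ k ∈ (gen a J e).filter (fun k => ¬ (L : ℝ) < a k), y k ^ 2 ≤ B := by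
    refine le_trans ?_ h
    have hsub : (gen a J e).filter (fun k => ¬ (L : ℝ) < a k) ⊆ deep a (J e) := by
      intro k hk
      have hk := (mem_filter.mp hk).1
      rw [mem_gen] at hk
      rw [mem_deep, ← gi_le_iff hJ]
      omega
    refine le_trans (le_of_eq (sum_congr rfl fun k hk => ?_))
      (sum_le_sum_of_subset_of_nonneg hsub fun _ _ _ => sq_nonneg _)
    have h2 := mem_filter.mp hk
    have h3 := mem_gen.mp h2.1
    have : al a J e L k = 1 := by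
      unfold al
      rw [if_neg (by omega), if_neg h2.2]
    rw [this, one_mul]
  linarith

lemma Hst.mono {e L : ℕ} {Θ : ℝ} {v : ι → Fin d → ℝ} {A : Finset ι} {xl : Fin d → ℝ}
    {b b' : ℕ → ℝ} (h : Hst a J e L Θ v A xl b) (hb : ∀ c ≤ e, b c ≤ b' c) :
    Hst a J e L Θ v A xl b' :=
  { unit := h.unit
    Q := h.Q
    ent := h.ent
    En := h.En
    ph := h.ph
    bl := fun c hc => (h.bl c hc).trans (hb c hc)
    br := fun c hc => (h.br c hc).trans (hb c hc) }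

lemma sqrtK0_le : √K0 ≤ 4243 / 10 := by
  unfold K0
  rw [Real.sqrt_le_left (by norm_num)]
  norm_num

lemma two_eighth : (1090 / 1000 : ℝ) ≤ (2 : ℝ) ^ ((1 / 8) : ℝ) := by
  have h : (1090 / 1000 : ℝ) ^ 8 ≤ 2 := by norm_num
  calc (1090 / 1000 : ℝ) = ((1090 / 1000 : ℝ) ^ (8 : ℕ)) ^ ((1 / 8) : ℝ) := by
        rw [← Real.rpow_natCast, ← Real.rpow_mul (by norm_num)]
        norm_num
    _ ≤ (2 : ℝ) ^ ((1 / 8) : ℝ) := Real.rpow_le_rpow (by positivity) h (by norm_num)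

lemma ww_step (i : ℕ) :
    ww (i + 1) + 6 * √K0 * √(ww (i + 1)) * (2 : ℝ) ^ (-((i + 1 : ℕ) : ℝ) / 8) ≤ ww i := by
  set z : ℝ := (2 : ℝ) ^ (-((i + 1 : ℕ) : ℝ) / 8) with hz
  have hz0 : 0 < z := Real.rpow_pos_of_pos (by norm_num) _
  have e1 : (2 : ℝ) ^ (-(i : ℝ) / 8) = (2 : ℝ) ^ ((1 / 8) : ℝ) * z := by
    rw [hz, ← Real.rpow_add (by norm_num)]
    congr 1
    push_cast
    ring
  have h1 := two_eighth
  have h2 := sqrtK0_le
  have h3 : √(ww (i + 1)) = 13000 + 15000 * z := by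
    unfold ww
    rw [Real.sqrt_sq (by positivity)]
  rw [h3]
  unfold ww
  rw [e1, ← hz]
  set r : ℝ := (2 : ℝ) ^ ((1 / 8) : ℝ) with hr
  have h4 : 0 ≤ (13000 + 15000 * z) * z := by positivity
  have h5 : (13000 + 15000 * (r * z)) ^ 2 - (13000 + 15000 * z) ^ 2 =
    15000 * ((r - 1) * z) * (2 * (13000 + 15000 * z) + 15000 * ((r - 1) * z)) := by ring
  have h6 : 15000 * (90 / 1000 * z) ≤ 15000 * ((r - 1) * z) := by nlinarith
  have h7 : 2 * (13000 + 15000 * z) ≤ 2 * (13000 + 15000 * z) + 15000 * ((r - 1) * z) := by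
    nlinarith
  have h8 : 15000 * (90 / 1000 * z) * (2 * (13000 + 15000 * z)) ≤
      15000 * ((r - 1) * z) * (2 * (13000 + 15000 * z) + 15000 * ((r - 1) * z)) :=
    mul_le_mul h6 h7 (by positivity) (by nlinarith)
  have h9 : 6 * √K0 * (13000 + 15000 * z) * z ≤ 6 * (4243 / 10) * ((13000 + 15000 * z) * z) := by
    have := mul_le_mul_of_nonneg_right h2 h4
    nlinarith
  nlinarith

lemma sqrt_ww (i : ℕ) : √(ww i) = 13000 + 15000 * (2 : ℝ) ^ (-(i : ℝ) / 8) := by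
  unfold ww
  rw [Real.sqrt_sq (by positivity)]

lemma ww_pos (i : ℕ) : 0 < ww i := by unfold ww; positivity

lemma sqrt_ww_le (i : ℕ) : √(ww i) ≤ 28000 := by
  rw [sqrt_ww]
  have : (2 : ℝ) ^ (-(i : ℝ) / 8) ≤ 1 := by
    apply Real.rpow_le_one_of_one_le_of_nonpos (by norm_num)
    have : (0 : ℝ) ≤ (i : ℝ) := Nat.cast_nonneg _
    linarith
  linarith

lemma ww_le (i : ℕ) : ww i ≤ 28000 ^ 2 := by
  rw [← Real.sq_sqrt (ww_pos i).le]
  exact pow_le_pow_left₀ (Real.sqrt_nonneg _) (sqrt_ww_le i) 2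

lemma pow_quarter (i : ℕ) : (2 : ℝ) ^ ((i : ℝ) / 4) = ((2 : ℝ) ^ ((i : ℝ) / 8)) ^ 2 := by
  rw [← Real.rpow_natCast, ← Real.rpow_mul (by norm_num)]
  congr 1
  push_cast; ring

/-- child energies -/
lemma E_child (j : ℕ) {E : ℝ}
    (h : E ≤ (ww (j + 1) * (2 : ℝ) ^ (((j + 1 : ℕ) : ℝ) / 4) +
      6 * √K0 * √(ww (j + 1) * (2 : ℝ) ^ (((j + 1 : ℕ) : ℝ) / 4))) / 2) :
    (2 : ℝ) ^ ((3 / 4) : ℝ) * E ≤ ww j * (2 : ℝ) ^ ((j : ℝ) / 4) := by
  have h1 := ww_step j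
  set z : ℝ := (2 : ℝ) ^ (-((j + 1 : ℕ) : ℝ) / 8) with hz
  set X : ℝ := (2 : ℝ) ^ (((j + 1 : ℕ) : ℝ) / 8) with hX
  have hz0 : 0 < z := Real.rpow_pos_of_pos (by norm_num) _
  have hX0 : 0 < X := Real.rpow_pos_of_pos (by norm_num) _
  have hzX : z * X = 1 := by
    rw [hz, hX, ← Real.rpow_add (by norm_num)]
    rw [show -((j + 1 : ℕ) : ℝ) / 8 + ((j + 1 : ℕ) : ℝ) / 8 = 0 by ring, Real.rpow_zero]
  have hX2 : (2 : ℝ) ^ (((j + 1 : ℕ) : ℝ) / 4) = X ^ 2 := pow_quarter (j + 1)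
  rw [hX2, Real.sqrt_mul (ww_pos _).le, Real.sqrt_sq hX0.le] at h
  have e2 : (2 : ℝ) ^ ((3 / 4) : ℝ) = 2 * (2 : ℝ) ^ (-(1 / 4) : ℝ) := by
    rw [show ((3 / 4) : ℝ) = 1 + (-(1 / 4)) by norm_num, Real.rpow_add (by norm_num),
      Real.rpow_one]
  have e3 : (2 : ℝ) ^ (-(1 / 4) : ℝ) * X ^ 2 = (2 : ℝ) ^ ((j : ℝ) / 4) := by
    rw [← hX2, ← Real.rpow_add (by norm_num)]
    congr 1
    push_cast; ring
  have e5 : z * X ^ 2 = X := by
    calc z * X ^ 2 = (z * X) * X := by ring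
      _ = _ := by rw [hzX, one_mul]
  calc _ ≤ (2 : ℝ) ^ ((3 / 4) : ℝ) * ((ww (j + 1) * X ^ 2 + 6 * √K0 * (√(ww (j + 1)) * X)) / 2) :=
        mul_le_mul_of_nonneg_left h (by positivity)
    _ = (2 : ℝ) ^ (-(1 / 4) : ℝ) * (ww (j + 1) * X ^ 2 +
          6 * √K0 * (√(ww (j + 1)) * (z * X ^ 2))) := by rw [e2, e5]; ring
    _ = (ww (j + 1) + 6 * √K0 * √(ww (j + 1)) * z) * ((2 : ℝ) ^ (-(1 / 4) : ℝ) * X ^ 2) := by ring
    _ = (ww (j + 1) + 6 * √K0 * √(ww (j + 1)) * z) * (2 : ℝ) ^ ((j : ℝ) / 4) := by rw [e3]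
    _ ≤ _ := mul_le_mul_of_nonneg_right h1 (by positivity)

/-- child matrices -/
lemma Q_child {t L : ℕ} (hL : L ≤ t) (hg : good a t) {QA QB : ℝ} (hQA : QA ≤ 1 / 4)
    (hB : √QB ≤ (2 : ℝ) ^ (-(1 / 8) : ℝ) * (√QA + 3 * √K0 * sig a t L)) : QB ≤ 1 / 4 := by
  have hr : (2 : ℝ) ^ (-(1 / 8) : ℝ) ≤ 92 / 100 := by
    have h1 := two_eighth
    rw [Real.rpow_neg (by norm_num)]
    rw [inv_le_comm₀ (by positivity) (by norm_num)]
    refine le_trans ?_ h1
    norm_num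
  have hsig : sig a t L ≤ cc := by
    refine le_trans (good_sig hg hL) ?_
    have : (2 : ℝ) ^ (-(3 / 8) * ((t : ℝ) - L)) ≤ 1 := by
      apply Real.rpow_le_one_of_one_le_of_nonpos (by norm_num)
      have : (L : ℝ) ≤ t := by exact_mod_cast hL
      linarith
    have hcc : (0 : ℝ) ≤ cc := by norm_num [cc]
    nlinarith
  have h1 : √QA ≤ 1 / 2 := by
    rw [Real.sqrt_le_left (by norm_num)]
    refine le_trans hQA (by norm_num)
  have h2 : 3 * √K0 * sig a t L ≤ 3 * (4243 / 10) * cc := by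
    have h3 := sqrtK0_le
    have hcc : (0 : ℝ) ≤ cc := by norm_num [cc]
    calc 3 * √K0 * sig a t L ≤ 3 * √K0 * cc :=
          mul_le_mul_of_nonneg_left hsig (by positivity)
      _ ≤ _ := mul_le_mul_of_nonneg_right (by linarith) hcc
  have h3 : √QB ≤ 1 / 2 := by
    refine le_trans hB ?_
    calc _ ≤ (2 : ℝ) ^ (-(1 / 8) : ℝ) * (1 / 2 + 3 * (4243 / 10) * cc) :=
          mul_le_mul_of_nonneg_left (by linarith) (by positivity)
      _ ≤ 92 / 100 * (1 / 2 + 3 * (4243 / 10) * cc) :=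
          mul_le_mul_of_nonneg_right hr (by norm_num [cc])
      _ ≤ 1 / 2 := by norm_num [cc]
  have h4 := (Real.sqrt_le_left (by norm_num)).1 h3
  refine le_trans h4 (by norm_num)

lemma cost_old {X W : ℝ} (hX : 0 ≤ X) (hW : W ≤ (28000 * X) ^ 2) :
    √(2 * K0 * W) ≤ 17000000 * X := by
  rw [Real.sqrt_le_left (by positivity)]
  unfold K0
  nlinarith [sq_nonneg X]

lemma cost_cur {X W U : ℝ} (hX : 1 ≤ X) (hW : W ≤ (28000 * X) ^ 2) (hU : U ≤ X ^ 2) :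
    √(2 * K0 * W + (K0 * (U + 4) + W)) ≤ 17000000 * X := by
  rw [Real.sqrt_le_left (by positivity)]
  unfold K0
  have : 1 ≤ X ^ 2 := by nlinarith
  nlinarith

lemma card_cur (hJ : StrictMono J) {e L : ℕ} (hL : L ≤ J e) (hg : good a (J e)) :
    ((((gen a J e).filter (fun k => (L : ℝ) < a k)).card : ℕ) : ℝ) ≤
      ((2 : ℝ) ^ (((J e : ℝ) - L) / 8)) ^ 2 := by
  have h3 := good_window hg L
  have h4 : (((gen a J e).filter (fun k => (L : ℝ) < a k)).card : ℝ) ≤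
      (((deep a (J e)).filter (fun k => (L : ℝ) < a k)).card : ℝ) := by
    exact_mod_cast card_le_card (fun k hk => by
      rw [mem_filter] at hk ⊢
      refine ⟨?_, hk.2⟩
      have h5 := mem_gen.mp hk.1
      rw [mem_deep, ← gi_le_iff hJ]
      omega)
  refine le_trans h4 (le_trans h3 ?_)
  have h0 : (0 : ℝ) ≤ (J e : ℝ) - L := by
    have : (L : ℝ) ≤ J e := by exact_mod_cast hL
    linarith
  have h6 : (2 : ℝ) ^ (((J e : ℝ) - L) / 16) ≤ (2 : ℝ) ^ (((J e : ℝ) - L) / 8) :=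
    Real.rpow_le_rpow_of_exponent_le (by norm_num) (by linarith)
  have h7 : 1 ≤ (2 : ℝ) ^ (((J e : ℝ) - L) / 8) := Real.one_le_rpow (by norm_num) (by positivity)
  have hcc : cc ≤ 1 := by norm_num [cc]
  have h8 : 0 ≤ (2 : ℝ) ^ (((J e : ℝ) - L) / 16) := by positivity
  nlinarith

lemma nrm_mid {S : Finset (Fin d)} {x x' y : Fin d → ℝ} {b c : ℝ} (hx : nrm S x ≤ b)
    (hx' : nrm S x' ≤ b) (hy : nrm S y ≤ c) : nrm S (fun k => (x k + x' k) / 2 + y k) ≤ b + c := by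
  refine le_trans (nrm_add_le _ _ _) (add_le_add ?_ hy)
  have h1 : (fun k => (x k + x' k) / 2) = fun k => (1 / 2) * x k + (1 / 2) * x' k := by
    ext k; ring
  rw [h1]
  have h2 : ∀ x : Fin d → ℝ, nrm S (fun k => (1 / 2) * x k) = (1 / 2) * nrm S x := by
    intro x
    unfold nrm
    rw [show ∑ k ∈ S, ((1 / 2) * x k) ^ 2 = (1 / 2) ^ 2 * ∑ k ∈ S, x k ^ 2 by
      rw [mul_sum]; exact sum_congr rfl fun _ _ => by ring]
    rw [Real.sqrt_mul (by positivity), Real.sqrt_sq (by norm_num)]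
  refine le_trans (nrm_add_le _ _ _) ?_
  rw [h2, h2]
  linarith

/-- one steered halving, raw form -/
theorem hstep_raw (hJ : StrictMono J) {e L : ℕ} (hL : L < J e) (hg : good a (J e)) {Θ : ℝ}
    {v : ι → Fin d → ℝ} {A : Finset ι} {xl : Fin d → ℝ} {b : ℕ → ℝ}
    (h : Hst a J e L Θ v A xl b) :
    ∃ A1 ⊆ A, ∃ er : Fin d → ℝ,
      QQ a v (L + 1) (rich a (J e)) A1 ≤ 1 / 4 ∧ QQ a v (L + 1) (rich a (J e)) (A \ A1) ≤ 1 / 4 ∧
      EE v (deep a (J e)) (al a J e (L + 1)) A1 ≤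
        ww (J e - (L + 1)) * (2 : ℝ) ^ (((J e : ℝ) - ((L + 1 : ℕ) : ℝ)) / 4) ∧
      EE v (deep a (J e)) (al a J e (L + 1)) (A \ A1) ≤
        ww (J e - (L + 1)) * (2 : ℝ) ^ (((J e : ℝ) - ((L + 1 : ℕ) : ℝ)) / 4) ∧
      (∀ c ≤ e, nrm (gen a J c) (fun k => ∑ i ∈ A1, v i k - (∑ i ∈ A, v i k) / 2) ≤
        17000000 * (2 : ℝ) ^ (((J e : ℝ) - L) / 8) * (25 / 26) ^ (e - c)) ∧
      (∀ θ : ℝ, ∑ k ∈ (rich a (J e)).filter (fun k => a k ≤ θ), er k ^ 2 ≤
        6 * K0 * nn a (J e) θ) ∧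
      (∀ k ∈ rich a (J e), xl k + ∑ i ∈ A1, v i k =
        (xl k + (∑ i ∈ A, v i k) / 2) -
          clip (xl k + (∑ i ∈ A, v i k) / 2) (cap a L k / 2) + er k / 2) := by
  obtain ⟨j, hj⟩ : ∃ j, J e - L = j + 1 := ⟨J e - L - 1, by omega⟩
  have hj2 : J e - (L + 1) = j := by omega
  have hJL : (J e : ℝ) - L = ((j + 1 : ℕ) : ℝ) := by
    rw [← hj, Nat.cast_sub hL.le]
  have hJL2 : (J e : ℝ) - ((L + 1 : ℕ) : ℝ) = (j : ℝ) := by
    push_cast at hJL ⊢; linarith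
  have hEn := h.En
  rw [hj, hJL] at hEn
  have hW0 : 0 < ww (j + 1) * (2 : ℝ) ^ (((j + 1 : ℕ) : ℝ) / 4) := by
    have := ww_pos (j + 1)
    positivity
  have hent : ∀ i ∈ A, ∑ k ∈ deep a (J e), (al a J e L k * v i k) ^ 2 ≤ 3 :=
    fun i hi => ent3 hJ (h.unit i hi) (h.ent i hi)
  have hUsub : (gen a J e).filter (fun k => (L : ℝ) < a k) ⊆ deep a (J e) := by
    intro k hk
    have hk := (mem_filter.mp hk).1
    rw [mem_gen] at hk
    rw [mem_deep, ← gi_le_iff hJ]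
    omega
  have hUα : ∀ k ∈ (gen a J e).filter (fun k => (L : ℝ) < a k),
      (2 : ℝ) ^ (-(3 / 8) * ((J e : ℝ) - L)) ≤ al a J e L k := by
    intro k hk
    have h2 := mem_filter.mp hk
    have h3 := mem_gen.mp h2.1
    have h4 : a k ≤ (J e : ℝ) := (gi_le_iff hJ k e).1 (by omega)
    unfold al
    rw [if_neg (by omega), if_pos h2.2]
    unfold mu
    rw [← Real.rpow_mul (by norm_num)]
    apply Real.rpow_le_rpow_of_exponent_le (by norm_num)
    nlinarith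
  obtain ⟨A1, hA1, er, hQ1, hQ2, hE1, hE2, hdev, hdevU, her, hmid⟩ :=
    hsplit (a := a) (t := J e) (L := L) hL.le hg (v := v) (A := A) h.unit h.Q (al a J e L)
      (fun k => al_pos e L k) hent hW0 hEn ((gen a J e).filter (fun k => (L : ℝ) < a k)) hUsub hUα xl
  have hE : ∀ B : Finset ι, EE v (deep a (J e)) (al a J e L) B ≤
      (ww (j + 1) * (2 : ℝ) ^ (((j + 1 : ℕ) : ℝ) / 4) +
      6 * √K0 * √(ww (j + 1) * (2 : ℝ) ^ (((j + 1 : ℕ) : ℝ) / 4))) / 2 →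
      EE v (deep a (J e)) (al a J e (L + 1)) B ≤
        ww (J e - (L + 1)) * (2 : ℝ) ^ (((J e : ℝ) - ((L + 1 : ℕ) : ℝ)) / 4) := by
    intro B hB
    rw [hj2, hJL2]
    exact le_trans (EE_succ hJ v B) (E_child j hB)
  refine ⟨A1, hA1, er, Q_child hL.le hg h.Q hQ1, Q_child hL.le hg h.Q hQ2, hE _ hE1, hE _ hE2, ?_,
    her, hmid⟩
  intro c hc
  have hX1 : 1 ≤ (2 : ℝ) ^ (((J e : ℝ) - L) / 8) := by
    rw [hJL]
    exact Real.one_le_rpow (by norm_num) (by positivity)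
  have hWle : ww (j + 1) * (2 : ℝ) ^ (((j + 1 : ℕ) : ℝ) / 4) ≤
      (28000 * (2 : ℝ) ^ (((J e : ℝ) - L) / 8)) ^ 2 := by
    rw [hJL, pow_quarter, mul_pow]
    exact mul_le_mul_of_nonneg_right (ww_le _) (sq_nonneg _)
  rcases Nat.lt_or_eq_of_le hc with hlt | heq
  · have h1 := nrm_old (a := a) hJ hlt hdev
    exact le_trans h1 (mul_le_mul_of_nonneg_right (cost_old (by positivity) hWle) (by positivity))
  · rw [heq]
    have h1 := nrm_cur (a := a) hJ hdev hdevU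
    rw [Nat.sub_self, pow_zero, mul_one]
    exact le_trans h1 (cost_cur hX1 hWle (card_cur hJ hL.le hg))

/-- one steered halving -/
theorem hstep (hJ : StrictMono J) {e L : ℕ} (hL : L < J e) (hg : good a (J e)) {Θ : ℝ}
    {v : ι → Fin d → ℝ} {A : Finset ι} {xl : Fin d → ℝ} {b : ℕ → ℝ}
    (h : Hst a J e L Θ v A xl b) :
    ∃ A1 ⊆ A,
      Hst a J e (L + 1) Θ v A1 xl
        (fun c => b c + 17000000 * (2 : ℝ) ^ (((J e : ℝ) - L) / 8) * (25 / 26) ^ (e - c)) ∧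
      Hst a J e (L + 1) Θ v (A \ A1) (fun k => xl k + ∑ i ∈ A1, v i k)
        (fun c => b c + 17000000 * (2 : ℝ) ^ (((J e : ℝ) - L) / 8) * (25 / 26) ^ (e - c)) := by
  obtain ⟨A1, hA1, er, hQ1, hQ2, hE1, hE2, hcost, her, hmid⟩ := hstep_raw hJ hL hg h
  refine ⟨A1, hA1, ?_⟩
  have hmideq : (fun k => xl k + ∑ i ∈ A1, v i k) = fun k => (xl k + (xl k + ∑ i ∈ A, v i k)) / 2 +
      (∑ i ∈ A1, v i k - (∑ i ∈ A, v i k) / 2) := by
    ext k
    ring
  have hbmid : ∀ c ≤ e, nrm (gen a J c) (fun k => xl k + ∑ i ∈ A1, v i k) ≤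
      b c + 17000000 * (2 : ℝ) ^ (((J e : ℝ) - L) / 8) * (25 / 26) ^ (e - c) := by
    intro c hc
    rw [hmideq]
    exact nrm_mid (h.bl c hc) (h.br c hc) (hcost c hc)
  have hcostnn : ∀ c, 0 ≤ 17000000 * (2 : ℝ) ^ (((J e : ℝ) - L) / 8) * (25 / 26 : ℝ) ^ (e - c) :=
    fun c => by positivity
  -- the potential
  have hPHmid : Mid a (J e) L xl (fun k => xl k + ∑ i ∈ A, v i k) (fun k => er k ^ 2 / 4)
      (fun k => xl k + ∑ i ∈ A1, v i k) := by
    refine mid_of_split hL.le hg (ch := fun k => xl k + (∑ i ∈ A, v i k) / 2)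
      (av := fun k => xl k + (∑ i ∈ A, v i k) / 2) (e := er) ?_ ?_ her hmid
    · intro k _
      have e1 : xl k + (∑ i ∈ A, v i k) / 2 = (xl k + (xl k + ∑ i ∈ A, v i k)) / 2 := by ring
      show |xl k + (∑ i ∈ A, v i k) / 2| ≤ _
      rw [e1]
      have h1 := abs_add_le (xl k) (xl k + ∑ i ∈ A, v i k)
      rw [abs_div, abs_two]
      have h2 := le_max_left |xl k| |xl k + ∑ i ∈ A, v i k|
      have h3 := le_max_right |xl k| |xl k + ∑ i ∈ A, v i k|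
      linarith
    · intro k _
      show |xl k + (∑ i ∈ A, v i k) / 2 - (xl k + (∑ i ∈ A, v i k) / 2)| ≤ _
      rw [sub_self, abs_zero]
      unfold cap
      have := Real.rpow_nonneg (mu_pos a L k).le (1 / 8)
      positivity
  have hxr2 : (fun k => (xl k + ∑ i ∈ A1, v i k) + ∑ i ∈ A \ A1, v i k) =
      fun k => xl k + ∑ i ∈ A, v i k := by
    ext k
    rw [← sum_sdiff hA1]
    ring
  have hph1 : PH a (rich a (J e)) (L + 1) xl (fun k => xl k + ∑ i ∈ A1, v i k) Θ :=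
    ph_step (L0 := L) (L := L) (L' := L + 1) (by omega) (by omega) le_rfl (by omega) hg h.ph
      (Or.inl fun _ _ => rfl) (Or.inr ⟨_, hPHmid⟩)
  have hph2 : PH a (rich a (J e)) (L + 1) (fun k => xl k + ∑ i ∈ A1, v i k)
      (fun k => xl k + ∑ i ∈ A, v i k) Θ :=
    ph_step (L0 := L) (L := L) (L' := L + 1) (by omega) (by omega) le_rfl (by omega) hg h.ph
      (Or.inr ⟨_, hPHmid⟩) (Or.inl fun _ _ => rfl)
  constructor
  · exact
    { unit := fun i hi => h.unit i (hA1 hi)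
      Q := hQ1
      ent := fun i hi => h.ent i (hA1 hi)
      En := hE1
      ph := hph1
      bl := fun c hc => le_trans (h.bl c hc) (by have := hcostnn c; linarith)
      br := fun c hc => hbmid c hc }
  · exact
    { unit := fun i hi => h.unit i (sdiff_subset hi)
      Q := hQ2
      ent := fun i hi => h.ent i (sdiff_subset hi)
      En := hE2
      ph := by rw [hxr2]; exact hph2
      bl := fun c hc => hbmid c hc
      br := fun c hc => by
        rw [hxr2]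
        exact le_trans (h.br c hc) (by have := hcostnn c; linarith) }

theorem hphase (hJ : StrictMono J) {e : ℕ} (hg : good a (J e)) {P : (Fin d → ℝ) → Prop}
    {bf : ℕ → ℝ} {Θ : ℝ} {v : ι → Fin d → ℝ}
    (Hend : ∀ A xl, Hst a J e (J e) Θ v A xl bf → Ord v A xl P) :
    ∀ i L, L + i = J e → ∀ A xl,
      Hst a J e L Θ v A xl
        (fun c => bf c - 300000000 * (2 : ℝ) ^ ((i : ℝ) / 8) * (25 / 26) ^ (e - c)) →
      Ord v A xl P := by
  intro i
  induction i with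
  | zero =>
    intro L hL A xl h
    have : L = J e := by omega
    subst this
    refine Hend A xl (h.mono fun c _ => ?_)
    have : 0 ≤ 300000000 * (2 : ℝ) ^ (((0 : ℕ) : ℝ) / 8) * (25 / 26) ^ (e - c) := by positivity
    linarith
  | succ i ih =>
    intro L hL A xl h
    obtain ⟨A1, hA1, h1, h2⟩ := hstep hJ (by omega : L < J e) hg h
    have hJL : (J e : ℝ) - L = ((i + 1 : ℕ) : ℝ) := by
      rw [← hL]; push_cast; ring
    have hmono : ∀ c ≤ e,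
        (bf c - 300000000 * (2 : ℝ) ^ (((i + 1 : ℕ) : ℝ) / 8) * (25 / 26) ^ (e - c)) +
          17000000 * (2 : ℝ) ^ (((J e : ℝ) - L) / 8) * (25 / 26) ^ (e - c) ≤
        bf c - 300000000 * (2 : ℝ) ^ ((i : ℝ) / 8) * (25 / 26) ^ (e - c) := by
      intro c _
      rw [hJL]
      have e1 : (2 : ℝ) ^ (((i + 1 : ℕ) : ℝ) / 8) = (2 : ℝ) ^ ((1 / 8) : ℝ) * (2 : ℝ) ^ ((i : ℝ) / 8) := by
        rw [← Real.rpow_add (by norm_num)]
        congr 1
        push_cast; ring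
      rw [e1]
      have h3 := two_eighth
      have h4 : 0 ≤ (2 : ℝ) ^ ((i : ℝ) / 8) * (25 / 26 : ℝ) ^ (e - c) := by positivity
      nlinarith
    have h1' := ih (L + 1) (by omega) A1 xl (h1.mono hmono)
    have h2' := ih (L + 1) (by omega) (A \ A1) _ (h2.mono hmono)
    exact ord_split hA1 h1' h2'

end Vale.Agent.P262F
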