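import Vale.Agent.P262F.State
import Vale.Agent.P262F.Good

/-! The initial data: levels of the coordinates -/

namespace Vale.Agent.P262F
open Finset

variable {ι : Type*} [DecidableEq ι] {d : ℕ}

/-- the total mass of a coordinate -/
def mass (u : ι → Fin d → ℝ) (A : Finset ι) (k : Fin d) : ℝ := ∑ i ∈ A, u i k ^ 2

/-- the level of a coordinate -/
noncomputable def lev (u : ι → Fin d → ℝ) (A : Finset ι) (k : Fin d) : ℝ :=
  if 1 ≤ mass u A k then Real.logb 2 (mass u A k) else 0

lemma mass_nonneg (u : ι → Fin d → ℝ) (A : Finset ι) (k : Fin d) : 0 ≤ mass u A k :=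
  Finset.sum_nonneg fun _ _ => sq_nonneg _

lemma lev_nonneg (u : ι → Fin d → ℝ) (A : Finset ι) (k : Fin d) : 0 ≤ lev u A k := by
  unfold lev
  split_ifs with h
  · exact Real.logb_nonneg (by norm_num) h
  · exact le_rfl

lemma mass_le (u : ι → Fin d → ℝ) (A : Finset ι) (k : Fin d) :
    mass u A k ≤ (2 : ℝ) ^ lev u A k := by
  unfold lev
  split_ifs with h
  · rw [Real.rpow_logb (by norm_num) (by norm_num) (by linarith)]
  · rw [Real.rpow_zero]
    exact (not_le.mp h).le

lemma mass_eq {u : ι → Fin d → ℝ} {A : Finset ι} {k : Fin d} (h : 0 < lev u A k) :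
    mass u A k = (2 : ℝ) ^ lev u A k := by
  unfold lev at h ⊢
  split_ifs at h ⊢ with h1
  · rw [Real.rpow_logb (by norm_num) (by norm_num) (by linarith)]
  · exact absurd h (lt_irrefl _)

lemma init_QQ {u : ι → Fin d → ℝ} {A : Finset ι}
    (hoff : ∀ k l, k ≠ l → ∑ i ∈ A, u i k * u i l = 0) (t : ℕ) :
    QQ (lev u A) u 0 (rich (lev u A) t) A = 0 := by
  unfold QQ
  refine Finset.sum_eq_zero fun k hk => Finset.sum_eq_zero fun l _ => ?_
  have h1 : MM u A k l - (if k = l then mu (lev u A) 0 k else 0) = 0 := by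
    by_cases hkl : k = l
    · subst hkl
      rw [if_pos rfl]
      have h2 : 0 < lev u A k := by
        have := mem_rich.mp hk
        exact lt_of_le_of_lt (Nat.cast_nonneg t) this
      have h3 := mass_eq h2
      unfold MM mu
      rw [Nat.cast_zero, sub_zero, ← h3]
      unfold mass
      rw [sub_eq_zero]
      exact Finset.sum_congr rfl fun i _ => by ring
    · rw [if_neg hkl, sub_zero]
      exact hoff k l hkl
  rw [h1]
  ring

/-- weighted energy of the deep part at level `0` -/
lemma init_EE {u : ι → Fin d → ℝ} {A : Finset ι} {J : ℕ → ℕ} (hg : good (lev u A) (J 0)) :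
    EE u (deep (lev u A) (J 0)) (al (lev u A) J 0 0) A ≤ cc * (2 : ℝ) ^ ((J 0 : ℝ) / 4) := by
  have h0 := good_deep_mu hg 0
  rw [Nat.cast_zero, sub_zero] at h0
  refine le_trans ?_ h0
  unfold EE
  rw [Finset.sum_comm]
  refine Finset.sum_le_sum fun k _ => ?_
  have h1 : ∑ i ∈ A, (al (lev u A) J 0 0 k * u i k) ^ 2
      = al (lev u A) J 0 0 k ^ 2 * mass u A k := by
    unfold mass
    rw [Finset.mul_sum]
    exact Finset.sum_congr rfl fun i _ => by ring
  rw [h1]
  have hmu : mu (lev u A) 0 k = (2 : ℝ) ^ lev u A k := by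
    unfold mu
    rw [Nat.cast_zero, sub_zero]
  have h2 := mass_le u A k
  have h3 := mass_nonneg u A k
  have hpos : 0 < mu (lev u A) 0 k := mu_pos (lev u A) 0 k
  unfold al
  rw [if_neg (by omega)]
  split_ifs with h4
  · rw [← hmu] at h2
    calc (mu (lev u A) 0 k ^ (-(3 / 8) : ℝ)) ^ 2 * mass u A k
        ≤ (mu (lev u A) 0 k ^ (-(3 / 8) : ℝ)) ^ 2 * mu (lev u A) 0 k :=
          mul_le_mul_of_nonneg_left h2 (sq_nonneg _)
      _ = mu (lev u A) 0 k ^ ((1 / 4) : ℝ) := by
          rw [← Real.rpow_natCast, ← Real.rpow_mul hpos.le]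
          nth_rewrite 2 [← Real.rpow_one (mu (lev u A) 0 k)]
          rw [← Real.rpow_add hpos]
          norm_num
  · have h5 : lev u A k = 0 := by
      rw [Nat.cast_zero, not_lt] at h4
      exact le_antisymm h4 (lev_nonneg u A k)
    rw [hmu] 
    rw [h5] at h2 ⊢
    rw [Real.rpow_zero] at h2 ⊢
    rw [Real.one_rpow]
    linarith

end Vale.Agent.P262F
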