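import Vale.Agent.P262F.M4Sum

/-! M4: the arrangement into `2^h` cells -/

namespace Vale.Agent.P262F
open Finset

variable {ι : Type*} [DecidableEq ι] {d : ℕ}

/-- deviation of the sum of the first `q` of `2^h` cells from the chord -/
noncomputable def dev (v : ι → Fin d → ℝ) (A : Finset ι) (cell : ι → ℕ) (h q : ℕ) (k : Fin d) : ℝ :=
  ∑ i ∈ A with cell i < q, v i k - (q : ℝ) / 2 ^ h * ∑ i ∈ A, v i k

/-- extension of an assignment on `A` to all indices -/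
noncomputable def extc (A : Finset ι) (c : A → ℕ) (i : ι) : ℕ := if hi : i ∈ A then c ⟨i, hi⟩ else 0

lemma extc_coe (A : Finset ι) (c : A → ℕ) (i : A) : extc A c i = c i := by
  unfold extc
  rw [dif_pos i.2]

lemma sum_extc (A : Finset ι) (c : A → ℕ) (φ : ℕ → ℝ) (f : ι → ℝ) :
    ∑ i : A, φ (c i) * f i = ∑ i ∈ A, φ (extc A c i) * f i := by
  rw [← Finset.sum_coe_sort A]
  refine sum_congr rfl fun i _ => ?_
  rw [extc_coe]

lemma dev_extc (v : ι → Fin d → ℝ) (A : Finset ι) (c : A → ℕ) (h q : ℕ) (k : Fin d) :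
    ∑ i : A, (ip (c i) q - (q : ℝ) / 2 ^ h) * v i k = dev v A (extc A c) h q k := by
  rw [sum_extc A c (fun n => ip n q - (q : ℝ) / 2 ^ h) (fun i => v i k)]
  unfold dev
  rw [sum_filter, mul_sum, ← sum_sub_distrib]
  refine sum_congr rfl fun i _ => ?_
  unfold ip
  split_ifs <;> ring

lemma block_extc (A : Finset ι) (c : A → ℕ) (h q : ℕ) (f : ι → ℝ) :
    ∑ i : A, (idy (c i) 0 q - (2 : ℝ) ^ 0 / 2 ^ h) * f i =
      ∑ i ∈ A with extc A c i = q, f i - (∑ i ∈ A, f i) / 2 ^ h := by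
  rw [sum_extc A c (fun n => idy n 0 q - (2 : ℝ) ^ 0 / 2 ^ h) f]
  rw [sum_filter, sum_div, ← sum_sub_distrib]
  refine sum_congr rfl fun i _ => ?_
  unfold idy
  by_cases hq : extc A c i = q
  · rw [if_pos hq, if_pos (by constructor <;> omega)]
    ring
  · rw [if_neg hq, if_neg (by omega)]
    ring

/-- restriction of the vectors to a block -/
def vr (v : ι → Fin d → ℝ) (A : Finset ι) (i : A) (k : Fin d) : ℝ := v i k

/-- energies of the members of a block -/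
def er (v : ι → Fin d → ℝ) (A : Finset ι) (D : Finset (Fin d)) (α : Fin d → ℝ) (i : A) : ℝ :=
  ∑ k ∈ D, (α k * v i k) ^ 2

/-- the two families of rows -/
noncomputable def F2f (a : Fin d → ℝ) (t L : ℕ) (v : ι → Fin d → ℝ) (A : Finset ι)
    (D : Finset (Fin d)) (α : Fin d → ℝ) (z : Bool) : Option (Fin d × Fin d) → A → ℝ :=
  match z with
  | true => FE (er v A D α)
  | false => FQ a L (rich a t) (vr v A)

/-- the radii of the two families -/
noncomputable def r2f (ρE ρQ : ℝ) (z : Bool) : ℝ :=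
  match z with
  | true => ρE
  | false => ρQ

lemma sum_er (v : ι → Fin d → ℝ) (A : Finset ι) (D : Finset (Fin d)) (α : Fin d → ℝ) :
    ∑ i, er v A D α i = EE v D α A := by
  unfold EE er
  rw [← Finset.sum_coe_sort A]

lemma MM_vr (v : ι → Fin d → ℝ) (A : Finset ι) (k l : Fin d) :
    MM (vr v A) univ k l = MM v A k l := by
  unfold MM vr
  rw [← Finset.sum_coe_sort A]

lemma wnA {a : Fin d → ℝ} {t L h : ℕ} (hh : 1 ≤ h) (hhL : h ≤ L)
    {v : ι → Fin d → ℝ} {A : Finset ι} :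
    wn a L (rich a t) (fun k l => MM v A k l / 2 ^ h - dg a L k l) ≤
      (2 : ℝ) ^ (-(1 / 8) : ℝ) * √(QQ a v (L - h) (rich a t) A) := by
  rw [wn_child a v hhL]
  apply mul_le_mul_of_nonneg_right _ (Real.sqrt_nonneg _)
  apply Real.rpow_le_rpow_of_exponent_le (by norm_num)
  have : (1 : ℝ) ≤ h := by exact_mod_cast hh
  linarith

lemma jarr_Bd {a : Fin d → ℝ} {t L h : ℕ} (hh : 1 ≤ h) (hhL : h ≤ L) (hL : L ≤ t)
    {v : ι → Fin d → ℝ} {A : Finset ι} (hv : ∀ i ∈ A, ∑ k, v i k ^ 2 ≤ 1)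
    (hQ : QQ a v (L - h) (rich a t) A ≤ 1 / 4)
    (hρ : 4 * √(K0 * (h + 5)) * sig a t L ≤ 1)
    (G : Finset (Fin d))
    (D : Finset (Fin d)) (αD : Fin d → ℝ) {WD : ℝ} (hWD0 : 0 < WD) (hWD : EE v D αD A ≤ WD)
    (D' : Finset (Fin d)) (α : Fin d → ℝ)
    (hent : ∀ i ∈ A, ∑ k ∈ D', (α k * v i k) ^ 2 ≤ 3)
    {w : ℝ} (hw0 : 0 ≤ w) (hw : EE v D' α A ≤ 2 ^ h * w) {ρE ρQ : ℝ} (hρE0 : 0 < ρE)
    (hρEK : 75 / 2 * (K0 * ((h : ℝ) + 5)) ≤ ρE)
    (hρEw : 75 / 2 * (K0 * ((h : ℝ) + 5)) * w ≤ ρE ^ 2) (hρQ0 : 0 < ρQ)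
    (hρQ : rich a t ≠ ∅ → ρQ = 4 * √(K0 * (h + 5)) * sig a t L) :
    ∃ c : A → ℕ, Bd h (vr v A) (SC a t G) (rC G h) (FD D αD (vr v A))
      (√(7 * K0 * (h + 5) * WD)) (F2f a t L v A D' α) (r2f ρE ρQ) c 1 := by
  classical
  have hK0 := K0_pos
  have hKpos : 0 < K0 * ((h : ℝ) + 5) := by positivity
  have hμ : ∀ k ∈ rich a t, 1 ≤ mu a L k := fun k hk => (one_lt_mu hL hk).le
  have hwA2 : wn a L (rich a t) (fun k l => MM v A k l / 2 ^ h - dg a L k l) ≤ 1 / 2 := by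
    refine (wnA hh hhL).trans ?_
    have h1 : √(QQ a v (L - h) (rich a t) A) ≤ 1 / 2 := by
      rw [Real.sqrt_le_left (by norm_num)]
      norm_num
      linarith
    have h2 : (2 : ℝ) ^ (-(1 / 8) : ℝ) ≤ 1 :=
      Real.rpow_le_one_of_one_le_of_nonpos (by norm_num) (by norm_num)
    have h3 := Real.sqrt_nonneg (QQ a v (L - h) (rich a t) A)
    have h4 : 0 ≤ (2 : ℝ) ^ (-(1 / 8) : ℝ) := by positivity
    nlinarith
  apply arr (κ := A) (X := Fin d) (C := Option (Fin (d + 1))) (Z := Bool)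
    (R := Option (Fin d × Fin d)) (h := h) hh (w := vr v A) (fun i => hv i i.2)
    (S := SC a t G) (ρx := rC G h) (rC_pos G h) (F1 := FD D αD (vr v A))
    (ρ1 := √(7 * K0 * (h + 5) * WD)) (by positivity)
  · rw [sum_FD, Real.sq_sqrt (by positivity)]
    have e1 : ∑ i, ∑ k ∈ D, (αD k * vr v A i k) ^ 2 = EE v D αD A := sum_er v A D αD
    rw [e1]
    refine hWD.trans ?_
    rw [le_div_iff₀ hKpos]
    have : 0 < K0 * ((h : ℝ) + 5) * WD := by positivity
    nlinarith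
  · rintro (_ | _)
    · exact hρQ0
    · exact hρE0
  · rintro (_ | _) M hM b hb u hu hR
    · by_cases hr : rich a t = ∅
      · show ∑ r, ∑ i, (u i * FQ a L (rich a t) (vr v A) r i) ^ 2 ≤ _
        rw [sum_FQ _ _ _ _ hu, hr]
        simp only [sum_empty, sum_const_zero]
        positivity
      · have hvW : ∀ i : A, ∑ k, vr v A i k ^ 2 ≤ 1 := fun i => hv i i.2
        have hR' : RN (FQ a L (rich a t) (vr v A)) (fun i => u i - (2 : ℝ) ^ b / 2 ^ h) ≤
          M * ρQ * √2 ^ b := hR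
        show ∑ r, ∑ i, (u i * FQ a L (rich a t) (vr v A) r i) ^ 2 ≤
          4 / 25 * (M * ρQ * √2 ^ b) ^ 2 / (K0 * (h + 5))
        refine h2_Q hvW hμ hKpos hρQ0.le ?_ ?_ ?_ hM hu hR'
        · rw [hρQ hr]; exact hρ
        · rw [hρQ hr, mul_pow, mul_pow, Real.sq_sqrt hKpos.le]
          unfold sig
          apply le_of_eq
          ring
        · simp only [MM_vr]
          exact hwA2
    · have he0 : ∀ i, 0 ≤ er v A D' α i := fun i => sum_nonneg fun k _ => sq_nonneg _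
      have he3 : ∀ i, er v A D' α i ≤ 3 := fun i => hent i i.2
      have hR' : RN (FE (er v A D' α)) (fun i => u i - (2 : ℝ) ^ b / 2 ^ h) ≤
        M * ρE * √2 ^ b := hR
      show ∑ r, ∑ i, (u i * FE (er v A D' α) r i) ^ 2 ≤
        4 / 25 * (M * ρE * √2 ^ b) ^ 2 / (K0 * (h + 5))
      refine h2_E he0 he3 hw0 ?_ hKpos hρEK hρEw hM hu hR'
      rw [sum_er]
      exact hw
  · simp
  · exact hsum_bd a t G h

theorem jarr {a : Fin d → ℝ} {t L h : ℕ} (hh : 1 ≤ h) (hhL : h ≤ L) (hL : L ≤ t)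
    {v : ι → Fin d → ℝ} {A : Finset ι} (hv : ∀ i ∈ A, ∑ k, v i k ^ 2 ≤ 1)
    (hQ : QQ a v (L - h) (rich a t) A ≤ 1 / 4)
    (hρ : 4 * √(K0 * (h + 5)) * sig a t L ≤ 1)
    (G : Finset (Fin d))
    (D : Finset (Fin d)) (αD : Fin d → ℝ) {WD : ℝ} (hWD0 : 0 < WD) (hWD : EE v D αD A ≤ WD)
    (D' : Finset (Fin d)) (α : Fin d → ℝ)
    (hent : ∀ i ∈ A, ∑ k ∈ D', (α k * v i k) ^ 2 ≤ 3)
    {w : ℝ} (hw0 : 0 ≤ w) (hw : EE v D' α A ≤ 2 ^ h * w) :
    ∃ cell : ι → ℕ, (∀ i ∈ A, cell i < 2 ^ h) ∧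
      (∀ q ≤ 2 ^ h, ∑ k ∈ G, dev v A cell h q k ^ 2 ≤ 7 * K0 * (G.card + h + 5)) ∧
      (∀ q ≤ 2 ^ h, ∀ θ : ℝ, ∑ k ∈ (rich a t).filter (fun k => a k ≤ θ), dev v A cell h q k ^ 2 ≤
        7 * K0 * (nn a t θ + h + 5)) ∧
      (∀ q ≤ 2 ^ h, ∑ k ∈ D, (αD k * dev v A cell h q k) ^ 2 ≤ 7 * K0 * (h + 5) * WD) ∧
      (∀ q < 2 ^ h, EE v D' α (A.filter (fun i => cell i = q)) ≤ 2 * w + 100 * K0 * (h + 5)) ∧
      (∀ q < 2 ^ h, √(QQ a v L (rich a t) (A.filter (fun i => cell i = q))) ≤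
        (2 : ℝ) ^ (-(1 / 8) : ℝ) * √(QQ a v (L - h) (rich a t) A) +
          4 * √(K0 * (h + 5)) * sig a t L) := by
  classical
  have hK0 := K0_pos
  have hKpos : 0 < K0 * ((h : ℝ) + 5) := by positivity
  have hsig0 : 0 ≤ sig a t L := sum_nonneg fun k _ => Real.rpow_nonneg (mu_pos a L k).le _
  have hsigpos : rich a t ≠ ∅ → 0 < sig a t L := fun hne =>
    sum_pos (fun k _ => Real.rpow_pos_of_pos (mu_pos a L k) _) (nonempty_iff_ne_empty.2 hne)
  -- the radii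
  obtain ⟨ρE, hρE⟩ : ∃ ρE : ℝ, ρE = 75 / 2 * (K0 * ((h : ℝ) + 5)) +
    √(75 / 2 * (K0 * ((h : ℝ) + 5)) * w) := ⟨_, rfl⟩
  obtain ⟨ρQ, hρQ⟩ : ∃ ρQ : ℝ, ρQ = if rich a t = ∅ then 1 else 4 * √(K0 * (h + 5)) * sig a t L :=
    ⟨_, rfl⟩
  have hsq0 : 0 ≤ 75 / 2 * (K0 * ((h : ℝ) + 5)) * w := by positivity
  have hρE0 : 0 < ρE := by rw [hρE]; positivity
  have hρEK : 75 / 2 * (K0 * ((h : ℝ) + 5)) ≤ ρE := by
    rw [hρE]
    have := Real.sqrt_nonneg (75 / 2 * (K0 * ((h : ℝ) + 5)) * w)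
    linarith
  have hρEw : 75 / 2 * (K0 * ((h : ℝ) + 5)) * w ≤ ρE ^ 2 := by
    have h1 : √(75 / 2 * (K0 * ((h : ℝ) + 5)) * w) ≤ ρE := by rw [hρE]; linarith
    have h2 := Real.sq_sqrt hsq0
    calc _ = √(75 / 2 * (K0 * ((h : ℝ) + 5)) * w) ^ 2 := h2.symm
      _ ≤ ρE ^ 2 := pow_le_pow_left₀ (Real.sqrt_nonneg _) h1 2
  have hρE2 : ρE + w ≤ 2 * w + 100 * K0 * (h + 5) := by
    have h2 : √(75 / 2 * (K0 * ((h : ℝ) + 5)) * w) ≤ w + 75 / 8 * (K0 * ((h : ℝ) + 5)) := by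
      rw [Real.sqrt_le_left (by positivity)]
      nlinarith [sq_nonneg (w - 75 / 8 * (K0 * ((h : ℝ) + 5)))]
    rw [hρE]
    nlinarith
  have hρQ0 : 0 < ρQ := by
    rw [hρQ]
    split_ifs with hr
    · norm_num
    · have := hsigpos hr
      positivity
  have hwA : wn a L (rich a t) (fun k l => MM v A k l / 2 ^ h - dg a L k l) ≤
      (2 : ℝ) ^ (-(1 / 8) : ℝ) * √(QQ a v (L - h) (rich a t) A) := wnA hh hhL
  obtain ⟨c, hc⟩ := jarr_Bd hh hhL hL hv hQ hρ G D αD hWD0 hWD D' α hent hw0 hw hρE0 hρEK hρEw hρQ0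
    (fun hr => by rw [hρQ, if_neg hr])
  refine ⟨extc A c, ?_, ?_, ?_, ?_, ?_, ?_⟩
  · intro i hi
    have := hc.lt ⟨i, hi⟩
    unfold extc
    rw [dif_pos hi]
    exact this
  · intro q hq
    have h1 := hc.x q hq none
    have h2 := pow_le_pow_left₀ (RN_nonneg _ _) h1 2
    rw [RN_FX_sq] at h2
    simp only [vr, dev_extc, one_mul] at h2
    unfold rC SC at h2
    simp only at h2
    rw [Real.sq_sqrt (by positivity)] at h2
    exact h2
  · intro q hq θ
    have h1 := hc.x q hq (some ⟨nn a t θ, nn_le a t θ⟩)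
    have h2 := pow_le_pow_left₀ (RN_nonneg _ _) h1 2
    rw [RN_FX_sq] at h2
    simp only [vr, dev_extc, one_mul] at h2
    unfold rC SC at h2
    simp only at h2
    rw [Real.sq_sqrt (by positivity), Sm_eq] at h2
    exact h2
  · intro q hq
    have h1 := hc.y1 q hq
    have h2 := pow_le_pow_left₀ (RN_nonneg _ _) h1 2
    rw [RN_FD_sq] at h2
    simp only [vr, dev_extc, one_mul] at h2
    rw [Real.sq_sqrt (by positivity)] at h2
    exact h2
  · intro q hq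
    have h1 := hc.y2 true 0 (by omega) q (by simpa using hq)
    simp only [F2f, r2f, pow_zero, mul_one, one_mul] at h1
    rw [RN_FE] at h1
    unfold er at h1
    have h3 := block_extc A c h q (fun i => ∑ k ∈ D', (α k * v i k) ^ 2)
    rw [pow_zero] at h3
    rw [h3] at h1
    have h2 := (le_abs_self _).trans h1
    have h4 : (∑ i ∈ A, ∑ k ∈ D', (α k * v i k) ^ 2) / 2 ^ h ≤ w := by
      rw [div_le_iff₀ (by positivity), mul_comm]
      exact hw
    unfold EE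
    linarith
  · intro q hq
    by_cases hr : rich a t = ∅
    · have e0 : QQ a v L (rich a t) (A.filter (fun i => extc A c i = q)) = 0 := by
        unfold QQ
        rw [hr]
        simp
      rw [e0, Real.sqrt_zero]
      positivity
    · have h1 := hc.y2 false 0 (by omega) q (by simpa using hq)
      simp only [F2f, r2f, pow_zero, mul_one, one_mul] at h1
      rw [RN_FQ] at h1
      unfold vr at h1
      have h3 : ∀ k l, ∑ i : A, (idy (c i) 0 q - 1 / 2 ^ h) * (v i k * v i l) =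
          MM v (A.filter (fun i => extc A c i = q)) k l - MM v A k l / 2 ^ h := by
        intro k l
        have h3 := block_extc A c h q (fun i => v i k * v i l)
        rw [pow_zero] at h3
        exact h3
      simp only [h3] at h1
      rw [QQ_eq_wn]
      have e : (fun k l => MM v (A.filter (fun i => extc A c i = q)) k l - dg a L k l) =
          fun k l => (MM v (A.filter (fun i => extc A c i = q)) k l - MM v A k l / 2 ^ h) +
            (MM v A k l / 2 ^ h - dg a L k l) := by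
        funext k l; ring
      rw [e]
      refine (wn_add a L (rich a t) _ _).trans ?_
      rw [hρQ, if_neg hr] at h1
      linarith

end Vale.Agent.P262F
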