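import Vale.Agent.P262F.RootDefs

/-! States at the start of an episode -/

namespace Vale.Agent.P262F
open Finset

variable {ι : Type*} [DecidableEq ι] {d : ℕ} {a : Fin d → ℝ} {J : ℕ → ℕ}

private lemma mupos' (a : Fin d → ℝ) (L : ℕ) (k : Fin d) : 0 < mu a L k :=
  Real.rpow_pos_of_pos (by norm_num) _

lemma mem_Rs {e : ℕ} {k : Fin d} : k ∈ Rs a J e ↔ e ≤ gi a J k := by simp [Rs]

lemma mem_Old {e : ℕ} {k : Fin d} : k ∈ Old a J e ↔ gi a J k < e := by simp [Old]

lemma Rs_eq (hJ : StrictMono J) (e : ℕ) : Rs a J e = gen a J e ∪ rich a (J e) := by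
  ext k
  rw [mem_Rs, mem_union, mem_gen, mem_rich, ← lt_gi_iff hJ]
  omega

lemma disj_gen_rich (hJ : StrictMono J) (e : ℕ) : Disjoint (gen a J e) (rich a (J e)) := by
  rw [Finset.disjoint_left]
  intro k h1 h2
  rw [mem_gen] at h1
  rw [mem_rich, ← lt_gi_iff hJ] at h2
  omega

lemma deep_eq_union (hJ : StrictMono J) (e : ℕ) : deep a (J e) = Old a J e ∪ gen a J e := by
  ext k
  rw [mem_deep, ← gi_le_iff hJ, mem_union, mem_Old, mem_gen]
  omega

lemma disj_Old_gen (e : ℕ) : Disjoint (Old a J e) (gen a J e) := by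
  rw [Finset.disjoint_left]
  intro k h1 h2
  rw [mem_Old] at h1
  rw [mem_gen] at h2
  omega

lemma gen_subset_deep (hJ : StrictMono J) (e : ℕ) : gen a J e ⊆ deep a (J e) := by
  rw [deep_eq_union hJ]
  exact subset_union_right

lemma Old_subset_deep (hJ : StrictMono J) (e : ℕ) : Old a J e ⊆ deep a (J e) := by
  rw [deep_eq_union hJ]
  exact subset_union_left

lemma rich_eq_Rs (hJ : StrictMono J) (e : ℕ) : rich a (J e) = Rs a J (e + 1) := rich_eq hJ e

lemma om_ge_one {x : ℝ} (hx : 0 ≤ x) : 1 ≤ om x := by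
  unfold om
  have : (2 : ℝ) ^ (-x / 8) ≤ 1 :=
    Real.rpow_le_one_of_one_le_of_nonpos (by norm_num) (by linarith)
  linarith

lemma lv0_le_of_Rs (hJ : StrictMono J) (ha : ∀ k, 0 ≤ a k) {e : ℕ} {k : Fin d}
    (hk : k ∈ Rs a J e) : (lv0 J e : ℝ) ≤ a k := by
  rw [mem_Rs] at hk
  cases e with
  | zero => simpa [lv0] using ha k
  | succ e =>
    have h1 : e < gi a J k := hk
    rw [lt_gi_iff hJ] at h1
    exact h1.le

/-- generation `e` leaves the potential -/
theorem leave (hJ : StrictMono J) (ha : ∀ k, 0 ≤ a k) {e : ℕ} {Θ : ℝ} {v : ι → Fin d → ℝ}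
    {A : Finset ι} {xl : Fin d → ℝ} {b : ℕ → ℝ} (h : Inv a J e Θ v A xl b) :
    ∃ Y : ℝ, 0 ≤ Y ∧ Rst a J e (Θ + 2 * C1 * (gen a J e).card - Y) v A xl
      (fun c => if c = e then √Y else b c) := by
  set xr : Fin d → ℝ := fun k => xl k + ∑ i ∈ A, v i k with hxr
  set Y : ℝ := ∑ k ∈ gen a J e, max (xl k ^ 2) (xr k ^ 2) with hY
  have hY0 : 0 ≤ Y := Finset.sum_nonneg fun k _ => le_max_of_le_left (sq_nonneg _)
  refine ⟨Y, hY0, h.unit, fun k hk => h.diag k ?_, h.Q, h.ent, h.Eold, ?_, ?_, ?_⟩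
  · rw [Rs_eq hJ]
    exact mem_union_left _ hk
  · intro θ1 θ2
    have h1 := h.ph (max θ1 (J e)) (max θ2 (J e))
    rw [Rs_eq hJ, Finset.sum_union (disj_gen_rich hJ e)] at h1
    have h2 : Y ≤ ∑ k ∈ gen a J e, om (a k - (lv0 J e : ℝ)) *
        max (if a k ≤ max θ1 (J e : ℝ) then xl k ^ 2 else 0)
          (if a k ≤ max θ2 (J e : ℝ) then xr k ^ 2 else 0) := by
      refine Finset.sum_le_sum fun k hk => ?_
      have h3 : a k ≤ (J e : ℝ) := mem_deep.mp (gen_subset_deep hJ e hk)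
      rw [if_pos (h3.trans (le_max_right _ _)), if_pos (h3.trans (le_max_right _ _))]
      have h4 : (1 : ℝ) ≤ om (a k - (lv0 J e : ℝ)) := by
        apply om_ge_one
        have : k ∈ Rs a J e := by
          rw [Rs_eq hJ]
          exact mem_union_left _ hk
        linarith [lv0_le_of_Rs hJ ha this]
      have h5 : 0 ≤ max (xl k ^ 2) (xr k ^ 2) := le_max_of_le_left (sq_nonneg _)
      nlinarith
    have hiff : ∀ k ∈ rich a (J e), ∀ θ : ℝ, a k ≤ max θ (J e : ℝ) ↔ a k ≤ θ := by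
      intro k hk θ
      rw [mem_rich] at hk
      rw [le_max_iff]
      constructor
      · rintro (h | h)
        · exact h
        · exact absurd hk (not_lt.mpr h)
      · exact fun h => Or.inl h
    have h3 : ∑ k ∈ rich a (J e), om (a k - (lv0 J e : ℝ)) *
        max (if a k ≤ max θ1 (J e : ℝ) then xl k ^ 2 else 0)
          (if a k ≤ max θ2 (J e : ℝ) then xr k ^ 2 else 0) =
        ∑ k ∈ rich a (J e), om (a k - (lv0 J e : ℝ)) *
        max (if a k ≤ θ1 then xl k ^ 2 else 0) (if a k ≤ θ2 then xr k ^ 2 else 0) := by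
      refine Finset.sum_congr rfl fun k hk => ?_
      simp only [hiff k hk θ1, hiff k hk θ2]
    have hcnt : ∀ θ : ℝ, (cnt a (gen a J e ∪ rich a (J e)) (max θ (J e : ℝ)) : ℝ) ≤
        (gen a J e).card + cnt a (rich a (J e)) θ := by
      intro θ
      unfold cnt
      rw [Finset.filter_union]
      have h6 : ((rich a (J e)).filter (fun k => a k ≤ max θ (J e : ℝ))) =
          (rich a (J e)).filter (fun k => a k ≤ θ) :=
        Finset.filter_congr fun k hk => hiff k hk θ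
      rw [h6]
      have h7 := Finset.card_union_le ((gen a J e).filter (fun k => a k ≤ max θ (J e : ℝ)))
        ((rich a (J e)).filter (fun k => a k ≤ θ))
      have h8 := Finset.card_filter_le (gen a J e) (fun k => a k ≤ max θ (J e : ℝ))
      exact_mod_cast h7.trans (Nat.add_le_add_right h8 _)
    rw [h3] at h1
    have h4 := hcnt θ1
    have h5 := hcnt θ2
    have hC : (0 : ℝ) < C1 := by norm_num [C1]
    nlinarith [mul_le_mul_of_nonneg_left h4 hC.le, mul_le_mul_of_nonneg_left h5 hC.le]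
  · intro c hc
    by_cases hce : c = e
    · subst hce
      simp only [if_true]
      refine Real.sqrt_le_sqrt ?_
      exact Finset.sum_le_sum fun k _ => le_max_left _ _
    · simp only [if_neg hce]
      exact h.bl c (lt_of_le_of_ne hc hce)
  · intro c hc
    by_cases hce : c = e
    · subst hce
      simp only [if_true]
      refine Real.sqrt_le_sqrt ?_
      exact Finset.sum_le_sum fun k _ => le_max_right _ _
    · simp only [if_neg hce]
      exact h.br c (lt_of_le_of_ne hc hce)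

lemma EE_disj_union (v : ι → Fin d → ℝ) {D D' : Finset (Fin d)} (hD : Disjoint D D') (α : Fin d → ℝ)
    (A : Finset ι) : EE v (D ∪ D') α A = EE v D α A + EE v D' α A := by
  unfold EE
  rw [← Finset.sum_add_distrib]
  exact Finset.sum_congr rfl fun i _ => Finset.sum_union hD

lemma EE_eq_MM (v : ι → Fin d → ℝ) (D : Finset (Fin d)) (α : Fin d → ℝ) (A : Finset ι) :
    EE v D α A = ∑ k ∈ D, α k ^ 2 * MM v A k k := by
  unfold EE MM
  rw [Finset.sum_comm]
  refine Finset.sum_congr rfl fun k _ => ?_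
  rw [Finset.mul_sum]
  exact Finset.sum_congr rfl fun i _ => by ring

lemma mu_lv_shift (a : Fin d → ℝ) {L0 L : ℕ} (h : L0 ≤ L) (k : Fin d) :
    mu a L0 k = (2 : ℝ) ^ (L - L0) * mu a L k := by
  unfold mu
  rw [← Real.rpow_natCast, ← Real.rpow_add (by norm_num)]
  congr 1
  rw [Nat.cast_sub h]
  ring

/-- energy of the deep coordinates at level `L` in terms of the energy of the old ones -/
theorem En_start_aux (hJ : StrictMono J) {e L : ℕ} (hL0 : lv0 J e ≤ L)
    (hg : good a (J e)) {Θ : ℝ}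
    {v : ι → Fin d → ℝ} {A : Finset ι} {xl : Fin d → ℝ} {b : ℕ → ℝ} (h : Rst a J e Θ v A xl b) :
    EE v (deep a (J e)) (al a J e L) A ≤
      EE v (Old a J e) (fun k => be ^ (e - gi a J k)) A +
      (2 : ℝ) ^ (L - lv0 J e) * (3 / 2 * cc * (2 : ℝ) ^ (((J e : ℝ) - L) / 4)) := by
  rw [deep_eq_union hJ, EE_disj_union v (disj_Old_gen e)]
  have h1 : EE v (Old a J e) (al a J e L) A = EE v (Old a J e) (fun k => be ^ (e - gi a J k)) A := by
    unfold EE
    refine Finset.sum_congr rfl fun i _ => Finset.sum_congr rfl fun k hk => ?_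
    rw [mem_Old] at hk
    unfold al
    rw [if_pos hk]
  rw [h1]
  refine add_le_add le_rfl ?_
  rw [EE_eq_MM]
  have h2 : ∀ k ∈ gen a J e, al a J e L k ^ 2 * MM v A k k ≤
      3 / 2 * (2 : ℝ) ^ (L - lv0 J e) * mu a L k ^ ((1 / 4) : ℝ) := by
    intro k hk
    have h3 := h.diag k hk
    rw [mu_lv_shift a hL0 k] at h3
    have hpos := mupos' a L k
    have h4 : al a J e L k ^ 2 * mu a L k ≤ mu a L k ^ ((1 / 4) : ℝ) := by
      unfold al
      rw [if_neg (by rw [mem_gen] at hk; omega)]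
      split_ifs with h5
      · rw [← Real.rpow_natCast, ← Real.rpow_mul hpos.le]
        nth_rewrite 2 [← Real.rpow_one (mu a L k)]
        rw [← Real.rpow_add hpos]
        norm_num
      · have h6 : mu a L k ≤ 1 := by
          unfold mu
          apply Real.rpow_le_one_of_one_le_of_nonpos (by norm_num)
          linarith
        rw [one_pow, one_mul]
        nth_rewrite 1 [← Real.rpow_one (mu a L k)]
        exact Real.rpow_le_rpow_of_exponent_ge hpos h6 (by norm_num)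
    have h5 : 0 ≤ al a J e L k ^ 2 := sq_nonneg _
    have h6 : (0 : ℝ) < (2 : ℝ) ^ (L - lv0 J e) := by positivity
    calc al a J e L k ^ 2 * MM v A k k
        ≤ al a J e L k ^ 2 * (3 / 2 * ((2 : ℝ) ^ (L - lv0 J e) * mu a L k)) :=
          mul_le_mul_of_nonneg_left h3 h5
      _ = 3 / 2 * (2 : ℝ) ^ (L - lv0 J e) * (al a J e L k ^ 2 * mu a L k) := by ring
      _ ≤ _ := mul_le_mul_of_nonneg_left h4 (by positivity)
  refine (Finset.sum_le_sum h2).trans ?_
  rw [← Finset.mul_sum]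
  have h3 := good_deep_mu hg L
  have h4 : ∑ k ∈ gen a J e, mu a L k ^ ((1 / 4) : ℝ) ≤ cc * (2 : ℝ) ^ (((J e : ℝ) - L) / 4) :=
    (Finset.sum_le_sum_of_subset_of_nonneg (gen_subset_deep hJ e)
      (fun k _ _ => (Real.rpow_pos_of_pos (mupos' a L k) _).le)).trans h3
  have h6 : (0 : ℝ) < (2 : ℝ) ^ (L - lv0 J e) := by positivity
  calc 3 / 2 * (2 : ℝ) ^ (L - lv0 J e) * ∑ k ∈ gen a J e, mu a L k ^ ((1 / 4) : ℝ)
      ≤ 3 / 2 * (2 : ℝ) ^ (L - lv0 J e) * (cc * (2 : ℝ) ^ (((J e : ℝ) - L) / 4)) :=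
        mul_le_mul_of_nonneg_left h4 (by positivity)
    _ = _ := by ring

/-- energy of the new deep coordinates at level `L` for the weights `al` -/
theorem En_start (hJ : StrictMono J) {e L : ℕ} (_hL : L ≤ J e) (hL0 : lv0 J e ≤ L)
    (hg : good a (J e)) {Θ : ℝ}
    {v : ι → Fin d → ℝ} {A : Finset ι} {xl : Fin d → ℝ} {b : ℕ → ℝ} (h : Rst a J e Θ v A xl b) :
    EE v (deep a (J e)) (al a J e L) A ≤
      (2 : ℝ) ^ (L - lv0 J e) * (be ^ 2 * 28000 ^ 2 + 3 / 2 * cc * (2 : ℝ) ^ (((J e : ℝ) - L) / 4)) := by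
  have h1 := En_start_aux hJ hL0 hg h
  have h2 := h.Eold
  have h3 : (1 : ℝ) ≤ (2 : ℝ) ^ (L - lv0 J e) := one_le_pow₀ (by norm_num)
  have h4 : (0 : ℝ) ≤ be ^ 2 * 28000 ^ 2 := by positivity
  nlinarith

lemma lv0_le (hJ : StrictMono J) (e : ℕ) : lv0 J e ≤ J e := by
  cases e with
  | zero => exact Nat.zero_le _
  | succ e => exact (hJ (Nat.lt_succ_self e)).le

lemma lv0_lt (hJ : StrictMono J) {e : ℕ} (he : e ≠ 0) : lv0 J e < J e := by
  cases e with
  | zero => exact absurd rfl he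
  | succ e => exact hJ (Nat.lt_succ_self e)

lemma rpow_eighth_lb {i : ℕ} (hi : 1 ≤ i) : (1.09 : ℝ) ≤ (2 : ℝ) ^ ((i : ℝ) / 8) := by
  have h1 : (1.09 : ℝ) ≤ (2 : ℝ) ^ ((1 : ℝ) / 8) := by
    have h2 : ((1.09 : ℝ) ^ (8 : ℕ)) ^ ((1 : ℝ) / 8) = 1.09 := by
      rw [← Real.rpow_natCast, ← Real.rpow_mul (by norm_num)]
      norm_num
    rw [← h2]
    exact Real.rpow_le_rpow (by norm_num) (by norm_num) (by norm_num)
  refine h1.trans (Real.rpow_le_rpow_of_exponent_le (by norm_num) ?_)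
  have : (1 : ℝ) ≤ i := by exact_mod_cast hi
  linarith

lemma ww_mul (i : ℕ) : ww i * (2 : ℝ) ^ ((i : ℝ) / 4) =
    (13000 * (2 : ℝ) ^ ((i : ℝ) / 8) + 15000) ^ 2 := by
  unfold ww
  have h1 : (2 : ℝ) ^ ((i : ℝ) / 4) = ((2 : ℝ) ^ ((i : ℝ) / 8)) ^ 2 := by
    rw [← Real.rpow_natCast, ← Real.rpow_mul (by norm_num)]
    congr 1
    push_cast
    ring
  have h2 : (2 : ℝ) ^ (-(i : ℝ) / 8) * (2 : ℝ) ^ ((i : ℝ) / 8) = 1 := by
    rw [← Real.rpow_add (by norm_num)]
    have : -(i : ℝ) / 8 + (i : ℝ) / 8 = 0 := by ring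
    rw [this, Real.rpow_zero]
  rw [h1, ← mul_pow]
  congr 1
  rw [add_mul, mul_assoc, h2, mul_one]

/-- direct start of the phase of steered halvings -/
theorem Hst_of_Rst (hJ : StrictMono J) {e : ℕ} (hg : good a (J e)) {Θ : ℝ}
    {v : ι → Fin d → ℝ} {A : Finset ι} {xl : Fin d → ℝ} {b : ℕ → ℝ} (h : Rst a J e Θ v A xl b) :
    Hst a J e (lv0 J e) Θ v A xl b := by
  refine ⟨h.unit, h.Q, h.ent, ?_, h.ph, h.bl, h.br⟩
  have h1 := En_start_aux hJ (le_refl (lv0 J e)) hg h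
  rw [Nat.sub_self, pow_zero, one_mul] at h1
  have h2 : ((J e : ℝ) - (lv0 J e : ℝ)) = ((J e - lv0 J e : ℕ) : ℝ) := by
    rw [Nat.cast_sub (lv0_le hJ e)]
  rw [h2] at h1 ⊢
  rw [ww_mul]
  set i := J e - lv0 J e with hi
  have h3 : (2 : ℝ) ^ ((i : ℝ) / 4) = ((2 : ℝ) ^ ((i : ℝ) / 8)) ^ 2 := by
    rw [← Real.rpow_natCast, ← Real.rpow_mul (by norm_num)]
    congr 1
    push_cast
    ring
  rw [h3] at h1
  set x := (2 : ℝ) ^ ((i : ℝ) / 8) with hx
  have hx0 : 0 < x := Real.rpow_pos_of_pos (by norm_num) _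
  refine h1.trans ?_
  by_cases he : e = 0
  · have h4 : EE v (Old a J e) (fun k => be ^ (e - gi a J k)) A = 0 := by
      have : Old a J e = ∅ := by
        subst he
        ext k
        simp [Old]
      rw [this]
      simp [EE]
    rw [h4, zero_add]
    have h5 : (3 / 2 * cc : ℝ) ≤ 1 := by norm_num [cc]
    nlinarith [mul_le_mul_of_nonneg_right h5 (sq_nonneg x)]
  · have h4 : (1.09 : ℝ) ≤ x := by
      apply rpow_eighth_lb
      have := lv0_lt hJ he
      omega
    have h5 := h.Eold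
    have h6 : (3 / 2 * cc : ℝ) ≤ 1 := by norm_num [cc]
    have h7 : (be ^ 2 * 28000 ^ 2 : ℝ) = 29120 ^ 2 := by norm_num [be]
    rw [h7] at h5
    nlinarith [mul_le_mul_of_nonneg_right h6 (sq_nonneg x)]

end Vale.Agent.P262F
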