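import Vale.Agent.P262F.JStepB
import Vale.Agent.P262F.RootA
import Vale.Agent.P262F.HPhase
import Vale.Agent.P262F.M4

/-! The arrangement into cells followed by one steered halving of each cell -/

namespace Vale.Agent.P262F
open Finset

variable {ι : Type*} [DecidableEq ι] {d : ℕ} {a : Fin d → ℝ} {J : ℕ → ℕ}

namespace JS

/-- outcome of the steered halving of the cell `q` -/
def HP (a : Fin d → ℝ) (J : ℕ → ℕ) (e L s h : ℕ) (v : ι → Fin d → ℝ) (A : Finset ι)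
    (xl : Fin d → ℝ) (cell : ι → ℕ) (B : Finset ι) (q : ℕ) : Prop :=
  ∃ ee : Fin d → ℝ,
      (√(QQ a v (L + 1) (rich a (J e)) B) ≤ (2 : ℝ) ^ (-(1 / 8) : ℝ) * (1 / 2)) ∧
      (√(QQ a v (L + 1) (rich a (J e)) (A.filter (fun i => cell i = q) \ B)) ≤
        (2 : ℝ) ^ (-(1 / 8) : ℝ) * (1 / 2)) ∧
      EE v (deep a (J e)) (al a J e L) B ≤ (WJ s h + 6 * √K0 * √(WJ s h)) / 2 ∧
      EE v (deep a (J e)) (al a J e L) (A.filter (fun i => cell i = q) \ B) ≤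
        (WJ s h + 6 * √K0 * √(WJ s h)) / 2 ∧
      ∑ k ∈ deep a (J e), (al a J e L k * (∑ i ∈ B, v i k -
        (∑ i ∈ A with cell i = q, v i k) / 2)) ^ 2 ≤ 2 * K0 * WJ s h ∧
      ∑ k ∈ gen a J e, (∑ i ∈ B, v i k - (∑ i ∈ A with cell i = q, v i k) / 2) ^ 2 ≤
        K0 * ((gen a J e).card + 4) + WJ s h ∧
      (∀ θ : ℝ, ∑ k ∈ (rich a (J e)).filter (fun k => a k ≤ θ), ee k ^ 2 ≤
        6 * K0 * nn a (J e) θ) ∧
      (∀ k ∈ rich a (J e), (xl k + ∑ i ∈ A with cell i < q, v i k) + ∑ i ∈ B, v i k =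
        ((xl k + ∑ i ∈ A with cell i < q, v i k) + (∑ i ∈ A with cell i = q, v i k) / 2) -
          clip ((xl k + ∑ i ∈ A with cell i < q, v i k) + (∑ i ∈ A with cell i = q, v i k) / 2)
            (cap a L k / 2) + ee k / 2)

/-- midpoint of the cell `q` -/
def mdpt (v : ι → Fin d → ℝ) (A : Finset ι) (xl : Fin d → ℝ) (cell : ι → ℕ) (B : ℕ → Finset ι)
    (q : ℕ) (k : Fin d) : ℝ := (xl k + ∑ i ∈ A with cell i < q, v i k) + ∑ i ∈ B q, v i k

/-- point of the chord -/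
noncomputable def chd (v : ι → Fin d → ℝ) (A : Finset ι) (xl : Fin d → ℝ) (h q : ℕ) (k : Fin d) : ℝ :=
  xl k + ((q : ℝ) + 1 / 2) / 2 ^ h * ∑ i ∈ A, v i k

lemma chd_ratio {h q : ℕ} (hq : q < 2 ^ h) :
    0 ≤ ((q : ℝ) + 1 / 2) / 2 ^ h ∧ ((q : ℝ) + 1 / 2) / 2 ^ h ≤ 1 := by
  have hn0 : (0 : ℝ) < 2 ^ h := by positivity
  have h1 : (q : ℝ) + 1 ≤ 2 ^ h := by exact_mod_cast hq
  constructor
  · positivity
  · rw [div_le_one hn0]
    linarith

lemma two_neg_eighth : (2 : ℝ) ^ (-(1 / 8) : ℝ) ≤ 92 / 100 := by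
  have h1 := two_eighth
  rw [Real.rpow_neg (by norm_num)]
  have h2 : (0 : ℝ) < 2 ^ ((1 / 8) : ℝ) := Real.rpow_pos_of_pos (by norm_num) _
  rw [inv_le_comm₀ h2 (by norm_num)]
  norm_num
  linarith

lemma av_eq (v : ι → Fin d → ℝ) (A : Finset ι) (xl : Fin d → ℝ) (cell : ι → ℕ) (h q : ℕ) (k : Fin d) :
    (xl k + ∑ i ∈ A with cell i < q, v i k) + (∑ i ∈ A with cell i = q, v i k) / 2 =
      chd v A xl h q k + (dev v A cell h q k + dev v A cell h (q + 1) k) / 2 := by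
  have hn0 : (0 : ℝ) < 2 ^ h := by positivity
  have h1 := sum_lt_succ (A := A) (cell := cell) (fun i => v i k) q
  simp only [chd, dev]
  rw [h1]
  push_cast
  field_simp
  ring

lemma mdpt_eq (v : ι → Fin d → ℝ) (A : Finset ι) (xl : Fin d → ℝ) (cell : ι → ℕ)
    (B : ℕ → Finset ι) (h q : ℕ) (k : Fin d) :
    mdpt v A xl cell B q k = chd v A xl h q k +
      ((dev v A cell h q k + dev v A cell h (q + 1) k) / 2 +
      (∑ i ∈ B q, v i k - (∑ i ∈ A with cell i = q, v i k) / 2)) := by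
  have := av_eq v A xl cell h q k
  simp only [mdpt]
  linarith

/-- parameters of the J-step -/
structure Par (J : ℕ → ℕ) (e L s h : ℕ) (τ : ℝ) : Prop where
  hh : 1 ≤ h
  hLd : L = lv0 J e + h
  hLs : L + s + 1 = J e
  htL : (J e : ℝ) - L = s + 1
  hτ2 : 2 ≤ τ
  hh5 : (h : ℝ) + 5 ≤ 6 * τ
  hs1 : (2 : ℝ) ^ 28 * τ ≤ (2 : ℝ) ^ ((s : ℝ) / 4)
  hs2 : (2 : ℝ) ^ ((s : ℝ) / 4) ≤ 2 ^ 30 * τ

theorem cells_exist (hJ : StrictMono J) {e L s h : ℕ} {τ : ℝ} (hp : Par J e L s h τ)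
    (hg : good a (J e)) {Θ : ℝ} {v : ι → Fin d → ℝ} {A : Finset ι} {xl : Fin d → ℝ} {b : ℕ → ℝ}
    (hR : Rst a J e Θ v A xl b) :
    ∃ cell : ι → ℕ, (∀ i ∈ A, cell i < 2 ^ h) ∧
      (∀ q ≤ 2 ^ h, ∑ k ∈ gen a J e, dev v A cell h q k ^ 2 ≤ 7 * K0 * ((gen a J e).card + h + 5)) ∧
      (∀ q ≤ 2 ^ h, ∀ θ : ℝ, ∑ k ∈ (rich a (J e)).filter (fun k => a k ≤ θ), dev v A cell h q k ^ 2 ≤
        7 * K0 * (nn a (J e) θ + h + 5)) ∧
      (∀ q ≤ 2 ^ h, ∑ k ∈ Old a J e, (be ^ (e - gi a J k) * dev v A cell h q k) ^ 2 ≤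
        7 * K0 * (h + 5) * (be ^ 2 * 28000 ^ 2)) ∧
      (∀ q < 2 ^ h, EE v (deep a (J e)) (al a J e L) (A.filter (fun i => cell i = q)) ≤ WJ s h) ∧
      (∀ q < 2 ^ h, √(QQ a v L (rich a (J e)) (A.filter (fun i => cell i = q))) ≤ 47 / 100) := by
  obtain ⟨hh, hLd, hLs, htL, hτ2, hh5, hs1, hs2⟩ := hp
  have hLt : L ≤ J e := by omega
  have hLh : L - h = lv0 J e := by omega
  obtain ⟨hsg1, hsg2⟩ := sig_small hg hLs (by linarith : (1 : ℝ) ≤ τ) hh5 hs1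
  have hw0 : 0 ≤ be ^ 2 * 28000 ^ 2 + 3 / 2 * cc * (2 : ℝ) ^ (((s : ℝ) + 1) / 4) := by
    have : (0 : ℝ) ≤ (2 : ℝ) ^ (((s : ℝ) + 1) / 4) := Real.rpow_nonneg (by norm_num) _
    norm_num [be, cc]
    positivity
  have hw : EE v (deep a (J e)) (al a J e L) A ≤
      2 ^ h * (be ^ 2 * 28000 ^ 2 + 3 / 2 * cc * (2 : ℝ) ^ (((s : ℝ) + 1) / 4)) := by
    have h1 := En_start hJ hLt (by omega) hg hR
    rw [htL] at h1
    have h2 : L - lv0 J e = h := by omega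
    rw [h2] at h1
    exact h1
  obtain ⟨cell, hc, o1, o2, o3, o4, o5⟩ := jarr (a := a) (t := J e) (L := L) (h := h) hh (by omega) hLt
    hR.unit (by
      rw [hLh]
      exact hR.Q) (by linarith) (gen a J e) (Old a J e) (fun k => be ^ (e - gi a J k))
    (WD := be ^ 2 * 28000 ^ 2) (by norm_num [be]) hR.Eold (deep a (J e)) (al a J e L)
    (fun i hi => ent3 hJ (hR.unit i hi) (hR.ent i hi)) hw0 hw
  rw [hLh] at o5
  refine ⟨cell, hc, o1, o2, o3, o4, fun q hq => ?_⟩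
  have hQ0 : √(QQ a v (lv0 J e) (rich a (J e)) A) ≤ 1 / 2 := by
    rw [Real.sqrt_le_left (by norm_num)]
    have := hR.Q
    linarith
  have h1 := o5 q hq
  have h2 : (2 : ℝ) ^ (-(1 / 8) : ℝ) * √(QQ a v (lv0 J e) (rich a (J e)) A) ≤ 92 / 100 * (1 / 2) :=
    mul_le_mul two_neg_eighth hQ0 (Real.sqrt_nonneg _) (by norm_num)
  linarith

theorem split_exist (hJ : StrictMono J) {e L s h : ℕ} {τ : ℝ} (hp : Par J e L s h τ)
    (hg : good a (J e)) {Θ : ℝ} {v : ι → Fin d → ℝ} {A : Finset ι} {xl : Fin d → ℝ} {b : ℕ → ℝ}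
    (hR : Rst a J e Θ v A xl b) {cell : ι → ℕ} {q : ℕ}
    (o4 : EE v (deep a (J e)) (al a J e L) (A.filter (fun i => cell i = q)) ≤ WJ s h)
    (hQc : √(QQ a v L (rich a (J e)) (A.filter (fun i => cell i = q))) ≤ 47 / 100) :
    ∃ B : Finset ι, B ⊆ A.filter (fun i => cell i = q) ∧ HP a J e L s h v A xl cell B q := by
  obtain ⟨hh, hLd, hLs, htL, hτ2, hh5, hs1, hs2⟩ := hp
  have hLt : L ≤ J e := by omega
  obtain ⟨hsg1, hsg2⟩ := sig_small hg hLs (by linarith : (1 : ℝ) ≤ τ) hh5 hs1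
  have h218p : (0 : ℝ) < (2 : ℝ) ^ (-(1 / 8) : ℝ) := Real.rpow_pos_of_pos (by norm_num) _
  have hsub : A.filter (fun i => cell i = q) ⊆ A := Finset.filter_subset _ _
  have hQq : QQ a v L (rich a (J e)) (A.filter (fun i => cell i = q)) ≤ 1 / 4 := by
    have h2 := Real.sq_sqrt (QQ_nonneg a v L (rich a (J e)) (A.filter (fun i => cell i = q)))
    have h3 := Real.sqrt_nonneg (QQ a v L (rich a (J e)) (A.filter (fun i => cell i = q)))
    nlinarith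
  obtain ⟨B, hB, ee, p1, p2, p3, p4, p5, p6, p7, p8⟩ := hsplit (a := a) (t := J e) (L := L) hLt hg
    (v := v) (A := A.filter (fun i => cell i = q)) (fun i hi => hR.unit i (hsub hi)) hQq
    (al a J e L) (fun k => al_pos e L k)
    (fun i hi => ent3 hJ (hR.unit i (hsub hi)) (hR.ent i (hsub hi)))
    (W := WJ s h) (by have := WJ_pos s h; linarith) o4
    (gen a J e) (jgen_subset hJ le_rfl) (fun k hk => al_ge hJ hLt hk)
    (fun k => xl k + ∑ i ∈ A with cell i < q, v i k)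
  have hX : √(QQ a v L (rich a (J e)) (A.filter (fun i => cell i = q))) +
      3 * √K0 * sig a (J e) L ≤ 1 / 2 := by
    linarith
  refine ⟨B, hB, ee, ?_, ?_, p3, p4, p5, p6, p7, p8⟩
  · exact p1.trans (mul_le_mul_of_nonneg_left hX h218p.le)
  · exact p2.trans (mul_le_mul_of_nonneg_left hX h218p.le)

theorem mdpt_Mid {e L s h : ℕ} {τ : ℝ} (hJ : StrictMono J) (hp : Par J e L s h τ)
    (hg : good a (J e)) {v : ι → Fin d → ℝ} {A : Finset ι} {xl : Fin d → ℝ}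
    {cell : ι → ℕ} {B : ℕ → Finset ι} {q : ℕ} (hq : q < 2 ^ h)
    (o2 : ∀ q ≤ 2 ^ h, ∀ θ : ℝ, ∑ k ∈ (rich a (J e)).filter (fun k => a k ≤ θ), dev v A cell h q k ^ 2 ≤
        7 * K0 * (nn a (J e) θ + h + 5))
    (hP : HP a J e L s h v A xl cell (B q) q) :
    ∃ E, Mid a (J e) L xl (fun k => xl k + ∑ i ∈ A, v i k) E (mdpt v A xl cell B q) := by
  obtain ⟨hh, hLd, hLs, htL, hτ2, hh5, hs1, hs2⟩ := hp
  have hLt : L ≤ J e := by omega
  obtain ⟨ee, p1, p2, p3, p4, p5, p6, p7, p8⟩ := hP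
  refine ⟨_, mid_of_split (ch := chd v A xl h q)
    (av := fun k => (xl k + ∑ i ∈ A with cell i < q, v i k) + (∑ i ∈ A with cell i = q, v i k) / 2)
    (e := ee) hLt hg ?_ ?_ p7 p8⟩
  · intro k _
    obtain ⟨r0, r1⟩ := chd_ratio hq
    show |xl k + ((q : ℝ) + 1 / 2) / 2 ^ h * ∑ i ∈ A, v i k| ≤ max |xl k| |xl k + ∑ i ∈ A, v i k|
    set r := ((q : ℝ) + 1 / 2) / 2 ^ h
    have e1 : xl k + r * ∑ i ∈ A, v i k = (1 - r) * xl k + r * (xl k + ∑ i ∈ A, v i k) := by ring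
    rw [e1]
    refine (abs_add_le _ _).trans ?_
    rw [abs_mul, abs_mul, abs_of_nonneg (by linarith : 0 ≤ 1 - r), abs_of_nonneg r0]
    have h1 := le_max_left |xl k| |xl k + ∑ i ∈ A, v i k|
    have h2 := le_max_right |xl k| |xl k + ∑ i ∈ A, v i k|
    have h3 := mul_le_mul_of_nonneg_left h1 (by linarith : 0 ≤ 1 - r)
    have h4 := mul_le_mul_of_nonneg_left h2 r0
    linarith
  · intro k hk
    have h1 := dev_cap hJ hg hLs (by linarith : (1 : ℝ) ≤ τ) hh5 hs1 (o2 q hq.le) hk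
    have h2 := dev_cap hJ hg hLs (by linarith : (1 : ℝ) ≤ τ) hh5 hs1 (o2 (q + 1) hq) hk
    have h3 := av_eq v A xl cell h q k
    show |(xl k + ∑ i ∈ A with cell i < q, v i k) + (∑ i ∈ A with cell i = q, v i k) / 2 -
      chd v A xl h q k| ≤ _
    rw [h3, add_sub_cancel_left, abs_div, abs_two]
    have h4 := abs_add_le (dev v A cell h q k) (dev v A cell h (q + 1) k)
    linarith

/-- new norm bounds -/
noncomputable def bn (a : Fin d → ℝ) (J : ℕ → ℕ) (e : ℕ) (τ : ℝ) (b : ℕ → ℝ) (c : ℕ) : ℝ :=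
  b c + (200000000 * √τ) * (25 / 26) ^ (e - c) + if c = e then 2000 * √((gen a J e).card) else 0

lemma le_bn (e : ℕ) (τ : ℝ) (b : ℕ → ℝ) (c : ℕ) : b c ≤ bn a J e τ b c := by
  unfold bn
  have h1 : 0 ≤ (200000000 * √τ) * (25 / 26 : ℝ) ^ (e - c) := by positivity
  have h2 : 0 ≤ (if c = e then 2000 * √((gen a J e).card : ℝ) else 0) := by
    split_ifs <;> positivity
  linarith

theorem mdpt_nrm {e L s h : ℕ} {τ : ℝ} (hJ : StrictMono J) (hp : Par J e L s h τ)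
    {Θ : ℝ} {v : ι → Fin d → ℝ} {A : Finset ι} {xl : Fin d → ℝ} {b : ℕ → ℝ}
    (hR : Rst a J e Θ v A xl b) {cell : ι → ℕ} {B : ℕ → Finset ι} {q : ℕ} (hq : q < 2 ^ h)
    (o1 : ∀ q ≤ 2 ^ h, ∑ k ∈ gen a J e, dev v A cell h q k ^ 2 ≤ 7 * K0 * ((gen a J e).card + h + 5))
    (o3 : ∀ q ≤ 2 ^ h, ∑ k ∈ Old a J e, (be ^ (e - gi a J k) * dev v A cell h q k) ^ 2 ≤
        7 * K0 * (h + 5) * (be ^ 2 * 28000 ^ 2))
    (hP : HP a J e L s h v A xl cell (B q) q) :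
    ∀ c ≤ e, nrm (gen a J c) (mdpt v A xl cell B q) ≤ bn a J e τ b c := by
  obtain ⟨hh, hLd, hLs, htL, hτ2, hh5, hs1, hs2⟩ := hp
  intro c hce
  obtain ⟨ee, p1, p2, p3, p4, p5, p6, p7, p8⟩ := hP
  obtain ⟨r0, r1⟩ := chd_ratio hq
  have h0 : nrm (gen a J c) (chd v A xl h q) ≤ b c :=
    nrm_chord (gen a J c) xl (fun k => ∑ i ∈ A, v i k) r0 r1 (hR.bl c hce) (hR.br c hce)
  have e1 : mdpt v A xl cell B q = fun k => chd v A xl h q k +
      ((dev v A cell h q k + dev v A cell h (q + 1) k) / 2 +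
    (∑ i ∈ B q, v i k - (∑ i ∈ A with cell i = q, v i k) / 2)) :=
    funext fun k => mdpt_eq v A xl cell B h q k
  rw [e1]
  have h1 := nrm_add_le (gen a J c) (chd v A xl h q)
    (fun k => (dev v A cell h q k + dev v A cell h (q + 1) k) / 2 +
    (∑ i ∈ B q, v i k - (∑ i ∈ A with cell i = q, v i k) / 2))
  have h2 := nrm_add_le (gen a J c)
    (fun k => (dev v A cell h q k + dev v A cell h (q + 1) k) / 2)
    (fun k => ∑ i ∈ B q, v i k - (∑ i ∈ A with cell i = q, v i k) / 2)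
  rcases Nat.lt_or_ge c e with hlt | hge
  · have hone := jcost_old (s := s) hτ2 hh5 hs2
    have h3 : ∀ q' ≤ 2 ^ h, nrm (gen a J c) (dev v A cell h q') ≤
        √(7 * K0 * (h + 5) * (be ^ 2 * 28000 ^ 2)) * (25 / 26) ^ (e - c) := fun q' hq' =>
      nrm_Old hlt (o3 q' hq')
    have h4 := nrm_half_add (gen a J c) _ _ (h3 q hq.le) (h3 (q + 1) hq)
    have h5 := nrm_old hJ hlt p5
    have h6 : (√(7 * K0 * (h + 5) * (be ^ 2 * 28000 ^ 2)) + √(2 * K0 * WJ s h)) *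
        (25 / 26 : ℝ) ^ (e - c) ≤ (200000000 * √τ) * (25 / 26) ^ (e - c) :=
      mul_le_mul_of_nonneg_right hone (by positivity)
    have h7 : bn a J e τ b c = b c + (200000000 * √τ) * (25 / 26) ^ (e - c) := by
      unfold bn
      rw [if_neg (by omega)]
      ring
    rw [h7]
    linarith
  · have hce' : c = e := le_antisymm hce hge
    subst hce'
    have hone := jcost_cur (s := s) (h := h) (g := (gen a J c).card) hτ2 hh5 hs2
    have h3 : ∀ q' ≤ 2 ^ h, nrm (gen a J c) (dev v A cell h q') ≤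
        √(7 * K0 * ((gen a J c).card + h + 5)) := fun q' hq' =>
      nrm_le_of_sum _ (o1 q' hq')
    have h4 := nrm_half_add (gen a J c) _ _ (h3 q hq.le) (h3 (q + 1) hq)
    have h5 := nrm_le_of_sum _ p6
    have h7 : bn a J c τ b c = b c + 200000000 * √τ + 2000 * √((gen a J c).card : ℝ) := by
      unfold bn
      rw [if_pos rfl, Nat.sub_self, pow_zero, mul_one]
    rw [h7]
    linarith

/-- energy at the next level -/
lemma En_next {e L s h : ℕ} {τ : ℝ} (hJ : StrictMono J) (hp : Par J e L s h τ)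
    {v : ι → Fin d → ℝ} {N : Finset ι}
    (hN : EE v (deep a (J e)) (al a J e L) N ≤ (WJ s h + 6 * √K0 * √(WJ s h)) / 2) :
    EE v (deep a (J e)) (al a J e (L + 1)) N ≤
        ww (J e - (L + 1)) * (2 : ℝ) ^ (((J e : ℝ) - ((L + 1 : ℕ) : ℝ)) / 4) := by
  have hWt := WJ_tot hp.hτ2 hp.hh5 hp.hs1 hp.hs2
  have htL := hp.htL
  have h1 := EE_succ (L := L) hJ (e := e) (a := a) v N
  have h2 : (2 : ℝ) ^ ((3 / 4) : ℝ) ≤ 2 := by
    have := Real.rpow_le_rpow_of_exponent_le (x := 2) (by norm_num) (show (3 / 4 : ℝ) ≤ 1 by norm_num)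
    simpa using this
  have h3 : ((J e : ℝ) - ((L + 1 : ℕ) : ℝ)) / 4 = (s : ℝ) / 4 := by
    push_cast
    linarith
  have h4 : (13000 : ℝ) ^ 2 ≤ ww (J e - (L + 1)) := by
    unfold ww
    apply pow_le_pow_left₀ (by norm_num)
    have : (0 : ℝ) ≤ (2 : ℝ) ^ (-((J e - (L + 1) : ℕ) : ℝ) / 8) := Real.rpow_nonneg (by norm_num) _
    linarith
  have h5 : (0 : ℝ) ≤ (2 : ℝ) ^ ((s : ℝ) / 4) := Real.rpow_nonneg (by norm_num) _
  rw [h3]
  have h6 := mul_le_mul_of_nonneg_right h4 h5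
  have h7 : 0 ≤ EE v (deep a (J e)) (al a J e L) N := EE_nonneg _ _ _ _
  have h8 := mul_le_mul_of_nonneg_right h2 h7
  linarith

/-- energy at the same level -/
lemma En_same {e L s h : ℕ} {τ : ℝ} (hp : Par J e L s h τ)
    {v : ι → Fin d → ℝ} {N : Finset ι}
    (hN : EE v (deep a (J e)) (al a J e L) N ≤ WJ s h + 6 * √K0 * √(WJ s h)) :
    EE v (deep a (J e)) (al a J e L) N ≤
        ww (J e - L) * (2 : ℝ) ^ (((J e : ℝ) - L) / 4) := by
  have hWt := WJ_tot hp.hτ2 hp.hh5 hp.hs1 hp.hs2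
  have htL := hp.htL
  have h3 : (2 : ℝ) ^ ((s : ℝ) / 4) ≤ (2 : ℝ) ^ (((J e : ℝ) - L) / 4) := by
    apply Real.rpow_le_rpow_of_exponent_le (by norm_num)
    rw [htL]
    linarith
  have h4 : (13000 : ℝ) ^ 2 ≤ ww (J e - L) := by
    unfold ww
    apply pow_le_pow_left₀ (by norm_num)
    have : (0 : ℝ) ≤ (2 : ℝ) ^ (-((J e - L : ℕ) : ℝ) / 8) := Real.rpow_nonneg (by norm_num) _
    linarith
  have h5 : (0 : ℝ) ≤ (2 : ℝ) ^ ((s : ℝ) / 4) := Real.rpow_nonneg (by norm_num) _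
  have h6 := mul_le_mul h4 h3 h5 (by unfold ww; positivity)
  linarith

lemma QQ_next {t L : ℕ} {v : ι → Fin d → ℝ} {N : Finset ι}
    (hN : √(QQ a v (L + 1) (rich a t) N) ≤ (2 : ℝ) ^ (-(1 / 8) : ℝ) * (1 / 2)) :
    QQ a v (L + 1) (rich a t) N ≤ 1 / 4 := by
  have h1 := two_neg_eighth
  have h2 := Real.sq_sqrt (QQ_nonneg a v (L + 1) (rich a t) N)
  have h3 := Real.sqrt_nonneg (QQ a v (L + 1) (rich a t) N)
  have h4 : √(QQ a v (L + 1) (rich a t) N) ≤ 1 / 2 := by linarith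
  nlinarith

lemma QQ_same {t L : ℕ} {v : ι → Fin d → ℝ} {N1 N2 : Finset ι} (hd : Disjoint N1 N2)
    (h1 : √(QQ a v (L + 1) (rich a t) N1) ≤ (2 : ℝ) ^ (-(1 / 8) : ℝ) * (1 / 2))
    (h2 : √(QQ a v (L + 1) (rich a t) N2) ≤ (2 : ℝ) ^ (-(1 / 8) : ℝ) * (1 / 2)) :
    QQ a v L (rich a t) (N1 ∪ N2) ≤ 1 / 4 := by
  have h3 := QQ_union (a := a) v L (rich a t) hd
  have h4 : (2 : ℝ) ^ (-(7 / 8) : ℝ) * (2 : ℝ) ^ (-(1 / 8) : ℝ) = 1 / 2 := by
    rw [← Real.rpow_add (by norm_num)]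
    norm_num
  have h5 : (0 : ℝ) ≤ (2 : ℝ) ^ (-(7 / 8) : ℝ) := Real.rpow_nonneg (by norm_num) _
  have h6 := mul_le_mul_of_nonneg_left (add_le_add h1 h2) h5
  have h7 : √(QQ a v L (rich a t) (N1 ∪ N2)) ≤ 1 / 2 := by
    refine h3.trans (h6.trans (le_of_eq ?_))
    calc (2 : ℝ) ^ (-(7 / 8) : ℝ) * ((2 : ℝ) ^ (-(1 / 8) : ℝ) * (1 / 2) +
          (2 : ℝ) ^ (-(1 / 8) : ℝ) * (1 / 2))
        = (2 : ℝ) ^ (-(7 / 8) : ℝ) * (2 : ℝ) ^ (-(1 / 8) : ℝ) := by ring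
      _ = 1 / 2 := h4
  have h8 := Real.sq_sqrt (QQ_nonneg a v L (rich a t) (N1 ∪ N2))
  have h9 := Real.sqrt_nonneg (QQ a v L (rich a t) (N1 ∪ N2))
  nlinarith

/-- construction of the state of a piece -/
theorem mkH {e L s h : ℕ} {τ : ℝ} (hp : Par J e L s h τ)
    (hg : good a (J e)) {Θ : ℝ} {v : ι → Fin d → ℝ} {A : Finset ι} {xl : Fin d → ℝ} {b b' : ℕ → ℝ}
    (hR : Rst a J e Θ v A xl b) {L' : ℕ} {N : Finset ι} {x y : Fin d → ℝ}
    (hL' : L' = L ∨ L' = L + 1) (hN : N ⊆ A)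
    (hxy : ∀ k, x k + ∑ i ∈ N, v i k = y k)
    (hQN : QQ a v L' (rich a (J e)) N ≤ 1 / 4)
    (hEN : EE v (deep a (J e)) (al a J e L') N ≤ ww (J e - L') * (2 : ℝ) ^ (((J e : ℝ) - L') / 4))
    (hx : (∀ k ∈ rich a (J e), x k = xl k) ∨
      ∃ E, Mid a (J e) L xl (fun k => xl k + ∑ i ∈ A, v i k) E x)
    (hy : (∀ k ∈ rich a (J e), y k = xl k + ∑ i ∈ A, v i k) ∨
      ∃ E, Mid a (J e) L xl (fun k => xl k + ∑ i ∈ A, v i k) E y)
    (hbx : ∀ c ≤ e, nrm (gen a J c) x ≤ b' c) (hby : ∀ c ≤ e, nrm (gen a J c) y ≤ b' c) :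
    Hst a J e L' Θ v N x b' := by
  obtain ⟨hh, hLd, hLs, htL, hτ2, hh5, hs1, hs2⟩ := hp
  have hyy : (fun k => x k + ∑ i ∈ N, v i k) = y := funext hxy
  refine ⟨fun i hi => hR.unit i (hN hi), hQN, fun i hi => hR.ent i (hN hi), hEN, ?_, hbx, ?_⟩
  · rw [hyy]
    exact ph_step (L0 := lv0 J e) (L := L) (L' := L') (by omega) (by omega) (by omega) (by omega)
      hg hR.ph hx hy
  · intro c hc
    rw [hyy]
    exact hby c hc

end JS

theorem jstep (hJ : StrictMono J) {e : ℕ} (hg : good a (J e)) {s h : ℕ} (hh : 1 ≤ h)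
    (hs : lv0 J e + h + s + 1 = J e)
    (hs1 : (2 : ℝ) ^ 28 * ((J e : ℝ) - lv0 J e) ≤ (2 : ℝ) ^ ((s : ℝ) / 4))
    (hs2 : (2 : ℝ) ^ ((s : ℝ) / 4) ≤ 2 ^ 30 * ((J e : ℝ) - lv0 J e))
    {Θ : ℝ} {v : ι → Fin d → ℝ} {A : Finset ι} {xl : Fin d → ℝ} {b : ℕ → ℝ}
    (hR : Rst a J e Θ v A xl b) {P : (Fin d → ℝ) → Prop}
    (Hend : ∀ L', (L' = lv0 J e + h ∨ L' = lv0 J e + h + 1) → ∀ A' xl',
      Hst a J e L' Θ v A' xl' (fun c => b c + (200000000 * √((J e : ℝ) - lv0 J e)) * (25 / 26) ^ (e - c) +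
        if c = e then 2000 * √((gen a J e).card) else 0) → Ord v A' xl' P) :
    Ord v A xl P := by
  obtain ⟨L, hLdef⟩ : ∃ L, L = lv0 J e + h := ⟨_, rfl⟩
  obtain ⟨τ, hτdef⟩ : ∃ τ : ℝ, τ = (J e : ℝ) - lv0 J e := ⟨_, rfl⟩
  rw [← hτdef] at hs1 hs2
  rw [← hτdef, ← hLdef] at Hend
  have hp : JS.Par J e L s h τ := by
    have hLs : L + s + 1 = J e := by omega
    have hτ : τ = h + s + 1 := by
      rw [hτdef]
      have : ((lv0 J e + h + s + 1 : ℕ) : ℝ) = J e := by exact_mod_cast hs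
      push_cast at this
      linarith
    have hhr : (1 : ℝ) ≤ h := by exact_mod_cast hh
    have hs0 : (0 : ℝ) ≤ s := Nat.cast_nonneg s
    refine ⟨hh, hLdef, hLs, ?_, by linarith, by linarith, hs1, hs2⟩
    have : ((L + s + 1 : ℕ) : ℝ) = J e := by exact_mod_cast hLs
    push_cast at this
    linarith
  have Hend' : ∀ L', (L' = L ∨ L' = L + 1) → ∀ A' xl',
      Hst a J e L' Θ v A' xl' (JS.bn a J e τ b) → Ord v A' xl' P := Hend
  clear Hend hs1 hs2 hs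
  obtain ⟨cell, hc, o1, o2, o3, o4, o5⟩ := JS.cells_exist hJ hp hg hR
  have key : ∀ q : ℕ, ∃ B : Finset ι, B ⊆ A.filter (fun i => cell i = q) ∧ (q < 2 ^ h →
      JS.HP a J e L s h v A xl cell B q) := by
    intro q
    by_cases hq : q < 2 ^ h
    · obtain ⟨B, hB, h1⟩ := JS.split_exist hJ hp hg hR (o4 q hq) (o5 q hq)
      exact ⟨B, hB, fun _ => h1⟩
    · exact ⟨∅, Finset.empty_subset _, fun h => absurd h hq⟩
  choose B hB hprop using key
  have hMid := fun q (hq : q < 2 ^ h) => JS.mdpt_Mid (B := B) hJ hp hg hq o2 (hprop q hq)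
  have hMnrm := fun q (hq : q < 2 ^ h) => JS.mdpt_nrm (B := B) hJ hp hR hq o1 o3 (hprop q hq)
  have hBA : ∀ q, B q ⊆ A := fun q => (hB q).trans (Finset.filter_subset _ _)
  have hCA : ∀ q, (A.filter (fun i => cell i = q) \ B q) ⊆ A := fun q =>
    Finset.sdiff_subset.trans (Finset.filter_subset _ _)
  have hcomp : ∀ q k, ∑ i ∈ A.filter (fun i => cell i = q) \ B q, v i k =
      ∑ i ∈ A with cell i = q, v i k - ∑ i ∈ B q, v i k := by
    intro q k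
    rw [Finset.sum_sdiff_eq_sub (hB q)]
  have hpos : 0 < 2 ^ h := by positivity
  apply Ord.cells (JS.nc cell B) (2 ^ h + 1) (by positivity) (JS.nc_le hc)
  intro q hq
  rcases q with _ | q
  · obtain ⟨ee, p1, p2, p3, p4, p5, p6, p7, p8⟩ := hprop 0 hpos
    rw [JS.nc_eq_zero hB]
    have e0 : (fun k => xl k + ∑ i ∈ A with JS.nc cell B i < 0, v i k) = xl := by
      funext k
      simp
    rw [e0]
    apply Hend' (L + 1) (Or.inr rfl)
    refine JS.mkH hp hg hR (y := JS.mdpt v A xl cell B 0) (Or.inr rfl) (hBA 0) ?_ (JS.QQ_next p1)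
      (JS.En_next hJ hp p3) (Or.inl fun k _ => rfl) (Or.inr (hMid 0 hpos))
      (fun c hc => (hR.bl c hc).trans (JS.le_bn e τ b c)) (hMnrm 0 hpos)
    intro k
    simp [JS.mdpt]
  · have hq' : q < 2 ^ h := by omega
    obtain ⟨ee, p1, p2, p3, p4, p5, p6, p7, p8⟩ := hprop q hq'
    have e0 : (fun k => xl k + ∑ i ∈ A with JS.nc cell B i < q + 1, v i k) =
        JS.mdpt v A xl cell B q := by
      funext k
      rw [JS.nc_lt_succ hB, Finset.sum_union (JS.disj_lt_B hB q)]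
      unfold JS.mdpt
      ring
    rw [e0, JS.nc_eq_succ hB]
    rcases Nat.lt_or_ge (q + 1) (2 ^ h) with hlt | hge
    · obtain ⟨ee', p1', p2', p3', p4', p5', p6', p7', p8'⟩ := hprop (q + 1) hlt
      apply Hend' L (Or.inl rfl)
      refine JS.mkH hp hg hR (y := JS.mdpt v A xl cell B (q + 1)) (Or.inl rfl)
        (Finset.union_subset (hCA q) (hBA (q + 1))) ?_
        (JS.QQ_same (JS.disj_succ hB q) p2 p1') (JS.En_same hp ?_) (Or.inr (hMid q hq'))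
        (Or.inr (hMid (q + 1) hlt)) (hMnrm q hq') (hMnrm (q + 1) hlt)
      · intro k
        rw [Finset.sum_union (JS.disj_succ hB q), hcomp]
        have := JS.sum_lt_succ (A := A) (cell := cell) (fun i => v i k) q
        unfold JS.mdpt
        rw [this]
        ring
      · rw [JS.EE_union _ _ _ (JS.disj_succ hB q)]
        linarith
    · have hBe : B (q + 1) = ∅ := by
        rw [Finset.eq_empty_iff_forall_notMem]
        intro i hi
        obtain ⟨h1, h2⟩ := JS.mem_B hB hi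
        have := hc i h1
        omega
      rw [hBe, Finset.union_empty]
      have hall : ∀ k, ∑ i ∈ A with cell i < q + 1, v i k = ∑ i ∈ A, v i k := by
        intro k
        congr 1
        apply Finset.filter_true_of_mem
        intro i hi
        have := hc i hi
        omega
      apply Hend' (L + 1) (Or.inr rfl)
      refine JS.mkH hp hg hR (y := fun k => xl k + ∑ i ∈ A, v i k) (Or.inr rfl) (hCA q) ?_
        (JS.QQ_next p2) (JS.En_next hJ hp p4) (Or.inr (hMid q hq')) (Or.inl fun k _ => rfl)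
        (hMnrm q hq') (fun c hc => (hR.br c hc).trans (JS.le_bn e τ b c))
      intro k
      rw [hcomp]
      have h1 := JS.sum_lt_succ (A := A) (cell := cell) (fun i => v i k) q
      have h2 := hall k
      unfold JS.mdpt
      linarith

end Vale.Agent.P262F
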