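import Vale.Agent.P262F.State
import Vale.Agent.P262F.Good

/-! Lemmas for the J-step -/

namespace Vale.Agent.P262F.JS
open Finset

variable {ι : Type*} [DecidableEq ι] {d : ℕ} {a : Fin d → ℝ} {J : ℕ → ℕ}

lemma al_ge (hJ : StrictMono J) {e L : ℕ} (hL : L ≤ J e) {k : Fin d} (hk : k ∈ gen a J e) :
    (2 : ℝ) ^ (-(3 / 8) * ((J e : ℝ) - L)) ≤ al a J e L k := by
  have hgi := mem_gen.mp hk
  have hLr : (L : ℝ) ≤ J e := by exact_mod_cast hL
  unfold al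
  rw [if_neg (by omega)]
  split_ifs with h1
  · unfold mu
    rw [← Real.rpow_mul (by norm_num)]
    apply Real.rpow_le_rpow_of_exponent_le (by norm_num)
    have : a k ≤ J e := (gi_le_iff hJ k e).mp hgi.le
    nlinarith
  · apply Real.rpow_le_one_of_one_le_of_nonpos (by norm_num)
    nlinarith

lemma jgen_subset (hJ : StrictMono J) {c e : ℕ} (hc : c ≤ e) : gen a J c ⊆ deep a (J e) := by
  intro k hk
  rw [deep_eq hJ]
  simp only [Finset.mem_filter, Finset.mem_univ, true_and]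
  have := mem_gen.mp hk
  omega

lemma EE_union (v : ι → Fin d → ℝ) (D : Finset (Fin d)) (α : Fin d → ℝ) {A B : Finset ι}
    (h : Disjoint A B) : EE v D α (A ∪ B) = EE v D α A + EE v D α B := by
  unfold EE
  exact Finset.sum_union h

lemma QQ_eq_prod (v : ι → Fin d → ℝ) (L : ℕ) (Rc : Finset (Fin d)) (A : Finset ι) :
    QQ a v L Rc A = ∑ p ∈ Rc ×ˢ Rc, (MM v A p.1 p.2 - if p.1 = p.2 then mu a L p.1 else 0) ^ 2 *
      (mu a L p.1 * mu a L p.2) ^ (-(7 / 8) : ℝ) := by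
  unfold QQ
  rw [Finset.sum_product]

lemma QQ_union (v : ι → Fin d → ℝ) (L : ℕ) (Rc : Finset (Fin d)) {A B : Finset ι}
    (h : Disjoint A B) :
    √(QQ a v L Rc (A ∪ B)) ≤ (2 : ℝ) ^ (-(7 / 8) : ℝ) *
      (√(QQ a v (L + 1) Rc A) + √(QQ a v (L + 1) Rc B)) := by
  have hw : ∀ k l, (mu a L k * mu a L l) ^ (-(7 / 8) : ℝ) =
      ((2 : ℝ) ^ (-(7 / 8) : ℝ)) ^ 2 * (mu a (L + 1) k * mu a (L + 1) l) ^ (-(7 / 8) : ℝ) := by
    intro k l
    have e1 : mu a L k * mu a L l = (2 * 2) * (mu a (L + 1) k * mu a (L + 1) l) := by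
      rw [mu_succ a L k, mu_succ a L l]
      ring
    rw [e1, Real.mul_rpow (by norm_num) (mul_pos (mu_pos a _ _) (mu_pos a _ _)).le,
      Real.mul_rpow (by norm_num) (by norm_num)]
    ring
  have e2 : QQ a v L Rc (A ∪ B) = ((2 : ℝ) ^ (-(7 / 8) : ℝ)) ^ 2 *
      ∑ p ∈ Rc ×ˢ Rc, ((MM v A p.1 p.2 - if p.1 = p.2 then mu a (L + 1) p.1 else 0) +
        (MM v B p.1 p.2 - if p.1 = p.2 then mu a (L + 1) p.1 else 0)) ^ 2 *
      (mu a (L + 1) p.1 * mu a (L + 1) p.2) ^ (-(7 / 8) : ℝ) := by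
    rw [QQ_eq_prod, Finset.mul_sum]
    refine Finset.sum_congr rfl fun p _ => ?_
    rw [hw]
    have e3 : MM v (A ∪ B) p.1 p.2 = MM v A p.1 p.2 + MM v B p.1 p.2 := by
      unfold MM
      exact Finset.sum_union h
    have e4 : (if p.1 = p.2 then mu a L p.1 else 0) =
        (if p.1 = p.2 then mu a (L + 1) p.1 else 0) + if p.1 = p.2 then mu a (L + 1) p.1 else 0 := by
      split_ifs
      · rw [mu_succ a L]; ring
      · ring
    rw [e3, e4]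
    ring
  rw [e2, Real.sqrt_mul (sq_nonneg _), Real.sqrt_sq (Real.rpow_nonneg (by norm_num) _)]
  apply mul_le_mul_of_nonneg_left _ (Real.rpow_nonneg (by norm_num) _)
  rw [QQ_eq_prod, QQ_eq_prod]
  exact wl2_add (Rc ×ˢ Rc) (fun p => (mu a (L + 1) p.1 * mu a (L + 1) p.2) ^ (-(7 / 8) : ℝ)) _ _
    (fun p _ => Real.rpow_nonneg (mul_pos (mu_pos a _ _) (mu_pos a _ _)).le _)

/-- from a bound of each single rich coordinate -/
lemma dev_cap (hJ : StrictMono J) {e L s h : ℕ} (hg : good a (J e)) (hL : L + s + 1 = J e)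
    {τ : ℝ} (hτ1 : 1 ≤ τ) (hh5 : (h : ℝ) + 5 ≤ 6 * τ)
    (hs1 : (2 : ℝ) ^ 28 * τ ≤ (2 : ℝ) ^ ((s : ℝ) / 4))
    {D : Fin d → ℝ}
    (hD : ∀ θ : ℝ, ∑ k ∈ (rich a (J e)).filter (fun k => a k ≤ θ), D k ^ 2 ≤
        7 * K0 * (nn a (J e) θ + h + 5)) {k : Fin d} (hk : k ∈ rich a (J e)) :
    |D k| ≤ cap a L k / 4 := by
  have hak : (J e : ℝ) < a k := mem_rich.mp hk
  have h1 : D k ^ 2 ≤ 7 * K0 * (nn a (J e) (a k) + h + 5) := by
    refine le_trans ?_ (hD (a k))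
    exact Finset.single_le_sum (f := fun k => D k ^ 2) (fun _ _ => sq_nonneg _)
      (Finset.mem_filter.mpr ⟨hk, le_rfl⟩)
  have h2 := good_nn hg hk
  have hcap : cap a L k ^ 2 = (2 : ℝ) ^ ((a k - J e) / 4) * (2 : ℝ) ^ (((s : ℝ) + 1) / 4) := by
    unfold cap mu
    rw [← Real.rpow_natCast, ← Real.rpow_mul (Real.rpow_nonneg (by norm_num) _),
      ← Real.rpow_mul (by norm_num), ← Real.rpow_add (by norm_num)]
    congr 1
    have : (J e : ℝ) = L + s + 1 := by exact_mod_cast hL.symm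
    rw [this]
    push_cast
    ring
  set r := (2 : ℝ) ^ ((a k - J e) / 4) with hr
  have hr1 : 1 ≤ r := Real.one_le_rpow (by norm_num) (by linarith)
  have h3 : (2 : ℝ) ^ ((a k - J e) / 16) ≤ r := by
    apply Real.rpow_le_rpow_of_exponent_le (by norm_num)
    linarith
  have h4 : (2 : ℝ) ^ ((s : ℝ) / 4) ≤ (2 : ℝ) ^ (((s : ℝ) + 1) / 4) := by
    apply Real.rpow_le_rpow_of_exponent_le (by norm_num)
    linarith
  have h5 : (nn a (J e) (a k) : ℝ) ≤ r := by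
    refine h2.trans ?_
    have : (0 : ℝ) ≤ (2 : ℝ) ^ ((a k - J e) / 16) := Real.rpow_nonneg (by norm_num) _
    have hcc : cc ≤ 1 := by norm_num [cc]
    nlinarith
  have h6 : D k ^ 2 ≤ (cap a L k / 4) ^ 2 := by
    rw [div_pow, hcap]
    have h7 : (nn a (J e) (a k) : ℝ) + h + 5 ≤ 7 * (τ * r) := by nlinarith
    have h8 : 7 * K0 * (nn a (J e) (a k) + h + 5) ≤ 8820000 * (τ * r) := by
      have : (7 * K0 : ℝ) = 1260000 := by norm_num [K0]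
      rw [this]
      nlinarith
    have h9 : (2 : ℝ) ^ 28 * (τ * r) ≤ r * (2 : ℝ) ^ (((s : ℝ) + 1) / 4) := by
      have := mul_le_mul_of_nonneg_left (hs1.trans h4) (by linarith : 0 ≤ r)
      linarith
    have h10 : (0 : ℝ) ≤ τ * r := by positivity
    norm_num at h9 ⊢
    linarith
  exact abs_le_of_sq_le_sq h6 (by
    have : 0 ≤ cap a L k := by
      unfold cap
      exact Real.rpow_nonneg (mu_pos a L k).le _
    linarith)

lemma sig_nonneg (a : Fin d → ℝ) (t L : ℕ) : 0 ≤ sig a t L :=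
  Finset.sum_nonneg fun k _ => Real.rpow_nonneg (mu_pos a L k).le _

lemma sig_small {e L s h : ℕ} (hg : good a (J e)) (hL : L + s + 1 = J e)
    {τ : ℝ} (hτ1 : 1 ≤ τ) (hh5 : (h : ℝ) + 5 ≤ 6 * τ)
    (hs1 : (2 : ℝ) ^ 28 * τ ≤ (2 : ℝ) ^ ((s : ℝ) / 4)) :
    4 * √(K0 * (h + 5)) * sig a (J e) L ≤ 1 / 1000000 ∧ 3 * √K0 * sig a (J e) L ≤ 1 / 1000000 := by
  have h1 := good_sig hg (L := L) (by omega)
  set T := (2 : ℝ) ^ ((s : ℝ) / 4) with hT
  have hT0 : (2 : ℝ) ^ 28 ≤ T := by nlinarith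
  have hTp : 0 < T := by
    have : (0 : ℝ) < 2 ^ 28 := by norm_num
    linarith
  have h2 : (2 : ℝ) ^ (-(3 / 8) * ((J e : ℝ) - L)) ≤ T⁻¹ := by
    rw [hT, ← Real.rpow_neg (by norm_num)]
    apply Real.rpow_le_rpow_of_exponent_le (by norm_num)
    have : (J e : ℝ) = L + s + 1 := by exact_mod_cast hL.symm
    have hs0 : (0 : ℝ) ≤ s := Nat.cast_nonneg s
    rw [this]
    linarith
  have h3 : sig a (J e) L ≤ cc * T⁻¹ :=
    h1.trans (mul_le_mul_of_nonneg_left h2 (by norm_num [cc]))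
  have h0 := sig_nonneg a (J e) L
  have hTT : T * T⁻¹ = 1 := mul_inv_cancel₀ hTp.ne'
  have hTi : 0 < T⁻¹ := inv_pos.mpr hTp
  have hh0 : (0 : ℝ) ≤ h := Nat.cast_nonneg h
  constructor
  · have h4 : √(K0 * (h + 5)) ≤ K0 * (h + 5) := by
      rw [Real.sqrt_le_left (by norm_num [K0]; positivity)]
      have : (1 : ℝ) ≤ K0 * (h + 5) := by
        norm_num [K0]
        linarith
      nlinarith
    have h5 : K0 * (h + 5) ≤ T / 200 := by
      norm_num [K0] at hT0 ⊢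
      norm_num at hs1
      linarith
    have h6 : √(K0 * (h + 5)) * sig a (J e) L ≤ (T / 200) * (cc * T⁻¹) :=
      mul_le_mul (h4.trans h5) h3 h0 (by positivity)
    have h7 : (T / 200) * (cc * T⁻¹) = cc / 200 := by
      have : (T / 200) * (cc * T⁻¹) = cc / 200 * (T * T⁻¹) := by ring
      rw [this, hTT, mul_one]
    rw [h7] at h6
    have h8 : cc / 200 ≤ 1 / 4000000 := by norm_num [cc]
    linarith
  · have h4 : √K0 ≤ 425 := by
      rw [Real.sqrt_le_left (by norm_num)]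
      norm_num [K0]
    have h5 : T⁻¹ ≤ 1 / 100 := by
      rw [inv_le_comm₀ hTp (by norm_num)]
      have : (100 : ℝ) ≤ 2 ^ 28 := by norm_num
      norm_num
      linarith
    have h6 : √K0 * sig a (J e) L ≤ 425 * (cc * (1 / 100)) :=
      mul_le_mul h4 (h3.trans (mul_le_mul_of_nonneg_left h5 (by norm_num [cc]))) h0 (by norm_num)
    have h8 : 425 * (cc * (1 / 100)) ≤ 1 / 3000000 := by norm_num [cc]
    linarith

/-- energy bound of a cell -/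
noncomputable def WJ (s h : ℕ) : ℝ :=
  2 * (be ^ 2 * 28000 ^ 2 + 3 / 2 * cc * (2 : ℝ) ^ (((s : ℝ) + 1) / 4)) + 100 * K0 * (h + 5)

lemma WJ_le {s h : ℕ} {τ : ℝ} (hτ : 2 ≤ τ) (hh5 : (h : ℝ) + 5 ≤ 6 * τ)
    (hs2 : (2 : ℝ) ^ ((s : ℝ) / 4) ≤ 2 ^ 30 * τ) : WJ s h ≤ 1000000000 * τ := by
  have h1 : (2 : ℝ) ^ (((s : ℝ) + 1) / 4) ≤ 2 * (2 : ℝ) ^ ((s : ℝ) / 4) := by
    rw [show ((s : ℝ) + 1) / 4 = (s : ℝ) / 4 + 1 / 4 by ring, Real.rpow_add (by norm_num)]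
    have : (2 : ℝ) ^ ((1 / 4) : ℝ) ≤ 2 := by
      have := Real.rpow_le_rpow_of_exponent_le (x := 2) (by norm_num) (show (1 / 4 : ℝ) ≤ 1 by norm_num)
      simpa using this
    have h0 : (0 : ℝ) ≤ (2 : ℝ) ^ ((s : ℝ) / 4) := Real.rpow_nonneg (by norm_num) _
    nlinarith
  unfold WJ
  norm_num [be, cc, K0] at hs2 ⊢
  linarith

lemma WJ_pos (s h : ℕ) : 1 ≤ WJ s h := by
  unfold WJ
  have h0 : (0 : ℝ) ≤ (2 : ℝ) ^ (((s : ℝ) + 1) / 4) := Real.rpow_nonneg (by norm_num) _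
  have hh0 : (0 : ℝ) ≤ h := Nat.cast_nonneg h
  norm_num [be, cc, K0]
  nlinarith

lemma WJ_tot {s h : ℕ} {τ : ℝ} (hτ : 2 ≤ τ) (hh5 : (h : ℝ) + 5 ≤ 6 * τ)
    (hs1 : (2 : ℝ) ^ 28 * τ ≤ (2 : ℝ) ^ ((s : ℝ) / 4))
    (hs2 : (2 : ℝ) ^ ((s : ℝ) / 4) ≤ 2 ^ 30 * τ) :
    WJ s h + 6 * √K0 * √(WJ s h) ≤ 13000 ^ 2 * (2 : ℝ) ^ ((s : ℝ) / 4) := by
  have h1 := WJ_le hτ hh5 hs2
  have h2 := WJ_pos s h
  have h3 : √(WJ s h) ≤ WJ s h := by
    rw [Real.sqrt_le_left (by linarith)]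
    nlinarith
  have h4 : √K0 ≤ 425 := by
    rw [Real.sqrt_le_left (by norm_num)]
    norm_num [K0]
  have h5 : √K0 * √(WJ s h) ≤ 425 * WJ s h :=
    mul_le_mul h4 h3 (Real.sqrt_nonneg _) (by norm_num)
  norm_num at hs1 ⊢
  linarith

end Vale.Agent.P262F.JS
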