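import Vale.Agent.P262F.JStepA

/-! Combinatorics of the shifted cells, and norms of the midpoints -/

namespace Vale.Agent.P262F.JS
open Finset

variable {ι : Type*} [DecidableEq ι] {d : ℕ} {a : Fin d → ℝ} {J : ℕ → ℕ}

/-- shifted cells -/
def nc (cell : ι → ℕ) (B : ℕ → Finset ι) (i : ι) : ℕ :=
  if i ∈ B (cell i) then cell i else cell i + 1

section cells

variable {A : Finset ι} {cell : ι → ℕ} {B : ℕ → Finset ι}

lemma mem_B (hB : ∀ q, B q ⊆ A.filter (fun i => cell i = q)) {q : ℕ} {i : ι} (h : i ∈ B q) :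
    i ∈ A ∧ cell i = q := by simpa using hB q h

lemma nc_lt_succ (hB : ∀ q, B q ⊆ A.filter (fun i => cell i = q)) (q : ℕ) :
    A.filter (fun i => nc cell B i < q + 1) = A.filter (fun i => cell i < q) ∪ B q := by
  ext i
  rw [Finset.mem_union, Finset.mem_filter, Finset.mem_filter]
  unfold nc
  constructor
  · rintro ⟨h1, h2⟩
    split_ifs at h2 with h3
    · rcases Nat.lt_or_ge (cell i) q with h4 | h4
      · exact Or.inl ⟨h1, h4⟩
      · have : cell i = q := by omega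
        right
        rwa [this] at h3
    · left
      exact ⟨h1, by omega⟩
  · rintro (⟨h1, h2⟩ | h1)
    · refine ⟨h1, ?_⟩
      split_ifs <;> omega
    · obtain ⟨h3, h4⟩ := mem_B hB h1
      refine ⟨h3, ?_⟩
      rw [h4, if_pos h1]
      omega

lemma disj_lt_B (hB : ∀ q, B q ⊆ A.filter (fun i => cell i = q)) (q : ℕ) :
    Disjoint (A.filter (fun i => cell i < q)) (B q) := by
  rw [Finset.disjoint_left]
  intro i h1 h2
  have h3 := (Finset.mem_filter.mp h1).2
  have h4 := (mem_B hB h2).2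
  omega

lemma nc_eq_zero (hB : ∀ q, B q ⊆ A.filter (fun i => cell i = q)) :
    A.filter (fun i => nc cell B i = 0) = B 0 := by
  ext i
  rw [Finset.mem_filter]
  unfold nc
  constructor
  · rintro ⟨h1, h2⟩
    split_ifs at h2 with h3
    rwa [h2] at h3
  · intro h1
    obtain ⟨h3, h4⟩ := mem_B hB h1
    exact ⟨h3, by rw [h4, if_pos h1]⟩

lemma nc_eq_succ (hB : ∀ q, B q ⊆ A.filter (fun i => cell i = q)) (q : ℕ) :
    A.filter (fun i => nc cell B i = q + 1) =
      (A.filter (fun i => cell i = q) \ B q) ∪ B (q + 1) := by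
  ext i
  rw [Finset.mem_union, Finset.mem_sdiff, Finset.mem_filter, Finset.mem_filter]
  unfold nc
  constructor
  · rintro ⟨h1, h2⟩
    split_ifs at h2 with h3
    · right
      rwa [h2] at h3
    · left
      have : cell i = q := by omega
      refine ⟨⟨h1, this⟩, ?_⟩
      rwa [this] at h3
  · rintro (⟨⟨h1, h2⟩, h3⟩ | h1)
    · refine ⟨h1, ?_⟩
      rw [h2, if_neg h3]
    · obtain ⟨h3, h4⟩ := mem_B hB h1
      exact ⟨h3, by rw [h4, if_pos h1]⟩

lemma disj_succ (hB : ∀ q, B q ⊆ A.filter (fun i => cell i = q)) (q : ℕ) :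
    Disjoint (A.filter (fun i => cell i = q) \ B q) (B (q + 1)) := by
  rw [Finset.disjoint_left]
  intro i h1 h2
  have h3 := (Finset.mem_filter.mp (Finset.mem_sdiff.mp h1).1).2
  have h4 := (mem_B hB h2).2
  omega

lemma nc_le {n : ℕ} (hc : ∀ i ∈ A, cell i < n) :
    ∀ i ∈ A, nc cell B i < n + 1 := by
  intro i hi
  have := hc i hi
  unfold nc
  split_ifs <;> omega

lemma filter_lt_succ (q : ℕ) :
    A.filter (fun i => cell i < q + 1) =
      A.filter (fun i => cell i < q) ∪ A.filter (fun i => cell i = q) := by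
  ext i
  simp only [Finset.mem_filter, Finset.mem_union]
  constructor
  · rintro ⟨h1, h2⟩
    rcases Nat.lt_or_ge (cell i) q with h4 | h4
    · exact Or.inl ⟨h1, h4⟩
    · exact Or.inr ⟨h1, by omega⟩
  · rintro (⟨h1, h2⟩ | ⟨h1, h2⟩) <;> exact ⟨h1, by omega⟩

lemma sum_lt_succ (f : ι → ℝ) (q : ℕ) :
    ∑ i ∈ A with cell i < q + 1, f i =
      ∑ i ∈ A with cell i < q, f i + ∑ i ∈ A with cell i = q, f i := by
  rw [filter_lt_succ, Finset.sum_union]
  rw [Finset.disjoint_left]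
  intro i h1 h2
  have h3 := (Finset.mem_filter.mp h1).2
  have h4 := (Finset.mem_filter.mp h2).2
  omega

end cells

lemma nrm_le_of_sum (S : Finset (Fin d)) {x : Fin d → ℝ} {B : ℝ} (h : ∑ k ∈ S, x k ^ 2 ≤ B) :
    nrm S x ≤ √B := Real.sqrt_le_sqrt h

/-- norm of an old generation from the weighted sum over the old coordinates -/
lemma nrm_Old {e c : ℕ} (hc : c < e) {y : Fin d → ℝ} {B : ℝ}
    (h : ∑ k with gi a J k < e, (be ^ (e - gi a J k) * y k) ^ 2 ≤ B) :
    nrm (gen a J c) y ≤ √B * (25 / 26) ^ (e - c) := by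
  have h1 : ∑ k ∈ gen a J c, (be ^ (e - c) * y k) ^ 2 ≤ B := by
    refine le_trans ?_ h
    refine le_trans (le_of_eq (Finset.sum_congr rfl fun k hk => ?_))
      (Finset.sum_le_sum_of_subset_of_nonneg (s := gen a J c) ?_ fun _ _ _ => sq_nonneg _)
    · rw [mem_gen.mp hk]
    · intro k hk
      have := mem_gen.mp hk
      simp only [Finset.mem_filter, Finset.mem_univ, true_and]
      omega
  have h2 : nrm (gen a J c) y = (25 / 26) ^ (e - c) * nrm (gen a J c) (fun k => be ^ (e - c) * y k) := by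
    rw [nrm_smul _ _ (pow_nonneg be_pos.le _), ← mul_assoc, ← mul_pow]
    have : (25 / 26 : ℝ) * be = 1 := by norm_num [be]
    rw [this, one_pow, one_mul]
  rw [h2, mul_comm]
  apply mul_le_mul_of_nonneg_right _ (by positivity)
  exact Real.sqrt_le_sqrt h1

lemma nrm_half_add (S : Finset (Fin d)) (x y : Fin d → ℝ) {b : ℝ} (hx : nrm S x ≤ b)
    (hy : nrm S y ≤ b) : nrm S (fun k => (x k + y k) / 2) ≤ b := by
  have e1 : (fun k => (x k + y k) / 2) = fun k => (1 / 2) * (x k + y k) := by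
    funext k; ring
  rw [e1, nrm_smul S (fun k => x k + y k) (by norm_num)]
  have := nrm_add_le S x y
  linarith

/-- cost arithmetic for an old generation -/
lemma jcost_old {s h : ℕ} {τ : ℝ} (hτ : 2 ≤ τ) (hh5 : (h : ℝ) + 5 ≤ 6 * τ)
    (hs2 : (2 : ℝ) ^ ((s : ℝ) / 4) ≤ 2 ^ 30 * τ) :
    √(7 * K0 * (h + 5) * (be ^ 2 * 28000 ^ 2)) + √(2 * K0 * WJ s h) ≤ 200000000 * √τ := by
  have h1 := WJ_le hτ hh5 hs2
  have h2 : √(7 * K0 * (h + 5) * (be ^ 2 * 28000 ^ 2)) ≤ 81000000 * √τ := by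
    rw [Real.sqrt_le_left (by positivity), mul_pow, Real.sq_sqrt (by linarith)]
    norm_num [K0, be]
    linarith
  have h3 : √(2 * K0 * WJ s h) ≤ 19000000 * √τ := by
    rw [Real.sqrt_le_left (by positivity), mul_pow, Real.sq_sqrt (by linarith)]
    norm_num [K0]
    linarith
  have := Real.sqrt_nonneg τ
  linarith

/-- cost arithmetic for the current generation -/
lemma jcost_cur {s h g : ℕ} {τ : ℝ} (hτ : 2 ≤ τ) (hh5 : (h : ℝ) + 5 ≤ 6 * τ)
    (hs2 : (2 : ℝ) ^ ((s : ℝ) / 4) ≤ 2 ^ 30 * τ) :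
    √(7 * K0 * (g + h + 5)) + √(K0 * (g + 4) + WJ s h) ≤ 200000000 * √τ + 2000 * √(g : ℝ) := by
  have h1 := WJ_le hτ hh5 hs2
  have hg0 : (0 : ℝ) ≤ g := Nat.cast_nonneg g
  have sτ := Real.sqrt_nonneg τ
  have sg := Real.sqrt_nonneg (g : ℝ)
  have qτ := Real.sq_sqrt (show 0 ≤ τ by linarith)
  have qg := Real.sq_sqrt hg0
  have hm := mul_nonneg sτ sg
  have h2 : √(7 * K0 * (g + h + 5)) ≤ 3000 * √τ + 1200 * √(g : ℝ) := by
    rw [Real.sqrt_le_left (by positivity)]
    have : (3000 * √τ + 1200 * √(g : ℝ)) ^ 2 = 9000000 * √τ ^ 2 + 1440000 * √(g : ℝ) ^ 2 +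
        7200000 * (√τ * √(g : ℝ)) := by ring
    rw [this, qτ, qg]
    norm_num [K0]
    nlinarith
  have h3 : √(K0 * (g + 4) + WJ s h) ≤ 40000 * √τ + 500 * √(g : ℝ) := by
    rw [Real.sqrt_le_left (by positivity)]
    have : (40000 * √τ + 500 * √(g : ℝ)) ^ 2 = 1600000000 * √τ ^ 2 + 250000 * √(g : ℝ) ^ 2 +
        40000000 * (√τ * √(g : ℝ)) := by ring
    rw [this, qτ, qg]
    norm_num [K0]
    nlinarith
  linarith

end Vale.Agent.P262F.JS
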