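import Mathlib

/-!
# The Euclidean Steinitz constant is at least `c √d`
-/

open Finset
open scoped RealInnerProductSpace ENNReal

namespace Vale.Agent.P262F

noncomputable section

/-- the extremal family: the standard basis and `d` copies of `-(1/d) ∑ e_i` -/
def lowFam (d : ℕ) : Fin (d + d) → EuclideanSpace ℝ (Fin d) :=
  fun a => Fin.addCases (fun j => EuclideanSpace.single j (1 : ℝ))
    (fun _ => -((d : ℝ)⁻¹ • ∑ j, EuclideanSpace.single j (1 : ℝ))) a

lemma lowFam_left {d : ℕ} (j : Fin d) :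
    lowFam d (Fin.castAdd d j) = EuclideanSpace.single j (1 : ℝ) := by
  unfold lowFam
  rw [Fin.addCases_left]

lemma lowFam_right {d : ℕ} (j : Fin d) :
    lowFam d (Fin.natAdd d j) = -((d : ℝ)⁻¹ • ∑ j, EuclideanSpace.single j (1 : ℝ)) := by
  unfold lowFam
  rw [Fin.addCases_right]

lemma sum_single_apply {d : ℕ} (k : Fin d) :
    (∑ j, EuclideanSpace.single j (1 : ℝ) : EuclideanSpace ℝ (Fin d)) k = 1 := by
  rw [WithLp.ofLp_sum, Finset.sum_apply, Finset.sum_eq_single k]
  · simp
  · intro j _ hj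
    simp [EuclideanSpace.single_apply, hj.symm]
  · simp

lemma lowFam_sum {d : ℕ} (hd : 1 ≤ d) : ∑ a, lowFam d a = 0 := by
  rw [Fin.sum_univ_add]
  simp only [lowFam_left, lowFam_right]
  rw [Finset.sum_const, Finset.card_univ, Fintype.card_fin, smul_neg, ← Nat.cast_smul_eq_nsmul ℝ,
    smul_smul, mul_inv_cancel₀ (by positivity), one_smul, add_neg_cancel]

lemma lowFam_norm {d : ℕ} (hd : 1 ≤ d) (a : Fin (d + d)) : ‖lowFam d a‖ ≤ 1 := by
  have hd' : (1 : ℝ) ≤ d := by exact_mod_cast hd
  refine Fin.addCases (fun j => ?_) (fun j => ?_) a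
  · rw [lowFam_left, EuclideanSpace.norm_single, norm_one]
  · rw [lowFam_right, norm_neg, norm_smul, norm_inv, Real.norm_natCast]
    have h : ‖(∑ j, EuclideanSpace.single j (1 : ℝ) : EuclideanSpace ℝ (Fin d))‖ ^ 2 = d := by
      rw [EuclideanSpace.norm_sq_eq]
      simp only [sum_single_apply]
      simp
    have h2 : ‖(∑ j, EuclideanSpace.single j (1 : ℝ) : EuclideanSpace ℝ (Fin d))‖ ≤ d := by
      have h3 := norm_nonneg (∑ j, EuclideanSpace.single j (1 : ℝ) : EuclideanSpace ℝ (Fin d))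
      nlinarith
    rw [inv_mul_le_iff₀ (by linarith)]
    linarith

/-- discrete intermediate values -/
lemma exists_eq_of_step {f : ℕ → ℕ} (h0 : f 0 = 0) (hs : ∀ k, f (k + 1) ≤ f k + 1) {m n : ℕ}
    (hm : m ≤ f n) : ∃ k, k ≤ n ∧ f k = m := by
  induction n with
  | zero => exact ⟨0, le_refl _, by omega⟩
  | succ n ih =>
    by_cases h : m ≤ f n
    · obtain ⟨k, hk, hk2⟩ := ih h
      exact ⟨k, by omega, hk2⟩
    · exact ⟨n + 1, le_refl _, by have := hs n; omega⟩

/-- the lower bound for the partial sums -/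
theorem lower_partial {d : ℕ} (hd : 1 ≤ d) (π : Equiv.Perm (Fin (d + d))) {m : ℕ} (hm : m ≤ d) :
    ∃ k : Fin (d + d + 1), (m : ℝ) * (d - m) / d ≤
      ‖∑ i : Fin (d + d) with i.val < k.val, lowFam d (π i)‖ ^ 2 := by
  classical
  have hd' : (0 : ℝ) < d := by exact_mod_cast hd
  set A : ℕ → Finset (Fin (d + d)) := fun k =>
    (Finset.univ.filter (fun i : Fin (d + d) => i.val < k)).image π with hA
  set f : ℕ → ℕ := fun k => (Finset.univ.filter (fun j : Fin d => Fin.castAdd d j ∈ A k)).card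
    with hf
  have hmemA : ∀ k a, a ∈ A k ↔ (π.symm a).val < k := by
    intro k a
    simp only [hA, Finset.mem_image, Finset.mem_filter, Finset.mem_univ, true_and]
    constructor
    · rintro ⟨i, hi, rfl⟩
      simpa using hi
    · intro h
      exact ⟨π.symm a, h, by simp⟩
  have hf0 : f 0 = 0 := by
    simp only [hf, hmemA]
    simp
  have hfN : f (d + d) = d := by
    simp only [hf, hmemA]
    have : ∀ j : Fin d, (π.symm (Fin.castAdd d j)).val < d + d := fun j => (π.symm _).2
    simp [this]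
  have hstep : ∀ k, f (k + 1) ≤ f k + 1 := by
    intro k
    simp only [hf, hmemA]
    have h1 : (Finset.univ.filter (fun j : Fin d => (π.symm (Fin.castAdd d j)).val < k + 1)) ⊆
        (Finset.univ.filter (fun j : Fin d => (π.symm (Fin.castAdd d j)).val < k)) ∪
        (Finset.univ.filter (fun j : Fin d => (π.symm (Fin.castAdd d j)).val = k)) := by
      intro j hj
      simp only [Finset.mem_filter, Finset.mem_univ, true_and, Finset.mem_union] at hj ⊢
      omega
    refine (Finset.card_le_card h1).trans ((Finset.card_union_le _ _).trans ?_)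
    apply Nat.add_le_add_left
    rw [Finset.card_le_one]
    intro a ha b hb
    simp only [Finset.mem_filter, Finset.mem_univ, true_and] at ha hb
    have h2 : π.symm (Fin.castAdd d a) = π.symm (Fin.castAdd d b) := Fin.ext (ha.trans hb.symm)
    have h3 := π.symm.injective h2
    exact Fin.castAdd_injective _ _ h3
  obtain ⟨k, hk, hkm⟩ := exists_eq_of_step hf0 hstep (m := m) (n := d + d) (by rw [hfN]; exact hm)
  refine ⟨⟨k, by omega⟩, ?_⟩
  have hsum : ∑ i : Fin (d + d) with i.val < k, lowFam d (π i) = ∑ a ∈ A k, lowFam d a := by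
    simp only [hA]
    rw [Finset.sum_image (fun x _ y _ h => π.injective h)]
  show (m : ℝ) * (d - m) / d ≤ ‖∑ i : Fin (d + d) with i.val < k, lowFam d (π i)‖ ^ 2
  rw [hsum]
  set g : ℝ := ((Finset.univ.filter (fun j : Fin d => Fin.natAdd d j ∈ A k)).card : ℝ) with hg
  have hcoord : ∀ l : Fin d, (∑ a ∈ A k, lowFam d a : EuclideanSpace ℝ (Fin d)) l
      = (if Fin.castAdd d l ∈ A k then 1 else 0) - g / d := by
    intro l
    rw [WithLp.ofLp_sum, Finset.sum_apply]
    have h1 : ∑ a ∈ A k, lowFam d a l = ∑ a, if a ∈ A k then lowFam d a l else 0 := by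
      rw [Finset.sum_ite_mem, Finset.univ_inter]
    rw [h1, Fin.sum_univ_add]
    simp only [lowFam_left, lowFam_right]
    have h2 : ∑ j : Fin d, (if Fin.castAdd d j ∈ A k then
        (EuclideanSpace.single j (1 : ℝ) : EuclideanSpace ℝ (Fin d)) l else 0)
        = if Fin.castAdd d l ∈ A k then 1 else 0 := by
      rw [Finset.sum_eq_single l]
      · simp
      · intro j _ hj
        simp [EuclideanSpace.single_apply, hj.symm]
      · simp
    have h3 : ∑ j : Fin d, (if Fin.natAdd d j ∈ A k then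
        (-((d : ℝ)⁻¹ • ∑ j, EuclideanSpace.single j (1 : ℝ)) : EuclideanSpace ℝ (Fin d)) l else 0)
        = - (g / d) := by
      have h4 : (-((d : ℝ)⁻¹ • ∑ j, EuclideanSpace.single j (1 : ℝ)) : EuclideanSpace ℝ (Fin d)) l
          = -(d : ℝ)⁻¹ := by
        rw [PiLp.neg_apply, PiLp.smul_apply, sum_single_apply, smul_eq_mul, mul_one]
      rw [h4, ← Finset.sum_filter, Finset.sum_const, nsmul_eq_mul, ← hg]
      ring
    rw [h2, h3]
    ring
  rw [EuclideanSpace.norm_sq_eq]
  simp only [hcoord, Real.norm_eq_abs, sq_abs]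
  have h5 : ∀ l : Fin d, ((if Fin.castAdd d l ∈ A k then (1 : ℝ) else 0) - g / d) ^ 2
      = (if Fin.castAdd d l ∈ A k then (1 : ℝ) else 0) * (1 - 2 * (g / d)) + (g / d) ^ 2 := by
    intro l
    split_ifs <;> ring
  simp only [h5]
  rw [Finset.sum_add_distrib, ← Finset.sum_mul, Finset.sum_const, Finset.card_univ,
    Fintype.card_fin, nsmul_eq_mul]
  have h6 : ∑ l : Fin d, (if Fin.castAdd d l ∈ A k then (1 : ℝ) else 0) = m := by
    rw [← hkm]
    simp only [hf]
    rw [Finset.sum_boole]
  rw [h6, div_le_iff₀ hd']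
  have h7 : (g / d) * d = g := by field_simp
  have h8 : ((m : ℝ) * (1 - 2 * (g / d)) + d * (g / d) ^ 2) * d
      = m * d - 2 * m * g + g ^ 2 := by
    field_simp
  rw [h8]
  nlinarith [sq_nonneg (g - m)]

end

end Vale.Agent.P262F
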