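import Vale.Agent.P226.Fibre
import Vale.Agent.P226.PL

/-! M1: the elementary Gaussian lemma (Banaszczyk's `K ⋆ u` with a small constant) -/

namespace Vale.Agent.P262F
open MeasureTheory ProbabilityTheory Set
open scoped ENNReal

namespace M1aux

section oneD

/-- standard normal density, as an `ENNReal`-valued function -/
noncomputable def ph (x : ℝ) : ℝ≥0∞ := gaussianPDF 0 1 x

lemma ph_eq (x : ℝ) : ph x = ENNReal.ofReal ((√(2 * Real.pi))⁻¹ * Real.exp (-x ^ 2 / 2)) := by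
  unfold ph gaussianPDF gaussianPDFReal
  simp

lemma measurable_ph : Measurable ph := measurable_gaussianPDF 0 1

lemma gauss_apply (s : Set ℝ) : gaussianReal 0 1 s = ∫⁻ x in s, ph x :=
  gaussianReal_apply 0 one_ne_zero s

lemma ph_ne_top (x : ℝ) : ph x ≠ ⊤ := by rw [ph_eq]; exact ENNReal.ofReal_ne_top

/-- sup of the density over a set -/
noncomputable def ww (I : Set ℝ) : ℝ≥0∞ := ⨆ a : ℝ, I.indicator ph a

lemma ph_le_ww {I : Set ℝ} {a : ℝ} (ha : a ∈ I) : ph a ≤ ww I := by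
  have := le_iSup (fun a : ℝ => I.indicator ph a) a
  simpa [ww, indicator_of_mem ha] using this

lemma ww_le {I : Set ℝ} {c : ℝ≥0∞} (h : ∀ a ∈ I, ph a ≤ c) : ww I ≤ c := by
  apply iSup_le
  intro a
  by_cases ha : a ∈ I
  · rw [indicator_of_mem ha]; exact h a ha
  · rw [indicator_of_notMem ha]; exact zero_le

lemma ph_ge {s a : ℝ} (h : s ^ 2 ≤ a ^ 2 + 0.2) : ENNReal.ofReal 0.9 * ph a ≤ ph s := by
  rw [ph_eq, ph_eq, ← ENNReal.ofReal_mul (by norm_num)]
  apply ENNReal.ofReal_le_ofReal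
  have hk : 0 < (√(2 * Real.pi))⁻¹ := by positivity
  have h1 : (0.9 : ℝ) ≤ Real.exp (-0.1) := by
    have := Real.add_one_le_exp (-0.1 : ℝ)
    linarith
  calc 0.9 * ((√(2 * Real.pi))⁻¹ * Real.exp (-a ^ 2 / 2))
      ≤ Real.exp (-0.1) * ((√(2 * Real.pi))⁻¹ * Real.exp (-a ^ 2 / 2)) := by gcongr
    _ = (√(2 * Real.pi))⁻¹ * Real.exp (-0.1 + -a ^ 2 / 2) := by rw [Real.exp_add]; ring
    _ ≤ (√(2 * Real.pi))⁻¹ * Real.exp (-s ^ 2 / 2) := by
        gcongr
        linarith

lemma inv_sqrt_le : (√(2 * Real.pi))⁻¹ ≤ 0.4 := by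
  have h1 : (2.5 : ℝ) ≤ √(2 * Real.pi) := by
    apply Real.le_sqrt_of_sq_le
    have := Real.pi_gt_d2
    norm_num at this ⊢
    linarith
  have h2 : (√(2 * Real.pi))⁻¹ ≤ (2.5 : ℝ)⁻¹ := inv_anti₀ (by norm_num) h1
  norm_num at h2 ⊢
  linarith

lemma sqrt_le : √(2 * Real.pi) ≤ 2.51 := by
  apply Real.sqrt_le_iff.2
  constructor
  · norm_num
  · have := Real.pi_lt_d2
    norm_num at this ⊢
    linarith

lemma ww_le_const (I : Set ℝ) : ww I ≤ ENNReal.ofReal 0.4 := by
  apply ww_le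
  intro a _
  rw [ph_eq]
  apply ENNReal.ofReal_le_ofReal
  calc (√(2 * Real.pi))⁻¹ * Real.exp (-a ^ 2 / 2) ≤ 0.4 * 1 := by
        apply mul_le_mul inv_sqrt_le _ (Real.exp_pos _).le (by norm_num)
        apply Real.exp_le_one_iff.2
        have := sq_nonneg a
        linarith
    _ = 0.4 := by norm_num

lemma meas_le_ww_mul (I : Set ℝ) (hI : MeasurableSet I) :
    gaussianReal 0 1 I ≤ ww I * volume I := by
  rw [gauss_apply]
  calc ∫⁻ x in I, ph x ≤ ∫⁻ x in I, ww I := by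
        apply setLIntegral_mono' hI
        intro x hx
        exact ph_le_ww hx
    _ = ww I * volume I := by rw [setLIntegral_const]

lemma meas_le_of_short {I : Set ℝ} (hI : Convex ℝ I) (hm : MeasurableSet I) {s : ℝ} (hs : 0 < s)
    (h : ¬ ∃ a ∈ I, a + s ∈ I) : gaussianReal 0 1 I ≤ ENNReal.ofReal s * ww I := by
  have h1 : volume I ≤ ENNReal.ofReal s := by
    refine le_trans (Real.volume_le_diam I) ?_
    apply Metric.ediam_le
    intro x hx y hy
    rw [edist_dist, Real.dist_eq]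
    apply ENNReal.ofReal_le_ofReal
    rw [abs_le]
    have hoc := hI.ordConnected
    constructor
    · by_contra hc
      push Not at hc
      exact h ⟨x, hx, hoc.out hx hy ⟨by linarith, by linarith⟩⟩
    · by_contra hc
      push Not at hc
      exact h ⟨y, hy, hoc.out hy hx ⟨by linarith, by linarith⟩⟩
  calc gaussianReal 0 1 I ≤ ww I * volume I := meas_le_ww_mul I hm
    _ ≤ ww I * ENNReal.ofReal s := by gcongr
    _ = _ := mul_comm _ _

/-- Chernoff bound -/
lemma tail_le {p : ℝ} (hp : 0 ≤ p) :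
    gaussianReal 0 1 (Ici p) ≤ ENNReal.ofReal (Real.exp (-p ^ 2 / 2)) := by
  have hint : Integrable (fun x : ℝ => Real.exp (p * x)) (gaussianReal 0 1) :=
    integrable_exp_mul_gaussianReal p
  have h := measure_ge_le_exp_mul_mgf (μ := gaussianReal 0 1) (X := id) (t := p) p hp hint
  have h2 : mgf id (gaussianReal 0 1) p = Real.exp (p ^ 2 / 2) := by
    rw [mgf_id_gaussianReal]
    simp
  rw [h2, ← Real.exp_add] at h
  have h3 : {ω : ℝ | p ≤ id ω} = Ici p := rfl
  rw [h3] at h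
  rw [← ENNReal.ofReal_toReal (measure_ne_top (gaussianReal 0 1) (Ici p))]
  apply ENNReal.ofReal_le_ofReal
  refine le_trans h (le_of_eq ?_)
  congr 1
  ring

lemma tail_le' {p : ℝ} (hp : p ≤ 0) :
    gaussianReal 0 1 (Iic p) ≤ ENNReal.ofReal (Real.exp (-p ^ 2 / 2)) := by
  have hint : Integrable (fun x : ℝ => Real.exp (p * x)) (gaussianReal 0 1) :=
    integrable_exp_mul_gaussianReal p
  have h := measure_le_le_exp_mul_mgf (μ := gaussianReal 0 1) (X := id) (t := p) p hp hint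
  have h2 : mgf id (gaussianReal 0 1) p = Real.exp (p ^ 2 / 2) := by
    rw [mgf_id_gaussianReal]
    simp
  rw [h2, ← Real.exp_add] at h
  have h3 : {ω : ℝ | id ω ≤ p} = Iic p := rfl
  rw [h3] at h
  rw [← ENNReal.ofReal_toReal (measure_ne_top (gaussianReal 0 1) (Iic p))]
  apply ENNReal.ofReal_le_ofReal
  refine le_trans h (le_of_eq ?_)
  congr 1
  ring

lemma exp_le_ph (p : ℝ) : ENNReal.ofReal (Real.exp (-p ^ 2 / 2)) ≤ ENNReal.ofReal 2.51 * ph p := by
  rw [ph_eq, ← ENNReal.ofReal_mul (by norm_num)]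
  apply ENNReal.ofReal_le_ofReal
  have hk : 0 < √(2 * Real.pi) := by positivity
  calc Real.exp (-p ^ 2 / 2) = √(2 * Real.pi) * ((√(2 * Real.pi))⁻¹ * Real.exp (-p ^ 2 / 2)) := by
        field_simp
    _ ≤ 2.51 * ((√(2 * Real.pi))⁻¹ * Real.exp (-p ^ 2 / 2)) := by
        gcongr
        exact sqrt_le

lemma meas_le_sqrt {I : Set ℝ} (hI : Convex ℝ I) (hc : IsClosed I) :
    gaussianReal 0 1 I ≤ ENNReal.ofReal 2.51 * ww I := by
  rcases I.eq_empty_or_nonempty with rfl | hne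
  · simp
  have hoc := hI.ordConnected
  by_cases h0 : (0 : ℝ) ∈ I
  · calc gaussianReal 0 1 I ≤ 1 := prob_le_one
      _ = ENNReal.ofReal (Real.exp (-(0:ℝ) ^ 2 / 2)) := by simp
      _ ≤ ENNReal.ofReal 2.51 * ph 0 := exp_le_ph 0
      _ ≤ _ := by gcongr; exact ph_le_ww h0
  · by_cases hpos : ∃ a ∈ I, 0 < a
    · obtain ⟨a, ha, ha0⟩ := hpos
      have hall : ∀ x ∈ I, 0 < x := by
        intro x hx
        by_contra hcon
        push Not at hcon
        exact h0 (hoc.out hx ha ⟨hcon, ha0.le⟩)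
      have hbb : BddBelow I := ⟨0, fun x hx => (hall x hx).le⟩
      have hmem : sInf I ∈ I := hc.csInf_mem hne hbb
      calc gaussianReal 0 1 I ≤ gaussianReal 0 1 (Ici (sInf I)) :=
            measure_mono (fun x hx => csInf_le hbb hx)
        _ ≤ ENNReal.ofReal (Real.exp (-(sInf I) ^ 2 / 2)) := tail_le (hall _ hmem).le
        _ ≤ ENNReal.ofReal 2.51 * ph (sInf I) := exp_le_ph _
        _ ≤ _ := by gcongr; exact ph_le_ww hmem
    · push Not at hpos
      have hbb : BddAbove I := ⟨0, fun x hx => hpos x hx⟩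
      have hmem : sSup I ∈ I := hc.csSup_mem hne hbb
      calc gaussianReal 0 1 I ≤ gaussianReal 0 1 (Iic (sSup I)) :=
            measure_mono (fun x hx => le_csSup hbb hx)
        _ ≤ ENNReal.ofReal (Real.exp (-(sSup I) ^ 2 / 2)) := tail_le' (hpos _ hmem)
        _ ≤ ENNReal.ofReal 2.51 * ph (sSup I) := exp_le_ph _
        _ ≤ _ := by gcongr; exact ph_le_ww hmem

/-- one-dimensional version of `K ⋆ u` -/
def g1 (δ : ℝ) (I : Set ℝ) : Set ℝ :=
  {s | ∃ t ∈ Icc (-2 : ℝ) 2, s + t * δ - δ ∈ I ∧ s + t * δ + δ ∈ I}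

lemma mem_g1_of_center {δ : ℝ} (hδ : 0 < δ) {I : Set ℝ} {s r : ℝ} (h1 : r - δ ∈ I) (h2 : r + δ ∈ I)
    (h3 : |r - s| ≤ 2 * δ) : s ∈ g1 δ I := by
  refine ⟨(r - s) / δ, ?_, ?_, ?_⟩
  · rw [abs_le] at h3
    constructor
    · rw [le_div_iff₀ hδ]; linarith
    · rw [div_le_iff₀ hδ]; linarith
  · rw [div_mul_cancel₀ _ hδ.ne']
    convert h1 using 1
    ring
  · rw [div_mul_cancel₀ _ hδ.ne']
    convert h2 using 1
    ring

lemma mem_g1_interval {δ : ℝ} (hδ : 0 < δ) {I : Set ℝ} (hI : Convex ℝ I) {p q s : ℝ} (hp : p ∈ I)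
    (hq : q ∈ I) (hpq : p + 2 * δ ≤ q) (h1 : p - δ ≤ s) (h2 : s ≤ q + δ) : s ∈ g1 δ I := by
  have hoc := hI.ordConnected
  by_cases hs1 : s < p + δ
  · apply mem_g1_of_center hδ (r := p + δ)
    · simpa using hp
    · exact hoc.out hp hq ⟨by linarith, by linarith⟩
    · rw [abs_le]; constructor <;> linarith
  · push Not at hs1
    by_cases hs2 : q - δ < s
    · apply mem_g1_of_center hδ (r := q - δ)
      · exact hoc.out hp hq ⟨by linarith, by linarith⟩
      · simpa using hq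
      · rw [abs_le]; constructor <;> linarith
    · push Not at hs2
      apply mem_g1_of_center hδ (r := s)
      · exact hoc.out hp hq ⟨by linarith, by linarith⟩
      · exact hoc.out hp hq ⟨by linarith, by linarith⟩
      · simp; linarith

lemma subset_g1 {δ : ℝ} (hδ : 0 < δ) {I : Set ℝ} (hI : Convex ℝ I) (h : ∃ a ∈ I, a + 4 * δ ∈ I) :
    I ⊆ g1 δ I := by
  obtain ⟨a, ha, ha'⟩ := h
  intro s hs
  by_cases h1 : s < a + 2 * δ
  · apply mem_g1_interval hδ hI (p := min a s) (q := a + 4 * δ) _ ha'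
    · have : min a s ≤ a := min_le_left _ _
      linarith
    · have : min a s ≤ s := min_le_right _ _
      linarith
    · linarith
    · rcases min_choice a s with h | h <;> rw [h] <;> assumption
  · push Not at h1
    exact mem_g1_interval hδ hI ha hs (by linarith) (by linarith) (by linarith)

lemma gain {δ : ℝ} (hδ : 0 < δ) (hδ' : δ ≤ 1 / 50) {I : Set ℝ} (hI : Convex ℝ I) (hc : IsClosed I)
    (h1 : ∃ a ∈ I, a + 2 * δ ∈ I) (h2 : ¬ ∃ a ∈ I, a + 0.3 ∈ I) :
    gaussianReal 0 1 I + ENNReal.ofReal (0.9 * δ) * ww I ≤ gaussianReal 0 1 (g1 δ I) := by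
  have hoc := hI.ordConnected
  obtain ⟨a, ha, ha'⟩ := h1
  have hne : I.Nonempty := ⟨a, ha⟩
  have hclose : ∀ x ∈ I, ∀ y ∈ I, y < x + 0.3 := by
    intro x hx y hy
    by_contra hcon
    push Not at hcon
    exact h2 ⟨x, hx, hoc.out hx hy ⟨by linarith, hcon⟩⟩
  have hbb : BddBelow I := ⟨a - 0.3, fun x hx => by
    have := hclose x hx a ha
    linarith⟩
  have hba : BddAbove I := ⟨a + 0.3, fun x hx => (hclose a ha x hx).le⟩
  have hp : sInf I ∈ I := hc.csInf_mem hne hbb
  have hq : sSup I ∈ I := hc.csSup_mem hne hba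
  set p := sInf I with hpdef
  set q := sSup I with hqdef
  have hpI : ∀ x ∈ I, p ≤ x := fun x hx => csInf_le hbb hx
  have hqI : ∀ x ∈ I, x ≤ q := fun x hx => le_csSup hba hx
  have hpq : p + 2 * δ ≤ q := by
    have := hpI a ha
    have := hqI _ ha'
    linarith
  have hpq' : q < p + 0.3 := hclose p hp q hq
  -- the gain interval
  obtain ⟨x0, hJI, hJ1, hJ2, hJ3⟩ : ∃ x0 : ℝ, Disjoint I (Ioo x0 (x0 + δ)) ∧ p - δ ≤ x0 ∧
      x0 + δ ≤ q + δ ∧ ∀ s ∈ Ioo x0 (x0 + δ), ∀ b ∈ I, s ^ 2 ≤ b ^ 2 + 0.2 := by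
    by_cases hp0 : 0 < p
    · refine ⟨p - δ, ?_, le_rfl, by linarith, ?_⟩
      · rw [Set.disjoint_left]
        intro x hx hx'
        have := hpI x hx
        have := hx'.2
        linarith
      · intro s hs b hb
        have hb' := hpI b hb
        have hs1 := hs.1
        have hs2 := hs.2
        by_cases hs0 : 0 ≤ s
        · nlinarith
        · push Not at hs0
          nlinarith [sq_nonneg b]
    · push Not at hp0
      refine ⟨q, ?_, by linarith, le_rfl, ?_⟩
      · rw [Set.disjoint_left]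
        intro x hx hx'
        have := hqI x hx
        have := hx'.1
        linarith
      · intro s hs b hb
        have hb' := hqI b hb
        have hs1 := hs.1
        have hs2 := hs.2
        by_cases hs0 : s ≤ 0
        · nlinarith
        · push Not at hs0
          have : s ≤ 0.32 := by linarith
          nlinarith [sq_nonneg b]
  have hsub : I ∪ Ioo x0 (x0 + δ) ⊆ g1 δ I := by
    rintro s (hs | hs)
    · exact mem_g1_interval hδ hI hp hq hpq (by linarith [hpI s hs]) (by linarith [hqI s hs])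
    · exact mem_g1_interval hδ hI hp hq hpq (by linarith [hs.1]) (by linarith [hs.2])
  have hJ : ENNReal.ofReal (0.9 * δ) * ww I ≤ gaussianReal 0 1 (Ioo x0 (x0 + δ)) := by
    rw [gauss_apply]
    calc ENNReal.ofReal (0.9 * δ) * ww I
        = ∫⁻ x in Ioo x0 (x0 + δ), ENNReal.ofReal 0.9 * ww I := by
          rw [setLIntegral_const, Real.volume_Ioo, ENNReal.ofReal_mul (by norm_num)]
          rw [show x0 + δ - x0 = δ by ring]
          ring
      _ ≤ _ := by
          apply setLIntegral_mono' measurableSet_Ioo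
          intro x hx
          rw [ww, ENNReal.mul_iSup]
          apply iSup_le
          intro b
          by_cases hb : b ∈ I
          · rw [indicator_of_mem hb]
            exact ph_ge (hJ3 x hx b hb)
          · rw [indicator_of_notMem hb]
            simp
  calc gaussianReal 0 1 I + ENNReal.ofReal (0.9 * δ) * ww I
      ≤ gaussianReal 0 1 I + gaussianReal 0 1 (Ioo x0 (x0 + δ)) := by gcongr
    _ = gaussianReal 0 1 (I ∪ Ioo x0 (x0 + δ)) := (measure_union hJI measurableSet_Ioo).symm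
    _ ≤ _ := measure_mono hsub

end oneD

section prod

variable {n : ℕ}

/-- section of a set of the product -/
def sec (K : Set (ℝ × (Fin n → ℝ))) (y : Fin n → ℝ) : Set ℝ := {a | (a, y) ∈ K}

/-- the fibres of length at least `s` -/
def Al (K : Set (ℝ × (Fin n → ℝ))) (s : ℝ) : Set (Fin n → ℝ) :=
  {y | ∃ a ∈ sec K y, a + s ∈ sec K y}

lemma sec_convex {K : Set (ℝ × (Fin n → ℝ))} (hK : Convex ℝ K) (y : Fin n → ℝ) :
    Convex ℝ (sec K y) := by
  intro a ha b hb s t hs ht hst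
  have := hK ha hb hs ht hst
  have e : s • (a, y) + t • (b, y) = (s • a + t • b, y) := by
    ext1
    · simp
    · simp only [Prod.snd_add, Prod.smul_snd]
      rw [← add_smul, hst, one_smul]
  rw [e] at this
  exact this

lemma sec_closed {K : Set (ℝ × (Fin n → ℝ))} (hK : IsClosed K) (y : Fin n → ℝ) :
    IsClosed (sec K y) := hK.preimage (by fun_prop : Continuous fun a : ℝ => (a, y))

lemma proj_meas {C : Set (ℝ × (Fin n → ℝ))} (hC : IsClosed C) :
    MeasurableSet {y : Fin n → ℝ | ∃ a, (a, y) ∈ C} := by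
  have h1 : {y : Fin n → ℝ | ∃ a, (a, y) ∈ C}
      = ⋃ N : ℕ, {y : Fin n → ℝ | ∃ a : Icc (-(N:ℝ)) N, ((a : ℝ), y) ∈ C} := by
    ext y
    simp only [mem_ofPred_eq, mem_iUnion]
    constructor
    · rintro ⟨a, ha⟩
      obtain ⟨N, hN⟩ := exists_nat_ge |a|
      rw [abs_le] at hN
      exact ⟨N, ⟨a, hN⟩, ha⟩
    · rintro ⟨N, a, ha⟩
      exact ⟨a, ha⟩
  rw [h1]
  apply MeasurableSet.iUnion
  intro N
  have h2 : {y : Fin n → ℝ | ∃ a : Icc (-(N:ℝ)) N, ((a : ℝ), y) ∈ C}
      = Prod.snd '' {p : Icc (-(N:ℝ)) N × (Fin n → ℝ) | ((p.1 : ℝ), p.2) ∈ C} := by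
    ext y
    simp only [mem_ofPred_eq, mem_image, Prod.exists, exists_eq_right]
  rw [h2]
  apply IsClosed.measurableSet
  apply isClosedMap_snd_of_compactSpace
  exact hC.preimage (by fun_prop)

lemma Al_meas {K : Set (ℝ × (Fin n → ℝ))} (hK : IsClosed K) (s : ℝ) : MeasurableSet (Al K s) := by
  have : IsClosed {p : ℝ × (Fin n → ℝ) | p ∈ K ∧ (p.1 + s, p.2) ∈ K} :=
    hK.inter (hK.preimage (by fun_prop : Continuous fun p : ℝ × (Fin n → ℝ) => (p.1 + s, p.2)))
  exact proj_meas this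

lemma ww_meas {K : Set (ℝ × (Fin n → ℝ))} (hK : IsClosed K) :
    Measurable (fun y => ww (sec K y)) := by
  apply measurable_of_Ioi
  intro c
  have h1 : (fun y => ww (sec K y)) ⁻¹' Ioi c
      = ⋃ q : ℚ, ⋃ (_ : c < ENNReal.ofReal q),
        {y : Fin n → ℝ | ∃ a, (a, y) ∈ K ∩ {p | (q : ℝ) ≤ gaussianPDFReal 0 1 p.1}} := by
    ext y
    simp only [mem_preimage, mem_Ioi, mem_iUnion, ww, lt_iSup_iff, mem_ofPred_eq, mem_inter_iff]
    constructor
    · rintro ⟨a, ha⟩
      by_cases hm : a ∈ sec K y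
      · rw [indicator_of_mem hm] at ha
        have hc : c ≠ ⊤ := ne_top_of_lt ha
        unfold ph gaussianPDF at ha
        rw [← ENNReal.ofReal_toReal hc] at ha
        have h3 : c.toReal < gaussianPDFReal 0 1 a := by
          by_contra hcon
          push Not at hcon
          exact absurd (ENNReal.ofReal_le_ofReal hcon) (not_le.2 ha)
        obtain ⟨q, hq1, hq2⟩ := exists_rat_btwn h3
        refine ⟨q, ?_, a, hm, hq2.le⟩
        rw [← ENNReal.ofReal_toReal hc]
        apply (ENNReal.ofReal_lt_ofReal_iff _).2 hq1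
        exact lt_of_le_of_lt ENNReal.toReal_nonneg hq1
      · rw [indicator_of_notMem hm] at ha
        exact absurd ha (not_lt.2 zero_le)
    · rintro ⟨q, hq, a, ha, hqa⟩
      refine ⟨a, ?_⟩
      rw [indicator_of_mem (show a ∈ sec K y from ha)]
      exact lt_of_lt_of_le hq (ENNReal.ofReal_le_ofReal hqa)
  rw [h1]
  apply MeasurableSet.iUnion
  intro q
  apply MeasurableSet.iUnion
  intro _
  apply proj_meas
  apply hK.inter
  apply isClosed_le continuous_const
  have : Continuous (gaussianPDFReal 0 1) := by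
    unfold gaussianPDFReal
    fun_prop
  exact this.comp continuous_fst

lemma ph_geom {c : ℝ} (hc0 : 0 < c) (hc1 : c < 1) (a b : ℝ) :
    ph a ^ (1 - c) * ph b ^ c ≤ ph ((1 - c) * a + c * b) := by
  have h1c : 0 < 1 - c := by linarith
  rw [ph_eq, ph_eq, ph_eq]
  rw [ENNReal.ofReal_rpow_of_nonneg (by positivity) h1c.le,
    ENNReal.ofReal_rpow_of_nonneg (by positivity) hc0.le, ← ENNReal.ofReal_mul (by positivity)]
  apply ENNReal.ofReal_le_ofReal
  have hk : 0 < (Real.sqrt (2 * Real.pi))⁻¹ := by positivity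
  rw [Real.mul_rpow hk.le (Real.exp_pos _).le, Real.mul_rpow hk.le (Real.exp_pos _).le]
  have e1 : (Real.sqrt (2 * Real.pi))⁻¹ ^ (1-c) * (Real.sqrt (2 * Real.pi))⁻¹ ^ c
      = (Real.sqrt (2 * Real.pi))⁻¹ := by
    rw [← Real.rpow_add hk]; simp
  calc (Real.sqrt (2 * Real.pi))⁻¹ ^ (1-c) * Real.exp (-a^2/2) ^ (1-c)
        * ((Real.sqrt (2 * Real.pi))⁻¹ ^ c * Real.exp (-b^2/2) ^ c)
      = ((Real.sqrt (2 * Real.pi))⁻¹ ^ (1-c) * (Real.sqrt (2 * Real.pi))⁻¹ ^ c)
        * (Real.exp (-a^2/2) ^ (1-c) * Real.exp (-b^2/2) ^ c) := by ring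
    _ = (Real.sqrt (2 * Real.pi))⁻¹ * Real.exp (-a^2/2 * (1-c) + -b^2/2 * c) := by
        rw [e1, ← Real.exp_mul, ← Real.exp_mul, ← Real.exp_add]
    _ ≤ (Real.sqrt (2 * Real.pi))⁻¹ * Real.exp (-((1-c) * a + c * b)^2/2) := by
        gcongr
        nlinarith [mul_pos h1c hc0, sq_nonneg (a-b), mul_nonneg (mul_pos h1c hc0).le (sq_nonneg (a-b))]

lemma ww_geom {I J L : Set ℝ} {c : ℝ} (hc0 : 0 < c) (hc1 : c < 1)
    (h : ∀ a ∈ I, ∀ b ∈ J, (1 - c) * a + c * b ∈ L) :
    ww I ^ (1 - c) * ww J ^ c ≤ ww L := by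
  have h1c : 0 < 1 - c := by linarith
  unfold ww
  have e1 : (⨆ a : ℝ, I.indicator ph a) ^ (1 - c) = ⨆ a : ℝ, (I.indicator ph a) ^ (1 - c) :=
    (ENNReal.orderIsoRpow (1-c) h1c).map_iSup _
  have e2 : (⨆ a : ℝ, J.indicator ph a) ^ c = ⨆ a : ℝ, (J.indicator ph a) ^ c :=
    (ENNReal.orderIsoRpow c hc0).map_iSup _
  rw [e1, e2, ENNReal.iSup_mul]
  apply iSup_le
  intro a
  rw [ENNReal.mul_iSup]
  apply iSup_le
  intro b
  by_cases ha : a ∈ I
  · by_cases hb : b ∈ J
    · rw [indicator_of_mem ha, indicator_of_mem hb]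
      exact le_trans (ph_geom hc0 hc1 a b) (ph_le_ww (h a ha b hb))
    · rw [indicator_of_notMem hb, ENNReal.zero_rpow_of_pos hc0, mul_zero]
      exact zero_le
  · rw [indicator_of_notMem ha, ENNReal.zero_rpow_of_pos h1c, zero_mul]
    exact zero_le

/-- `W(s)` -/
noncomputable def WW (K : Set (ℝ × (Fin n → ℝ))) (s : ℝ) : ℝ≥0∞ :=
  ∫⁻ y, (Al K s).indicator (fun y => ww (sec K y)) y ∂(Measure.pi (fun _ : Fin n => gaussianReal 0 1))

lemma WW_le {K : Set (ℝ × (Fin n → ℝ))} (s : ℝ) : WW K s ≤ ENNReal.ofReal 0.4 := by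
  unfold WW
  calc _ ≤ ∫⁻ y, ENNReal.ofReal 0.4 ∂(Measure.pi (fun _ : Fin n => gaussianReal 0 1)) := by
        apply lintegral_mono
        intro y
        by_cases h : y ∈ Al K s
        · rw [indicator_of_mem h]; exact ww_le_const _
        · rw [indicator_of_notMem h]; exact zero_le
    _ = _ := by simp

lemma WW_geom {K : Set (ℝ × (Fin n → ℝ))} (hK : Convex ℝ K) (hc : IsClosed K) {c s0 s1 : ℝ}
    (hc0 : 0 < c) (hc1 : c < 1) :
    WW K s0 ^ (1 - c) * WW K s1 ^ c ≤ WW K ((1 - c) * s0 + c * s1) := by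
  have h1c : 0 < 1 - c := by linarith
  have hPL := Vale.Agent.P226.PLprop.pi Vale.Agent.P226.plprop_gaussianReal n
  apply hPL c hc0 hc1 _ _ _ ((ww_meas hc).indicator (Al_meas hc _))
    ((ww_meas hc).indicator (Al_meas hc _)) ((ww_meas hc).indicator (Al_meas hc _))
  intro x y
  by_cases hx : x ∈ Al K s0
  · by_cases hy : y ∈ Al K s1
    · have hcomb : ∀ a ∈ sec K x, ∀ b ∈ sec K y, (1 - c) * a + c * b ∈ sec K ((1 - c) • x + c • y) := by
        intro a ha b hb
        have := hK (x := (a, x)) ha (y := (b, y)) hb h1c.le hc0.le (by ring)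
        simpa [sec] using this
      have hz : (1 - c) • x + c • y ∈ Al K ((1 - c) * s0 + c * s1) := by
        obtain ⟨a, ha, ha'⟩ := hx
        obtain ⟨b, hb, hb'⟩ := hy
        refine ⟨(1 - c) * a + c * b, hcomb a ha b hb, ?_⟩
        have := hcomb _ ha' _ hb'
        convert this using 1
        ring
      rw [indicator_of_mem hx, indicator_of_mem hy, indicator_of_mem hz]
      exact ww_geom hc0 hc1 hcomb
    · rw [indicator_of_notMem hy, ENNReal.zero_rpow_of_pos hc0, mul_zero]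
      exact zero_le
  · rw [indicator_of_notMem hx, ENNReal.zero_rpow_of_pos h1c, zero_mul]
    exact zero_le

lemma Al_anti {K : Set (ℝ × (Fin n → ℝ))} (hK : Convex ℝ K) {s t : ℝ} (hs : 0 ≤ s) (hst : s ≤ t) :
    Al K t ⊆ Al K s := by
  rintro y ⟨a, ha, ha'⟩
  exact ⟨a, ha, (sec_convex hK y).ordConnected.out ha ha' ⟨by linarith, by linarith⟩⟩

lemma WW_anti {K : Set (ℝ × (Fin n → ℝ))} (hK : Convex ℝ K) {s t : ℝ} (hs : 0 ≤ s) (hst : s ≤ t) :
    WW K t ≤ WW K s := by
  unfold WW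
  apply lintegral_mono
  intro y
  exact indicator_le_indicator_of_subset (Al_anti hK hs hst) (fun _ => zero_le) y

lemma mass_le {K : Set (ℝ × (Fin n → ℝ))} (hK : Convex ℝ K) (hc : IsClosed K) :
    ((gaussianReal 0 1).prod (Measure.pi (fun _ : Fin n => gaussianReal 0 1))) K
      ≤ ENNReal.ofReal 0.3 * WW K 0 + ENNReal.ofReal 2.21 * WW K 0.3 := by
  rw [Measure.prod_apply_symm hc.measurableSet]
  unfold WW
  rw [← lintegral_const_mul _ ((ww_meas hc).indicator (Al_meas hc _)),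
    ← lintegral_const_mul _ ((ww_meas hc).indicator (Al_meas hc _)),
    ← lintegral_add_left (((ww_meas hc).indicator (Al_meas hc _)).const_mul _)]
  apply lintegral_mono
  intro y
  show gaussianReal 0 1 (sec K y) ≤ _
  beta_reduce
  by_cases h3 : y ∈ Al K 0.3
  · have h0 : y ∈ Al K 0 := Al_anti hK le_rfl (by norm_num) h3
    rw [indicator_of_mem h3, indicator_of_mem h0, ← add_mul, ← ENNReal.ofReal_add (by norm_num) (by norm_num)]
    have := meas_le_sqrt (sec_convex hK y) (sec_closed hc y)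
    convert this using 3
    norm_num
  · rw [indicator_of_notMem h3]
    by_cases h0 : y ∈ Al K 0
    · rw [indicator_of_mem h0, mul_zero, add_zero]
      exact meas_le_of_short (sec_convex hK y) (sec_closed hc y).measurableSet (by norm_num) h3
    · have he : sec K y = ∅ := by
        rw [Set.eq_empty_iff_forall_notMem]
        intro a ha
        exact h0 ⟨a, ha, by simpa using ha⟩
      rw [he, measure_empty]
      exact zero_le

lemma gain_int {K : Set (ℝ × (Fin n → ℝ))} (hK : Convex ℝ K) (hc : IsClosed K) {δ : ℝ} (hδ : 0 < δ)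
    (hδ' : δ ≤ 1 / 50) (hG : MeasurableSet {p : ℝ × (Fin n → ℝ) | p.1 ∈ g1 δ (sec K p.2)}) :
    ((gaussianReal 0 1).prod (Measure.pi (fun _ : Fin n => gaussianReal 0 1))) K
      + ENNReal.ofReal (2.9 * δ) * WW K (2 * δ)
      ≤ ((gaussianReal 0 1).prod (Measure.pi (fun _ : Fin n => gaussianReal 0 1)))
          {p : ℝ × (Fin n → ℝ) | p.1 ∈ g1 δ (sec K p.2)}
        + (ENNReal.ofReal (2 * δ) * WW K 0 + ENNReal.ofReal (0.9 * δ) * WW K 0.3) := by
  rw [Measure.prod_apply_symm hc.measurableSet, Measure.prod_apply_symm hG]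
  unfold WW
  rw [← lintegral_const_mul _ ((ww_meas hc).indicator (Al_meas hc _)),
    ← lintegral_const_mul _ ((ww_meas hc).indicator (Al_meas hc _)),
    ← lintegral_const_mul _ ((ww_meas hc).indicator (Al_meas hc _)),
    ← lintegral_add_left (((ww_meas hc).indicator (Al_meas hc _)).const_mul _),
    ← lintegral_add_left (measurable_measure_prodMk_right hc.measurableSet),
    ← lintegral_add_left (measurable_measure_prodMk_right hG)]
  apply lintegral_mono
  intro y
  show gaussianReal 0 1 (sec K y) + _ ≤ gaussianReal 0 1 (g1 δ (sec K y)) + _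
  have hcv := sec_convex hK y
  have hcl := sec_closed hc y
  by_cases h3 : y ∈ Al K 0.3
  · have h0 : y ∈ Al K 0 := Al_anti hK le_rfl (by norm_num) h3
    have h2 : y ∈ Al K (2 * δ) := Al_anti hK (by linarith) (by linarith) h3
    have h4 : y ∈ Al K (4 * δ) := Al_anti hK (by linarith) (by linarith) h3
    rw [indicator_of_mem h3, indicator_of_mem h0, indicator_of_mem h2, ← add_mul,
      ← ENNReal.ofReal_add (by linarith) (by linarith)]
    rw [show 2 * δ + 0.9 * δ = 2.9 * δ by ring]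
    gcongr
    exact subset_g1 hδ hcv h4
  · rw [indicator_of_notMem h3, mul_zero, add_zero]
    by_cases h2 : y ∈ Al K (2 * δ)
    · have h0 : y ∈ Al K 0 := Al_anti hK le_rfl (by linarith) h2
      rw [indicator_of_mem h0, indicator_of_mem h2]
      have hg := gain hδ hδ' hcv hcl h2 h3
      rw [show 2.9 * δ = 0.9 * δ + 2 * δ by ring, ENNReal.ofReal_add (by linarith) (by linarith),
        add_mul, ← add_assoc]
      gcongr
    · rw [indicator_of_notMem h2, mul_zero, add_zero]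
      by_cases h0 : y ∈ Al K 0
      · rw [indicator_of_mem h0]
        refine le_trans (meas_le_of_short hcv hcl.measurableSet (by linarith) h2) ?_
        exact le_add_self
      · have he : sec K y = ∅ := by
          rw [Set.eq_empty_iff_forall_notMem]
          intro a ha
          exact h0 ⟨a, ha, by simpa using ha⟩
        rw [he, measure_empty]
        exact zero_le

lemma real_ineq {a d c : ℝ} (ha : 0 < a) (hd : 0.4 * a ≤ d) (hda : d ≤ a) (hc0 : 0 < c)
    (hc1 : c ≤ 2 / 15) : 2 * a + 0.9 * d ≤ 2.9 * (a ^ (1 - c) * d ^ c) := by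
  have hd0 : 0 < d := by nlinarith
  set r := d / a with hr
  have hr1 : r ≤ 1 := (div_le_one ha).2 hda
  have hr0 : 0.4 ≤ r := (le_div_iff₀ ha).2 hd
  have hdr : d = r * a := by rw [hr]; field_simp
  have e1 : a ^ (1 - c) * d ^ c = a * r ^ c := by
    rw [hdr, Real.mul_rpow (by linarith) ha.le, Real.rpow_sub ha, Real.rpow_one]
    have : a ^ c ≠ 0 := (Real.rpow_pos_of_pos ha c).ne'
    field_simp
  have e2 : r ^ ((2:ℝ) / 15) ≤ r ^ c := Real.rpow_le_rpow_of_exponent_ge (by linarith) hr1 hc1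
  have e3 : (0.82 : ℝ) ≤ (0.4 : ℝ) ^ ((2:ℝ) / 15) := by
    have h1 : (0.82 : ℝ) ^ (15 : ℕ) ≤ (0.4 : ℝ) ^ (2 : ℕ) := by norm_num
    have h2 : ((0.82 : ℝ) ^ (15 : ℕ)) ^ ((1:ℝ) / 15) ≤ ((0.4 : ℝ) ^ (2 : ℕ)) ^ ((1:ℝ) / 15) :=
      Real.rpow_le_rpow (by positivity) h1 (by norm_num)
    rw [← Real.rpow_natCast, ← Real.rpow_natCast, ← Real.rpow_mul (by norm_num),
      ← Real.rpow_mul (by norm_num)] at h2
    norm_num at h2 ⊢
    exact h2
  have hl1 : (0:ℝ) ≤ 1 - (r - 0.4) / 0.6 := by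
    rw [sub_nonneg, div_le_one (by norm_num)]; linarith
  have hl2 : (0:ℝ) ≤ (r - 0.4) / 0.6 := div_nonneg (by linarith) (by norm_num)
  have hl3 : 1 - (r - 0.4) / 0.6 + (r - 0.4) / 0.6 = 1 := by ring
  have hcc := (Real.concaveOn_rpow (p := (2:ℝ)/15) (by norm_num) (by norm_num)).2
    (show (0.4:ℝ) ∈ Ici (0:ℝ) by rw [mem_Ici]; norm_num)
    (show (1:ℝ) ∈ Ici (0:ℝ) by rw [mem_Ici]; norm_num) hl1 hl2 hl3
  simp only [smul_eq_mul, Real.one_rpow, mul_one] at hcc
  have e4 : (1 - (r - 0.4) / 0.6) * 0.4 + (r - 0.4) / 0.6 = r := by ring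
  rw [e4] at hcc
  have hlam0 : 0 ≤ 1 - (r - 0.4) / 0.6 := by
    rw [sub_nonneg, div_le_one (by norm_num)]; linarith
  have e5 : 2 + 0.9 * r ≤ 2.9 * r ^ ((2:ℝ)/15) := by
    have h1 : (1 - (r - 0.4) / 0.6) * 0.82 ≤ (1 - (r - 0.4) / 0.6) * (0.4:ℝ) ^ ((2:ℝ)/15) :=
      mul_le_mul_of_nonneg_left e3 hlam0
    have h2 : 2 + 0.9 * r ≤ 2.9 * ((1 - (r - 0.4) / 0.6) * 0.82 + (r - 0.4) / 0.6) := by
      have : (r - 0.4) / 0.6 = (5/3) * (r - 0.4) := by ring
      rw [this]
      linarith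
    linarith
  rw [e1, hdr]
  have h6 : 2 + 0.9 * r ≤ 2.9 * r ^ c := by linarith
  nlinarith [mul_le_mul_of_nonneg_right h6 ha.le]

theorem prod_gain {K : Set (ℝ × (Fin n → ℝ))} (hK : Convex ℝ K) (hc : IsClosed K) {δ : ℝ}
    (hδ : 0 < δ) (hδ' : δ ≤ 1 / 50)
    (hG : MeasurableSet {p : ℝ × (Fin n → ℝ) | p.1 ∈ g1 δ (sec K p.2)})
    (h : ENNReal.ofReal (1 / 2) ≤
      ((gaussianReal 0 1).prod (Measure.pi (fun _ : Fin n => gaussianReal 0 1))) K) :
    ((gaussianReal 0 1).prod (Measure.pi (fun _ : Fin n => gaussianReal 0 1))) K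
      ≤ ((gaussianReal 0 1).prod (Measure.pi (fun _ : Fin n => gaussianReal 0 1)))
          {p : ℝ × (Fin n → ℝ) | p.1 ∈ g1 δ (sec K p.2)} := by
  set μ := (gaussianReal 0 1).prod (Measure.pi (fun _ : Fin n => gaussianReal 0 1)) with hμ
  set G := {p : ℝ × (Fin n → ℝ) | p.1 ∈ g1 δ (sec K p.2)} with hGdef
  have hm := mass_le hK hc
  have hg := gain_int hK hc hδ hδ' hG
  have hgeo := WW_geom (s0 := 0) (s1 := 0.3) hK hc (c := 2 * δ / 0.3) (by positivity)
    (by rw [div_lt_one (by norm_num)]; linarith)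
  have e1 : (1 - 2 * δ / 0.3) * 0 + 2 * δ / 0.3 * 0.3 = 2 * δ := by ring
  rw [e1] at hgeo
  rw [← hμ] at hm hg
  rw [← hGdef] at hg
  have hfin : ∀ s, WW K s ≠ ⊤ := fun s => ne_top_of_le_ne_top ENNReal.ofReal_ne_top (WW_le s)
  obtain ⟨a, ha⟩ : ∃ a, a = (WW K 0).toReal := ⟨_, rfl⟩
  obtain ⟨b, hb⟩ : ∃ b, b = (WW K (2 * δ)).toReal := ⟨_, rfl⟩
  obtain ⟨d, hd⟩ : ∃ d, d = (WW K 0.3).toReal := ⟨_, rfl⟩
  have ha' : WW K 0 = ENNReal.ofReal a := by rw [ha, ENNReal.ofReal_toReal (hfin _)]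
  have hb' : WW K (2 * δ) = ENNReal.ofReal b := by rw [hb, ENNReal.ofReal_toReal (hfin _)]
  have hd' : WW K 0.3 = ENNReal.ofReal d := by rw [hd, ENNReal.ofReal_toReal (hfin _)]
  have ha0 : 0 ≤ a := by rw [ha]; exact ENNReal.toReal_nonneg
  have hb0 : 0 ≤ b := by rw [hb]; exact ENNReal.toReal_nonneg
  have hd0 : 0 ≤ d := by rw [hd]; exact ENNReal.toReal_nonneg
  have ha4 : a ≤ 0.4 := by
    have := WW_le (K := K) 0
    rw [ha'] at this
    exact (ENNReal.ofReal_le_ofReal_iff (by norm_num)).1 this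
  have hda : d ≤ a := by
    have := WW_anti (K := K) hK (s := 0) (t := 0.3) le_rfl (by norm_num)
    rw [ha', hd'] at this
    exact (ENNReal.ofReal_le_ofReal_iff ha0).1 this
  rw [ha', hd', ← ENNReal.ofReal_mul (by norm_num), ← ENNReal.ofReal_mul (by norm_num),
    ← ENNReal.ofReal_add (by positivity) (by positivity)] at hm
  have hm2 : 1 / 2 ≤ 0.3 * a + 2.21 * d :=
    (ENNReal.ofReal_le_ofReal_iff (by positivity)).1 (le_trans h hm)
  have hda4 : 0.4 * a ≤ d := by linarith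
  have hapos : 0 < a := by
    by_contra hcon
    push Not at hcon
    linarith
  have hc15 : 2 * δ / 0.3 ≤ 2 / 15 := by
    rw [div_le_iff₀ (by norm_num)]
    linarith
  have hR := real_ineq hapos hda4 hda (c := 2 * δ / 0.3) (by positivity) hc15
  rw [ha', hd', hb', ENNReal.ofReal_rpow_of_nonneg ha0 (by linarith),
    ENNReal.ofReal_rpow_of_nonneg hd0 (by positivity), ← ENNReal.ofReal_mul (by positivity)] at hgeo
  have hgeo' : a ^ (1 - 2 * δ / 0.3) * d ^ (2 * δ / 0.3) ≤ b :=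
    (ENNReal.ofReal_le_ofReal_iff hb0).1 hgeo
  rw [ha', hd', hb', ← ENNReal.ofReal_mul (by positivity), ← ENNReal.ofReal_mul (by positivity),
    ← ENNReal.ofReal_mul (by positivity), ← ENNReal.ofReal_add (by positivity) (by positivity)] at hg
  have hfinal : 2 * δ * a + 0.9 * δ * d ≤ 2.9 * δ * b := by
    have : 2 * a + 0.9 * d ≤ 2.9 * b := by linarith
    nlinarith [mul_le_mul_of_nonneg_left this hδ.le]
  have h5 : μ K + ENNReal.ofReal (2.9 * δ * b) ≤ μ G + ENNReal.ofReal (2.9 * δ * b) :=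
    le_trans hg (by gcongr)
  exact (ENNReal.add_le_add_iff_right ENNReal.ofReal_ne_top).1 h5

end prod

end M1aux

section final

open M1aux

variable {E : Type*} [NormedAddCommGroup E] [InnerProductSpace ℝ E] [FiniteDimensional ℝ E]
  [MeasurableSpace E] [BorelSpace E]

/-- `K ⋆ u = ((K+u) ∩ (K-u)) + [-2,2] u` -/
def gstar (K : Set E) (u : E) : Set E :=
  {z | ∃ t ∈ Icc (-2 : ℝ) 2, z + t • u - u ∈ K ∧ z + t • u + u ∈ K}

omit [FiniteDimensional ℝ E] [MeasurableSpace E] [BorelSpace E] in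
theorem gstar_convex {K : Set E} (hK : Convex ℝ K) (u : E) : Convex ℝ (gstar K u) := by
  rintro x ⟨s, hs, hs1, hs2⟩ y ⟨t, ht, ht1, ht2⟩ a b ha hb hab
  refine ⟨a * s + b * t, ?_, ?_, ?_⟩
  · exact (convex_Icc (-2 : ℝ) 2) hs ht ha hb hab
  · have h := hK hs1 ht1 ha hb hab
    convert h using 1
    have : u = (a + b) • u := by rw [hab, one_smul]
    rw [smul_sub, smul_add, smul_sub, smul_add, add_smul, mul_smul, mul_smul]
    nth_rewrite 3 [this]
    rw [add_smul]
    abel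
  · have h := hK hs2 ht2 ha hb hab
    convert h using 1
    have : u = (a + b) • u := by rw [hab, one_smul]
    rw [smul_add, smul_add, smul_add, smul_add, add_smul, mul_smul, mul_smul]
    nth_rewrite 3 [this]
    rw [add_smul]
    abel

omit [FiniteDimensional ℝ E] [MeasurableSpace E] [BorelSpace E] in
theorem gstar_closed {K : Set E} (hK : IsClosed K) (u : E) : IsClosed (gstar K u) := by
  have h2 : gstar K u = Prod.snd '' {p : Icc (-2 : ℝ) 2 × E |
      p.2 + (p.1 : ℝ) • u - u ∈ K ∧ p.2 + (p.1 : ℝ) • u + u ∈ K} := by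
    ext y
    simp only [gstar, mem_ofPred_eq, mem_image, Prod.exists, exists_eq_right, Subtype.exists,
      exists_prop]
  rw [h2]
  apply isClosedMap_snd_of_compactSpace
  exact (hK.preimage (by fun_prop : Continuous fun p : Icc (-2 : ℝ) 2 × E =>
    p.2 + (p.1 : ℝ) • u - u)).inter (hK.preimage (by fun_prop : Continuous fun p : Icc (-2 : ℝ) 2 × E =>
    p.2 + (p.1 : ℝ) • u + u))

omit [FiniteDimensional ℝ E] [MeasurableSpace E] [BorelSpace E] in
theorem gstar_symm {K : Set E} (hK : ∀ x ∈ K, -x ∈ K) (u : E) :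
    ∀ x ∈ gstar K u, -x ∈ gstar K u := by
  rintro x ⟨t, ht, h1, h2⟩
  refine ⟨-t, ⟨by linarith [ht.2], by linarith [ht.1]⟩, ?_, ?_⟩
  · convert hK _ h2 using 1
    rw [neg_smul]
    abel
  · convert hK _ h1 using 1
    rw [neg_smul]
    abel

omit [FiniteDimensional ℝ E] [MeasurableSpace E] [BorelSpace E] in
theorem gstar_mem {K : Set E} (hK : Convex ℝ K) {u z : E} (hz : z ∈ gstar K u) :
    z + u ∈ K ∨ z - u ∈ K := by
  obtain ⟨t, ht, h1, h2⟩ := hz
  have hseg : ∀ r : ℝ, r ∈ Icc (t - 1) (t + 1) → z + r • u ∈ K := by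
    intro r hr
    have h := hK h1 h2 (a := (t + 1 - r) / 2) (b := (r - t + 1) / 2) (by linarith [hr.2])
      (by linarith [hr.1]) (by ring)
    convert h using 1
    have e1 : z + t • u - u = z + (t - 1) • u := by rw [sub_smul, one_smul]; abel
    have e2 : z + t • u + u = z + (t + 1) • u := by rw [add_smul, one_smul]; abel
    rw [e1, e2, smul_add, smul_add, smul_smul, smul_smul]
    have e3 : ((t + 1 - r) / 2) • z + ((t + 1 - r) / 2 * (t - 1)) • u
        + (((r - t + 1) / 2) • z + ((r - t + 1) / 2 * (t + 1)) • u)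
        = ((t + 1 - r) / 2 + (r - t + 1) / 2) • z
          + ((t + 1 - r) / 2 * (t - 1) + (r - t + 1) / 2 * (t + 1)) • u := by
      rw [add_smul, add_smul]; abel
    rw [e3, show (t + 1 - r) / 2 + (r - t + 1) / 2 = 1 by ring, one_smul,
      show (t + 1 - r) / 2 * (t - 1) + (r - t + 1) / 2 * (t + 1) = r by ring]
  by_cases h0 : 0 ≤ t
  · left
    have := hseg 1 ⟨by linarith [ht.2], by linarith⟩
    simpa using this
  · right
    push Not at h0
    have := hseg (-1) ⟨by linarith, by linarith [ht.1]⟩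
    simpa [sub_eq_add_neg] using this

theorem gstar_measure {K : Set E} (hK : Convex ℝ K) (hc : IsClosed K)
    (h : 1 / 2 ≤ (stdGaussian E).real K) {u : E} (hu : ‖u‖ ≤ 1 / 50) :
    (stdGaussian E).real K ≤ (stdGaussian E).real (gstar K u) := by
  by_cases hu0 : u = 0
  · subst hu0
    apply measureReal_mono _ (measure_ne_top _ _)
    intro z hz
    exact ⟨0, ⟨by norm_num, by norm_num⟩, by simpa using hz, by simpa using hz⟩
  have hpos : 0 < ‖u‖ := norm_pos_iff.2 hu0
  set v : E := (‖u‖)⁻¹ • u with hv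
  have hv1 : ‖v‖ = 1 := by
    rw [hv, norm_smul, norm_inv, norm_norm]
    field_simp
  have huv : u = ‖u‖ • v := by
    rw [hv, smul_smul, mul_inv_cancel₀ hpos.ne', one_smul]
  obtain ⟨n, L, hLc, hLm, _, hL1⟩ := Vale.Agent.P226.GP.exists_adapted_unit hv1
  have hKc : IsClosed (L ⁻¹' K) := hc.preimage hLc
  have hKv : Convex ℝ (L ⁻¹' K) := hK.linear_preimage L
  have hshift : ∀ (s r : ℝ) (y : Fin n → ℝ), L (s + r * ‖u‖, y) = L (s, y) + r • u := by
    intro s r y
    have e : ((s + r * ‖u‖, y) : ℝ × (Fin n → ℝ)) = (s, y) + (r * ‖u‖) • (1, 0) := by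
      ext1 <;> simp
    rw [e, map_add, map_smul, hL1, mul_smul, ← huv]
  have hGeq : {p : ℝ × (Fin n → ℝ) | p.1 ∈ g1 ‖u‖ (sec (L ⁻¹' K) p.2)} = L ⁻¹' (gstar K u) := by
    ext p
    obtain ⟨s, y⟩ := p
    simp only [g1, sec, mem_ofPred_eq, mem_preimage, gstar]
    constructor
    · rintro ⟨t, ht, h1, h2⟩
      refine ⟨t, ht, ?_, ?_⟩
      · have e : s + t * ‖u‖ - ‖u‖ = s + (t - 1) * ‖u‖ := by ring
        rw [e, hshift, sub_smul, one_smul] at h1
        rw [add_sub_assoc]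
        exact h1
      · have e : s + t * ‖u‖ + ‖u‖ = s + (t + 1) * ‖u‖ := by ring
        rw [e, hshift, add_smul, one_smul] at h2
        rw [add_assoc]
        exact h2
    · rintro ⟨t, ht, h1, h2⟩
      refine ⟨t, ht, ?_, ?_⟩
      · have e : s + t * ‖u‖ - ‖u‖ = s + (t - 1) * ‖u‖ := by ring
        rw [e, hshift, sub_smul, one_smul]
        rw [add_sub_assoc] at h1
        exact h1
      · have e : s + t * ‖u‖ + ‖u‖ = s + (t + 1) * ‖u‖ := by ring
        rw [e, hshift, add_smul, one_smul]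
        rw [add_assoc] at h2
        exact h2
  have hGm : MeasurableSet (L ⁻¹' (gstar K u)) :=
    ((gstar_closed hc u).preimage hLc).measurableSet
  have hmapK : stdGaussian E K = ((gaussianReal 0 1).prod (Measure.pi (fun _ : Fin n => gaussianReal 0 1)))
      (L ⁻¹' K) := by
    rw [← hLm, Measure.map_apply hLc.measurable hc.measurableSet]
  have hmapG : stdGaussian E (gstar K u)
      = ((gaussianReal 0 1).prod (Measure.pi (fun _ : Fin n => gaussianReal 0 1)))
      (L ⁻¹' (gstar K u)) := by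
    rw [← hLm, Measure.map_apply hLc.measurable (gstar_closed hc u).measurableSet]
  have hmain := prod_gain (K := L ⁻¹' K) hKv hKc hpos hu (by rw [hGeq]; exact hGm) (by
    rw [← hmapK]
    unfold Measure.real at h
    rw [← ENNReal.ofReal_toReal (measure_ne_top (stdGaussian E) K)]
    exact ENNReal.ofReal_le_ofReal h)
  rw [hGeq, ← hmapK, ← hmapG] at hmain
  exact ENNReal.toReal_mono (measure_ne_top _ _) hmain

end final

end Vale.Agent.P262F
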