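import Mathlib.Analysis.Seminorm
import Mathlib.Analysis.SpecificLimits.Basic
import Mathlib.Data.Int.Lemmas

/-! M2 rounding: from unbiased signs on sub-families to biased signs, for finitely many seminorms -/

namespace Vale.Agent.P262F
open Filter Topology

variable {ι C : Type*} [Fintype ι] [DecidableEq ι]

private lemma round_dyadic (N : C → Seminorm ℝ (ι → ℝ)) (b : C → ℝ)
    (h : ∀ A : Finset ι, ∃ ε : ι → ℝ, (∀ i, ε i = 1 ∨ ε i = -1) ∧
      ∀ c, N c (fun i => if i ∈ A then ε i else 0) ≤ b c) (J : ℕ) :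
    ∀ a : ι → ℤ, (∀ i, |a i| ≤ 2 ^ J) →
      ∃ ε : ι → ℝ, (∀ i, ε i = 1 ∨ ε i = -1) ∧
        ∀ c, N c (fun i => ε i - (a i : ℝ) / 2 ^ J) ≤ (2 - (1 / 2) ^ J) * b c := by
  induction J with
  | zero =>
    intro a ha
    obtain ⟨ε, h1, h2⟩ := h (Finset.univ.filter (fun i => a i = 0))
    refine ⟨fun i => if a i = 0 then ε i else (a i : ℝ), fun i => ?_, fun c => ?_⟩
    · by_cases hi : a i = 0
      · simp only [hi, if_true]; exact h1 i
      · simp only [hi, if_false]
        have h3 := ha i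
        rw [pow_zero, abs_le] at h3
        have h4 : a i = 1 ∨ a i = -1 := by omega
        rcases h4 with h4 | h4 <;> simp [h4]
    · have e : (fun i => (if a i = 0 then ε i else (a i : ℝ)) - (a i : ℝ) / 2 ^ 0)
          = (fun i => if i ∈ Finset.univ.filter (fun i => a i = 0) then ε i else 0) := by
        ext i
        by_cases hi : a i = 0 <;> simp [hi]
      rw [e]
      have := h2 c
      simpa using (this.trans (by norm_num : b c ≤ (2 - (1 / 2) ^ 0) * b c))
  | succ J ih =>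
    intro a ha
    obtain ⟨ε, h1, h2⟩ := h (Finset.univ.filter (fun i => ¬ Even (a i)))
    -- integer signs
    let s : ι → ℤ := fun i => if Even (a i) then 0 else if ε i = 1 then 1 else -1
    have hs : ∀ i, (s i : ℝ) = if i ∈ Finset.univ.filter (fun i => ¬ Even (a i)) then ε i else 0 := by
      intro i
      by_cases he : Even (a i)
      · simp [s, he]
      · rcases h1 i with h3 | h3
        · simp [s, he, h3]
        · have : ¬ ((-1 : ℝ) = 1) := by norm_num
          simp [s, he, h3, this]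
    have hev : ∀ i, Even (a i + s i) ∧ |a i + s i| ≤ 2 ^ (J + 1) := by
      intro i
      have h3 := ha i
      by_cases he : Even (a i)
      · have : s i = 0 := by simp [s, he]
        rw [this, add_zero]; exact ⟨he, h3⟩
      · have ho : Odd (a i) := Int.not_even_iff_odd.1 he
        have h4 : s i = 1 ∨ s i = -1 := by
          by_cases h5 : ε i = 1
          · left; simp [s, he, h5]
          · right; simp [s, he, h5]
        have h2J : ∃ m : ℤ, (2 : ℤ) ^ (J + 1) = 2 * m := ⟨2 ^ J, by rw [pow_succ]; ring⟩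
        obtain ⟨m, hm⟩ := h2J
        obtain ⟨k, hk⟩ := ho
        rw [hm] at h3 ⊢
        rw [abs_le] at h3 ⊢
        rcases h4 with h4 | h4
        · rw [h4]
          refine ⟨⟨k + 1, by omega⟩, by omega, by omega⟩
        · rw [h4]
          refine ⟨⟨k, by omega⟩, by omega, by omega⟩
    choose a' ha' using fun i => (hev i).1
    have ha2 : ∀ i, |a' i| ≤ 2 ^ J := by
      intro i
      have h3 := (hev i).2
      rw [ha' i] at h3
      have h2J : (2 : ℤ) ^ (J + 1) = 2 * 2 ^ J := by rw [pow_succ]; ring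
      rw [h2J, abs_le] at h3
      rw [abs_le]
      constructor <;> omega
    obtain ⟨δ, h3, h4⟩ := ih a' ha2
    refine ⟨δ, h3, fun c => ?_⟩
    have e : (fun i => δ i - (a i : ℝ) / 2 ^ (J + 1))
        = (fun i => δ i - (a' i : ℝ) / 2 ^ J)
          + ((1 / 2 : ℝ) ^ (J + 1)) • (fun i =>
            if i ∈ Finset.univ.filter (fun i => ¬ Even (a i)) then ε i else 0) := by
      ext i
      simp only [Pi.add_apply, Pi.smul_apply, smul_eq_mul]
      rw [← hs i]
      have h5 : (a i : ℝ) + (s i : ℝ) = (a' i : ℝ) + (a' i : ℝ) := by exact_mod_cast ha' i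
      have h6 : (a i : ℝ) = 2 * (a' i : ℝ) - (s i : ℝ) := by linarith
      rw [h6, one_div, inv_pow, pow_succ]
      have : (2 : ℝ) ^ J ≠ 0 := by positivity
      field_simp
      ring
    rw [e]
    have h5 := (N c).add_le' (fun i => δ i - (a' i : ℝ) / 2 ^ J)
      (((1 / 2 : ℝ) ^ (J + 1)) • (fun i =>
            if i ∈ Finset.univ.filter (fun i => ¬ Even (a i)) then ε i else 0))
    have h6 := map_smul_eq_mul (N c) ((1 / 2 : ℝ) ^ (J + 1)) (fun i =>
            if i ∈ Finset.univ.filter (fun i => ¬ Even (a i)) then ε i else 0)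
    have h7 : ‖((1 / 2 : ℝ) ^ (J + 1))‖ = (1 / 2) ^ (J + 1) := by
      rw [Real.norm_eq_abs, abs_of_pos (by positivity)]
    rw [h7] at h6
    have h8 := h2 c
    have h9 := h4 c
    have h10 : (0 : ℝ) < (1 / 2) ^ (J + 1) := by positivity
    have h11 : (1 / 2 : ℝ) ^ (J + 1) = 1 / 2 * (1 / 2) ^ J := by rw [pow_succ]; ring
    have h12 := mul_le_mul_of_nonneg_left h8 h10.le
    calc N c _ ≤ N c (fun i => δ i - (a' i : ℝ) / 2 ^ J)
        + N c (((1 / 2 : ℝ) ^ (J + 1)) • (fun i =>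
            if i ∈ Finset.univ.filter (fun i => ¬ Even (a i)) then ε i else 0)) := h5
      _ ≤ (2 - (1 / 2) ^ J) * b c + (1 / 2) ^ (J + 1) * b c := by
          rw [h6]; exact add_le_add h9 h12
      _ = (2 - (1 / 2) ^ (J + 1)) * b c := by rw [h11]; ring

/-- **Rounding lemma.** -/
theorem round_signs [Finite C] (N : C → Seminorm ℝ (ι → ℝ)) (b : C → ℝ) (hb : ∀ c, 0 < b c)
    (h : ∀ A : Finset ι, ∃ ε : ι → ℝ, (∀ i, ε i = 1 ∨ ε i = -1) ∧
      ∀ c, N c (fun i => if i ∈ A then ε i else 0) ≤ b c)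
    (x : ι → ℝ) (hx : ∀ i, |x i| ≤ 1) :
    ∃ ε : ι → ℝ, (∀ i, ε i = 1 ∨ ε i = -1) ∧ ∀ c, N c (fun i => ε i - x i) ≤ 3 * b c := by
  -- error bound
  have herr : ∀ c, ∀ J : ℕ, ∀ y : ι → ℝ, (∀ i, |y i| ≤ (1 / 2) ^ J) →
      N c y ≤ (1 / 2) ^ J * ∑ i, N c (Pi.single i 1) := by
    intro c J y hy
    have e : y = ∑ i, y i • (Pi.single i (1 : ℝ) : ι → ℝ) := by
      ext j
      simp [Finset.sum_apply, Pi.single_apply]
    calc N c y = N c (∑ i, y i • (Pi.single i (1 : ℝ) : ι → ℝ)) := by rw [← e]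
      _ ≤ ∑ i, N c (y i • (Pi.single i (1 : ℝ) : ι → ℝ)) := by
          have := Finset.le_sum_of_subadditive (N c) (map_zero (N c)).le (fun u v => map_add_le_add (N c) u v)
            Finset.univ (fun i => y i • (Pi.single i (1 : ℝ) : ι → ℝ))
          exact this
      _ ≤ ∑ i, (1 / 2) ^ J * N c (Pi.single i 1) := by
          refine Finset.sum_le_sum (fun i _ => ?_)
          rw [map_smul_eq_mul, Real.norm_eq_abs]
          exact mul_le_mul_of_nonneg_right (hy i) (apply_nonneg (N c) _)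
      _ = (1 / 2) ^ J * ∑ i, N c (Pi.single i 1) := by rw [Finset.mul_sum]
  have hJ : ∃ J : ℕ, ∀ c, (1 / 2 : ℝ) ^ J * ∑ i, N c (Pi.single i 1) ≤ b c := by
    have h1 : ∀ᶠ J : ℕ in atTop, ∀ c, (1 / 2 : ℝ) ^ J * ∑ i, N c (Pi.single i 1) ≤ b c := by
      rw [eventually_all]
      intro c
      have h2 : Tendsto (fun J : ℕ => (1 / 2 : ℝ) ^ J * ∑ i, N c (Pi.single i 1)) atTop
          (𝓝 (0 * ∑ i, N c (Pi.single i 1))) :=
        (tendsto_pow_atTop_nhds_zero_of_lt_one (by norm_num) (by norm_num)).mul_const _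
      rw [zero_mul] at h2
      exact (h2.eventually (gt_mem_nhds (hb c))).mono (fun J hJ => le_of_lt hJ)
    exact h1.exists
  obtain ⟨J, hJ⟩ := hJ
  let a : ι → ℤ := fun i => ⌊x i * 2 ^ J⌋
  have h2J : (0 : ℝ) < 2 ^ J := by positivity
  have ha : ∀ i, |a i| ≤ 2 ^ J := by
    intro i
    have h1 := abs_le.1 (hx i)
    rw [abs_le]
    constructor
    · apply Int.le_floor.2
      push_cast
      nlinarith
    · have : (⌊x i * 2 ^ J⌋ : ℝ) ≤ (2 : ℝ) ^ J := by
        refine (Int.floor_le _).trans ?_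
        nlinarith
      have h3 : ((a i : ℤ) : ℝ) ≤ ((2 ^ J : ℤ) : ℝ) := by push_cast; exact this
      exact Int.cast_le.1 h3
  obtain ⟨ε, h1, h2⟩ := round_dyadic N b h J a ha
  refine ⟨ε, h1, fun c => ?_⟩
  have hd : ∀ i, |(a i : ℝ) / 2 ^ J - x i| ≤ (1 / 2) ^ J := by
    intro i
    have h3 := Int.floor_le (x i * 2 ^ J)
    have h4 := Int.lt_floor_add_one (x i * 2 ^ J)
    have h5 : (a i : ℝ) / 2 ^ J - x i = ((a i : ℝ) - x i * 2 ^ J) / 2 ^ J := by
      field_simp
    rw [h5, abs_div, abs_of_pos h2J, one_div, inv_pow, div_le_iff₀ h2J, inv_mul_cancel₀ h2J.ne',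
      abs_le]
    constructor
    · show -1 ≤ (⌊x i * 2 ^ J⌋ : ℝ) - x i * 2 ^ J
      linarith
    · show (⌊x i * 2 ^ J⌋ : ℝ) - x i * 2 ^ J ≤ 1
      linarith
  have e : (fun i => ε i - x i)
      = (fun i => ε i - (a i : ℝ) / 2 ^ J) + (fun i => (a i : ℝ) / 2 ^ J - x i) := by
    ext i
    simp only [Pi.add_apply]
    ring
  rw [e]
  have h3 := map_add_le_add (N c) (fun i => ε i - (a i : ℝ) / 2 ^ J) (fun i => (a i : ℝ) / 2 ^ J - x i)
  have h4 := herr c J (fun i => (a i : ℝ) / 2 ^ J - x i) hd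
  have h5 := h2 c
  have h6 := hJ c
  have h7 : (0 : ℝ) < (1 / 2) ^ J := by positivity
  have h8 : (2 - (1 / 2 : ℝ) ^ J) * b c ≤ 2 * b c := by
    have := mul_pos h7 (hb c)
    nlinarith
  linarith

end Vale.Agent.P262F
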