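import Mathlib.Probability.Distributions.Gaussian.Multivariate
import Mathlib.Analysis.SpecialFunctions.Gaussian.GaussianIntegral
import Mathlib.MeasureTheory.Integral.Pi

/-! M2 tails: Gaussian tail bounds for the constraint sets -/

namespace Vale.Agent.P262F
open MeasureTheory ProbabilityTheory Set

private lemma one_int : ∫ x, Real.exp (1 / 4 * x ^ 2) ∂(gaussianReal 0 1) = √2 := by
  rw [integral_gaussianReal_eq_integral_smul (by norm_num)]
  have h1 : ∀ x : ℝ, gaussianPDFReal 0 1 x • Real.exp (1 / 4 * x ^ 2)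
      = (√(2 * Real.pi))⁻¹ * Real.exp (-(1 / 4) * x ^ 2) := by
    intro x
    rw [gaussianPDFReal, smul_eq_mul, NNReal.coe_one, mul_one, mul_assoc, ← Real.exp_add]
    congr 2; ring
  rw [integral_congr_ae (Filter.Eventually.of_forall h1), integral_const_mul, integral_gaussian]
  have h2 : Real.pi / (1 / 4) = 2 * (2 * Real.pi) := by ring
  have h4 : √(2 * (2 * Real.pi)) = √2 * √(2 * Real.pi) := Real.sqrt_mul (by norm_num) _
  have h3 : 0 < √(2 * Real.pi) := Real.sqrt_pos.2 (by positivity)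
  rw [h2, h4, mul_comm (√2), ← mul_assoc, inv_mul_cancel₀ h3.ne', one_mul]

private lemma one_integrable : Integrable (fun x : ℝ => Real.exp (1 / 4 * x ^ 2)) (gaussianReal 0 1) := by
  by_contra h
  have := integral_undef h
  rw [one_int] at this
  have : (0 : ℝ) < √2 := Real.sqrt_pos.2 (by norm_num)
  linarith

private lemma markov {Ω : Type*} [MeasurableSpace Ω] (μ : Measure Ω) [IsProbabilityMeasure μ]
    (f : Ω → ℝ) (M : ℝ) (hi : Integrable (fun x => Real.exp (f x)) μ)
    (hM : ∫ x, Real.exp (f x) ∂μ ≤ M) (a : ℝ) :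
    μ.real {x | a < f x} ≤ M * Real.exp (-a) := by
  have h1 := mul_meas_ge_le_integral_of_nonneg (μ := μ)
    (Filter.Eventually.of_forall (fun x => (Real.exp_pos (f x)).le)) hi (Real.exp a)
  have h2 : μ.real {x | a < f x} ≤ μ.real {x | Real.exp a ≤ Real.exp (f x)} :=
    measureReal_mono (fun x hx => Real.exp_le_exp.2 (le_of_lt hx))
  have h3 : 0 < Real.exp a := Real.exp_pos a
  have h4 : Real.exp a * μ.real {x | a < f x} ≤ M :=
    le_trans (mul_le_mul_of_nonneg_left h2 h3.le) (le_trans h1 hM)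
  have h5 : Real.exp (-a) * Real.exp a = 1 := by rw [← Real.exp_add]; simp
  calc μ.real {x | a < f x} = (Real.exp a * μ.real {x | a < f x}) * Real.exp (-a) := by
        rw [mul_assoc, mul_comm, mul_assoc, h5, mul_one]
    _ ≤ M * Real.exp (-a) := mul_le_mul_of_nonneg_right h4 (Real.exp_pos _).le

private lemma prod_int {κ : Type*} [Fintype κ] [DecidableEq κ] (S : Finset κ) :
    Integrable (fun z : EuclideanSpace ℝ κ => Real.exp (∑ k ∈ S, z k ^ 2 / 4))
      (stdGaussian (EuclideanSpace ℝ κ)) ∧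
    ∫ z, Real.exp (∑ k ∈ S, z k ^ 2 / 4) ∂(stdGaussian (EuclideanSpace ℝ κ))
      = (√2) ^ S.card := by
  have hf : ∀ z : EuclideanSpace ℝ κ, Real.exp (∑ k ∈ S, z k ^ 2 / 4)
      = ∏ k, (if k ∈ S then Real.exp (1 / 4 * z k ^ 2) else 1) := by
    intro z
    rw [Real.exp_sum, Finset.prod_ite_mem, Finset.univ_inter]
    refine Finset.prod_congr rfl (fun k _ => ?_)
    congr 1; ring
  have hm : Measurable (WithLp.toLp 2 : (κ → ℝ) → EuclideanSpace ℝ κ) := by fun_prop
  have hcont : Continuous (fun z : EuclideanSpace ℝ κ => Real.exp (∑ k ∈ S, z k ^ 2 / 4)) := by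
    fun_prop
  have hint : ∀ k : κ, Integrable (fun x : ℝ => if k ∈ S then Real.exp (1 / 4 * x ^ 2) else 1)
      (gaussianReal 0 1) := by
    intro k
    by_cases hk : k ∈ S
    · simpa [hk] using one_integrable
    · simp only [hk, if_false]; exact integrable_const (1 : ℝ)
  have h1 := Integrable.fintype_prod (μ := fun _ : κ => gaussianReal 0 1) hint
  rw [← map_pi_eq_stdGaussian]
  constructor
  · rw [integrable_map_measure hcont.aestronglyMeasurable hm.aemeasurable]
    refine h1.congr (Filter.Eventually.of_forall (fun x => ?_))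
    show _ = Real.exp (∑ k ∈ S, (WithLp.toLp 2 x : EuclideanSpace ℝ κ) k ^ 2 / 4)
    rw [hf]
  · rw [integral_map hm.aemeasurable hcont.aestronglyMeasurable]
    have h2 : ∀ x : κ → ℝ, Real.exp (∑ k ∈ S, (WithLp.toLp 2 x : EuclideanSpace ℝ κ) k ^ 2 / 4)
        = ∏ k, (fun (k : κ) (t : ℝ) => if k ∈ S then Real.exp (1 / 4 * t ^ 2) else 1) k (x k) := by
      intro x; rw [hf]
    have h4 := integral_fintype_prod_eq_prod (μ := fun _ : κ => gaussianReal 0 1)
      (fun (k : κ) (t : ℝ) => if k ∈ S then Real.exp (1 / 4 * t ^ 2) else (1 : ℝ))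
    rw [integral_congr_ae (Filter.Eventually.of_forall h2), h4]
    have h3 : ∀ k : κ, ∫ t, (if k ∈ S then Real.exp (1 / 4 * t ^ 2) else 1) ∂(gaussianReal 0 1)
        = if k ∈ S then √2 else 1 := by
      intro k
      by_cases hk : k ∈ S
      · simp only [hk, if_true]; exact one_int
      · simp [hk]
    simp_rw [h3]
    rw [Finset.prod_ite_mem, Finset.univ_inter, Finset.prod_const]

theorem tail_x {κ : Type*} [Fintype κ] [DecidableEq κ] (S : Finset κ) (β : ℝ) :
    (stdGaussian (EuclideanSpace ℝ κ)).real {z | β < ∑ k ∈ S, z k ^ 2}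
      ≤ (2 : ℝ) ^ ((S.card : ℝ) / 2) * Real.exp (-(β / 4)) := by
  obtain ⟨h1, h2⟩ := prod_int S
  have h3 := markov (stdGaussian (EuclideanSpace ℝ κ)) (fun z => ∑ k ∈ S, z k ^ 2 / 4)
    ((√2) ^ S.card) h1 h2.le (β / 4)
  have h4 : (√2) ^ S.card = (2 : ℝ) ^ ((S.card : ℝ) / 2) := by
    rw [Real.sqrt_eq_rpow, ← Real.rpow_natCast, ← Real.rpow_mul (by norm_num)]
    congr 1; ring
  have h5 : {z : EuclideanSpace ℝ κ | β < ∑ k ∈ S, z k ^ 2}
      = {z | β / 4 < ∑ k ∈ S, z k ^ 2 / 4} := by
    ext z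
    simp only [Set.mem_ofPred_eq]
    rw [← Finset.sum_div]
    constructor
    · intro h; linarith
    · intro h; linarith
  rw [h5, ← h4]
  exact h3

/-- law of a linear form -/
private lemma lin_law {κ : Type*} [Fintype κ] (v : κ → ℝ) (h : ℝ) (hh : 0 < h)
    (hv : ∑ i, v i ^ 2 = h) :
    (stdGaussian (EuclideanSpace ℝ κ)).map (fun z => (∑ i, v i * z i) / √h)
      = gaussianReal 0 1 := by
  let w : EuclideanSpace ℝ κ := WithLp.toLp 2 (fun i => v i / √h)
  have hs : 0 < √h := Real.sqrt_pos.2 hh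
  have hw : ‖w‖ = 1 := by
    rw [EuclideanSpace.norm_eq]
    have : ∑ i, ‖w i‖ ^ 2 = 1 := by
      have e : ∀ i, ‖w i‖ ^ 2 = v i ^ 2 / h := by
        intro i
        show ‖v i / √h‖ ^ 2 = _
        rw [Real.norm_eq_abs, sq_abs, div_pow, Real.sq_sqrt hh.le]
      simp_rw [e]
      rw [← Finset.sum_div, hv, div_self hh.ne']
    rw [this, Real.sqrt_one]
  have h1 := IsGaussian.map_eq_gaussianReal (μ := stdGaussian (EuclideanSpace ℝ κ))
    (innerSL ℝ w)
  rw [integral_strongDual_stdGaussian, variance_dual_stdGaussian, innerSL_apply_norm, hw] at h1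
  have h2 : (fun z : EuclideanSpace ℝ κ => (∑ i, v i * z i) / √h) = ⇑(innerSL ℝ w) := by
    ext z
    rw [innerSL_apply_apply, PiLp.inner_apply, Finset.sum_div]
    refine Finset.sum_congr rfl (fun i _ => ?_)
    show v i * z i / √h = _
    simp only [RCLike.inner_apply, conj_trivial]
    show v i * z i / √h = z i * (v i / √h)
    ring
  rw [h2, h1]
  congr 1
  simp

theorem tail_y {κ R : Type*} [Fintype κ] [Fintype R] (φ : R → κ → ℝ) {H η : ℝ} (hH0 : 0 < H)
    (hH : ∑ r, ∑ i, φ r i ^ 2 ≤ H) :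
    (stdGaussian (EuclideanSpace ℝ κ)).real {z | η < ∑ r, (∑ i, φ r i * z i) ^ 2}
      ≤ √2 * Real.exp (-(η / (4 * H))) := by
  classical
  set γ := stdGaussian (EuclideanSpace ℝ κ) with hγ
  let hr : R → ℝ := fun r => ∑ i, φ r i ^ 2
  have hr0 : ∀ r, 0 ≤ hr r := fun r => Finset.sum_nonneg (fun i _ => sq_nonneg _)
  have hrH : ∑ r, hr r ≤ H := hH
  -- pointwise bound
  let F : EuclideanSpace ℝ κ → ℝ := fun z => (∑ r, (∑ i, φ r i * z i) ^ 2) / (4 * H)
  let G : EuclideanSpace ℝ κ → ℝ := fun z =>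
    (1 - ∑ r, hr r / H) + ∑ r, hr r / H * Real.exp (1 / 4 * ((∑ i, φ r i * z i) / √(hr r)) ^ 2)
  have hFG : ∀ z, Real.exp (F z) ≤ G z := by
    intro z
    have hcv := convexOn_exp
    -- weights : option type
    let wt : Option R → ℝ := fun o => o.elim (1 - ∑ r, hr r / H) (fun r => hr r / H)
    let pt : Option R → ℝ := fun o =>
      o.elim 0 (fun r => 1 / 4 * ((∑ i, φ r i * z i) / √(hr r)) ^ 2)
    have hs1 : ∑ r, hr r / H ≤ 1 := by
      rw [← Finset.sum_div, div_le_one hH0]; exact hrH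
    have hw0 : ∀ o ∈ (Finset.univ : Finset (Option R)), 0 ≤ wt o := by
      intro o _
      cases o with
      | none => show 0 ≤ 1 - ∑ r, hr r / H; linarith
      | some r => exact div_nonneg (hr0 r) hH0.le
    have hw1 : ∑ o, wt o = 1 := by
      rw [Fintype.sum_option]
      show (1 - ∑ r, hr r / H) + ∑ r, hr r / H = 1
      ring
    have hj := hcv.map_sum_le (t := Finset.univ) (w := wt) (p := pt) hw0 hw1
      (fun _ _ => mem_univ _)
    rw [Fintype.sum_option, Fintype.sum_option] at hj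
    have e1 : wt none • pt none + ∑ r, wt (some r) • pt (some r) = F z := by
      show (1 - ∑ r, hr r / H) • (0 : ℝ) + ∑ r, (hr r / H) • (1 / 4 * ((∑ i, φ r i * z i) / √(hr r)) ^ 2)
        = (∑ r, (∑ i, φ r i * z i) ^ 2) / (4 * H)
      rw [smul_zero, zero_add, Finset.sum_div]
      refine Finset.sum_congr rfl (fun r _ => ?_)
      rcases (hr0 r).eq_or_lt with h0 | h0
      · have hz : ∀ i, φ r i = 0 := by
          intro i
          have := (Finset.sum_eq_zero_iff_of_nonneg (fun i _ => sq_nonneg (φ r i))).1 h0.symm i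
            (Finset.mem_univ i)
          exact pow_eq_zero_iff (by norm_num) |>.1 this
        simp [hz]
      · rw [smul_eq_mul, div_pow, Real.sq_sqrt h0.le]
        field_simp
    have e2 : wt none • Real.exp (pt none) + ∑ r, wt (some r) • Real.exp (pt (some r)) = G z := by
      show (1 - ∑ r, hr r / H) • Real.exp 0 + ∑ r, (hr r / H) •
        Real.exp (1 / 4 * ((∑ i, φ r i * z i) / √(hr r)) ^ 2) = G z
      rw [Real.exp_zero, smul_eq_mul, mul_one]
      rfl
    rw [e1, e2] at hj
    exact hj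
  -- integrals of the pieces
  have hpc : ∀ r, Integrable (fun z : EuclideanSpace ℝ κ =>
      hr r / H * Real.exp (1 / 4 * ((∑ i, φ r i * z i) / √(hr r)) ^ 2)) γ ∧
      ∫ z, hr r / H * Real.exp (1 / 4 * ((∑ i, φ r i * z i) / √(hr r)) ^ 2) ∂γ = hr r / H * √2 := by
    intro r
    rcases (hr0 r).eq_or_lt with h0 | h0
    · have hz : hr r = 0 := h0.symm
      rw [hz]
      simp
    · have hl := lin_law (φ r) (hr r) h0 rfl
      have hmz : Measurable (fun z : EuclideanSpace ℝ κ => (∑ i, φ r i * z i) / √(hr r)) := by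
        fun_prop
      have hme : AEStronglyMeasurable (fun x : ℝ => Real.exp (1 / 4 * x ^ 2))
          (γ.map (fun z => (∑ i, φ r i * z i) / √(hr r))) := by
        apply Continuous.aestronglyMeasurable; fun_prop
      constructor
      · have hi : Integrable (fun x : ℝ => Real.exp (1 / 4 * x ^ 2))
            (γ.map (fun z => (∑ i, φ r i * z i) / √(hr r))) := by
          rw [hl]; exact one_integrable
        have := (integrable_map_measure hme hmz.aemeasurable).1 hi
        exact this.const_mul _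
      · rw [integral_const_mul]
        congr 1
        have h5 := integral_map hmz.aemeasurable hme
        rw [← h5, hl]
        exact one_int
  have hGi : Integrable G γ :=
    (integrable_const _).add (integrable_finsetSum _ (fun r _ => (hpc r).1))
  have hGv : ∫ z, G z ∂γ ≤ √2 := by
    have : ∫ z, G z ∂γ = (1 - ∑ r, hr r / H) + ∑ r, hr r / H * √2 := by
      show ∫ z, ((1 - ∑ r, hr r / H) + ∑ r, hr r / H *
        Real.exp (1 / 4 * ((∑ i, φ r i * z i) / √(hr r)) ^ 2)) ∂γ = _
      rw [integral_add (integrable_const _) (integrable_finsetSum _ (fun r _ => (hpc r).1)),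
        integral_finsetSum _ (fun r _ => (hpc r).1)]
      simp_rw [fun r => (hpc r).2]
      simp
    rw [this, ← Finset.sum_mul]
    have hs1 : ∑ r, hr r / H ≤ 1 := by
      rw [← Finset.sum_div, div_le_one hH0]; exact hrH
    have h2 : (1 : ℝ) ≤ √2 := by
      rw [show (1 : ℝ) = √1 by simp]; exact Real.sqrt_le_sqrt (by norm_num)
    nlinarith
  have hFi : Integrable (fun z => Real.exp (F z)) γ := by
    refine hGi.mono' ?_ (Filter.Eventually.of_forall (fun z => ?_))
    · apply Continuous.aestronglyMeasurable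
      show Continuous (fun z : EuclideanSpace ℝ κ =>
        Real.exp ((∑ r, (∑ i, φ r i * z i) ^ 2) / (4 * H)))
      fun_prop
    · rw [Real.norm_eq_abs, abs_of_pos (Real.exp_pos _)]; exact hFG z
  have hFv : ∫ z, Real.exp (F z) ∂γ ≤ √2 := le_trans (integral_mono hFi hGi hFG) hGv
  have hm := markov γ F (√2) hFi hFv (η / (4 * H))
  refine le_trans (measureReal_mono (fun z hz => ?_)) hm
  show η / (4 * H) < (∑ r, (∑ i, φ r i * z i) ^ 2) / (4 * H)
  exact div_lt_div_of_pos_right hz (by positivity)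

end Vale.Agent.P262F
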