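import Vale.Agent.P262F.M2Core
import Vale.Agent.P262F.M2Tails

/-! M2: the unbiased signs theorem -/

namespace Vale.Agent.P262F
open MeasureTheory ProbabilityTheory Set

/-- convexity of the square of a linear functional -/
lemma convexOn_linear_sq {E : Type*} [AddCommGroup E] [Module ℝ E] (f : E →ₗ[ℝ] ℝ) :
    ConvexOn ℝ univ (fun z => (f z) ^ 2) := by
  have h : ConvexOn ℝ univ (fun x : ℝ => x ^ 2) := Even.convexOn_pow (by norm_num)
  have h' := h.comp_linearMap f
  rw [preimage_univ] at h'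
  exact h'

/-- a symmetric closed convex set defined by finitely many squares -/
lemma sq_set {κ R : Type*} [Fintype κ] (S : Finset R) (φ : R → κ → ℝ) (β : ℝ) :
    Convex ℝ {z : EuclideanSpace ℝ κ | ∑ r ∈ S, (∑ i, φ r i * z i) ^ 2 ≤ β} ∧
    IsClosed {z : EuclideanSpace ℝ κ | ∑ r ∈ S, (∑ i, φ r i * z i) ^ 2 ≤ β} ∧
    ∀ z ∈ {z : EuclideanSpace ℝ κ | ∑ r ∈ S, (∑ i, φ r i * z i) ^ 2 ≤ β},
      -z ∈ {z : EuclideanSpace ℝ κ | ∑ r ∈ S, (∑ i, φ r i * z i) ^ 2 ≤ β} := by
  refine ⟨?_, ?_, ?_⟩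
  · have hc : ConvexOn ℝ univ (fun z : EuclideanSpace ℝ κ => ∑ r ∈ S, (∑ i, φ r i * z i) ^ 2) := by
      classical
      induction S using Finset.induction_on with
      | empty => simpa using convexOn_const (0 : ℝ) convex_univ
      | insert r S hr ih =>
        simp only [Finset.sum_insert hr]
        apply ConvexOn.add _ ih
        let f : EuclideanSpace ℝ κ →ₗ[ℝ] ℝ :=
          { toFun := fun z => ∑ i, φ r i * z i
            map_add' := by intro x y; simp [mul_add, Finset.sum_add_distrib]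
            map_smul' := by
              intro m x
              simp only [PiLp.smul_apply, smul_eq_mul, RingHom.id_apply, Finset.mul_sum]
              exact Finset.sum_congr rfl fun i _ => by ring }
        exact convexOn_linear_sq f
    have := hc.convex_le β
    simpa using this
  · exact isClosed_le (by fun_prop) continuous_const
  · intro z hz
    simp only [mem_ofPred_eq] at hz ⊢
    refine le_trans (le_of_eq ?_) hz
    apply Finset.sum_congr rfl
    intro r _
    have : ∑ i, φ r i * (-z) i = -∑ i, φ r i * z i := by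
      rw [← Finset.sum_neg_distrib]
      exact Finset.sum_congr rfl fun i _ => by rw [PiLp.neg_apply]; ring
    rw [this, neg_sq]

/-- the vectors used in the embedding -/
noncomputable def embv {ι X : Type*} [DecidableEq ι] (w : ι → X → ℝ) (i : ι) :
    EuclideanSpace ℝ (X ⊕ ι) :=
  WithLp.toLp 2 (Sum.elim (fun k => w i k / (50 * √2)) (fun i' => if i' = i then 1 / (50 * √2) else 0))

lemma embv_inl {ι X : Type*} [DecidableEq ι] (w : ι → X → ℝ) (i : ι) (k : X) :
    embv w i (Sum.inl k) = w i k / (50 * √2) := rfl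

lemma embv_inr {ι X : Type*} [DecidableEq ι] (w : ι → X → ℝ) (i i' : ι) :
    embv w i (Sum.inr i') = if i' = i then 1 / (50 * √2) else 0 := rfl

lemma norm_embv_le {ι X : Type*} [Fintype ι] [DecidableEq ι] [Fintype X] (w : ι → X → ℝ) (i : ι)
    (hw : ∑ k, w i k ^ 2 ≤ 1) : ‖embv w i‖ ≤ 1 / 50 := by
  have h2 : √2 ^ 2 = (2 : ℝ) := Real.sq_sqrt (by norm_num)
  have h : ‖embv w i‖ ^ 2 ≤ (1 / 50) ^ 2 := by
    rw [EuclideanSpace.real_norm_sq_eq, Fintype.sum_sum_type]
    simp only [embv_inl, embv_inr, ite_pow, div_pow, one_pow, ne_eq, OfNat.ofNat_ne_zero,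
      not_false_eq_true, zero_pow, Finset.sum_ite_eq', Finset.mem_univ, if_true]
    rw [← Finset.sum_div, mul_pow, h2]
    have : (∑ k, w i k ^ 2) / (50 ^ 2 * 2) ≤ 1 / (50 ^ 2 * 2) :=
      div_le_div_of_nonneg_right hw (by norm_num)
    linarith
  exact abs_le_of_sq_le_sq' h (by norm_num) |>.2

/-- the unbiased signs theorem -/
theorem signs0 {ι X C1 C2 R : Type*} [Fintype ι] [DecidableEq ι] [Fintype X] [DecidableEq X]
    [Fintype C1] [Fintype C2] [Fintype R]
    (w : ι → X → ℝ) (hw : ∀ i, ∑ k, w i k ^ 2 ≤ 1)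
    (pos : ι → ℕ)
    (q : C1 → ℕ) (S : C1 → Finset X) (B : C1 → ℝ)
    (φ : C2 → R → ι → ℝ) (H lam : C2 → ℝ) (hH0 : ∀ c, 0 < H c)
    (hH : ∀ c, ∑ r, ∑ i, φ c r i ^ 2 ≤ H c)
    (hsum : ∑ c, (2 : ℝ) ^ (((S c).card : ℝ) / 2) * Real.exp (-(B c) / 20000)
      + ∑ c, √2 * Real.exp (-(lam c)) ≤ 1 / 2) :
    ∃ ε : ι → ℝ, (∀ i, ε i = 1 ∨ ε i = -1) ∧
      (∀ c, ∑ k ∈ S c, (∑ i with pos i < q c, ε i * w i k) ^ 2 ≤ B c) ∧
      (∀ c, ∑ r, (∑ i, ε i * φ c r i) ^ 2 ≤ 20000 * lam c * H c) := by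
  classical
  -- ordering
  set N := Fintype.card ι with hN
  let e0 : Fin N ≃ ι := (Fintype.equivFin ι).symm
  let σ : Fin N ≃ ι := (Tuple.sort (pos ∘ e0)).trans e0
  have hmono : Monotone (fun j => pos (σ j)) := Tuple.monotone_sort (pos ∘ e0)
  have h2 : √2 ^ 2 = (2 : ℝ) := Real.sq_sqrt (by norm_num)
  have hs2 : (0 : ℝ) < √2 := Real.sqrt_pos.mpr (by norm_num)
  let τ : C1 → ℕ := fun c => (Finset.univ.filter (fun j : Fin N => pos (σ j) < q c)).card
  have hτ : ∀ c (j : Fin N), pos (σ j) < q c ↔ j.1 < τ c := fun c j => mono_prefix hmono (q c) j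
  have hτN : ∀ c, τ c ≤ N := fun c => by
    have := Finset.card_le_univ (Finset.univ.filter (fun j : Fin N => pos (σ j) < q c))
    rwa [Fintype.card_fin] at this
  -- constraint sets
  let D1 : C1 → Set (EuclideanSpace ℝ (X ⊕ ι)) := fun c =>
    {z | ∑ k ∈ (S c).map Function.Embedding.inl, (∑ i, (if i = k then (1 : ℝ) else 0) * z i) ^ 2
      ≤ B c / 5000}
  let φ' : C2 → R → (X ⊕ ι) → ℝ := fun c r => Sum.elim (fun _ => 0) (φ c r)
  let D2 : C2 → Set (EuclideanSpace ℝ (X ⊕ ι)) := fun c =>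
    {z | ∑ r ∈ Finset.univ, (∑ i, φ' c r i * z i) ^ 2 ≤ 4 * lam c * H c}
  let C : ℕ → Set (EuclideanSpace ℝ (X ⊕ ι)) := fun t =>
    (⋂ c ∈ {c : C1 | τ c = t}, D1 c) ∩ (⋂ c ∈ {_c : C2 | t = N}, D2 c)
  have hD1 : ∀ c, Convex ℝ (D1 c) ∧ IsClosed (D1 c) ∧ ∀ z ∈ D1 c, -z ∈ D1 c :=
    fun c => sq_set _ _ _
  have hD2 : ∀ c, Convex ℝ (D2 c) ∧ IsClosed (D2 c) ∧ ∀ z ∈ D2 c, -z ∈ D2 c :=
    fun c => sq_set _ _ _
  have hCv : ∀ t, Convex ℝ (C t) := fun t =>
    (convex_iInter₂ fun c _ => (hD1 c).1).inter (convex_iInter₂ fun c _ => (hD2 c).1)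
  have hCc : ∀ t, IsClosed (C t) := fun t =>
    (isClosed_biInter fun c _ => (hD1 c).2.1).inter (isClosed_biInter fun c _ => (hD2 c).2.1)
  have hCs : ∀ t, ∀ x ∈ C t, -x ∈ C t := by
    intro t x hx
    simp only [C, mem_inter_iff, mem_iInter] at hx ⊢
    exact ⟨fun c hc => (hD1 c).2.2 x (hx.1 c hc), fun c hc => (hD2 c).2.2 x (hx.2 c hc)⟩
  -- measures
  have hm1 : ∀ c, (stdGaussian (EuclideanSpace ℝ (X ⊕ ι))).real (D1 c)ᶜ ≤
      (2 : ℝ) ^ (((S c).card : ℝ) / 2) * Real.exp (-(B c) / 20000) := by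
    intro c
    have h := tail_x ((S c).map (Function.Embedding.inl : X ↪ X ⊕ ι)) (B c / 5000)
    rw [Finset.card_map] at h
    have e1 : -(B c / 5000 / 4) = -(B c) / 20000 := by ring
    rw [e1] at h
    refine le_trans (le_of_eq ?_) h
    congr 1
    ext z
    simp only [D1, mem_compl_iff, mem_ofPred_eq, not_le, ite_mul, one_mul, zero_mul,
      Finset.sum_ite_eq', Finset.mem_univ, if_true]
  have hm2 : ∀ c, (stdGaussian (EuclideanSpace ℝ (X ⊕ ι))).real (D2 c)ᶜ ≤
      √2 * Real.exp (-(lam c)) := by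
    intro c
    have hsumφ : ∑ r, ∑ i, φ' c r i ^ 2 ≤ H c := by
      refine le_trans (le_of_eq ?_) (hH c)
      apply Finset.sum_congr rfl
      intro r _
      rw [Fintype.sum_sum_type]
      simp [φ']
    have h := tail_y (φ' c) (η := 4 * lam c * H c) (hH0 c) hsumφ
    have e1 : -(4 * lam c * H c / (4 * H c)) = -(lam c) := by
      have := (hH0 c).ne'
      field_simp
    rw [e1] at h
    refine le_trans (le_of_eq ?_) h
    congr 1
    ext z
    simp only [D2, mem_compl_iff, mem_ofPred_eq, not_le]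
  have hCm : ∀ t, (stdGaussian (EuclideanSpace ℝ (X ⊕ ι))).real (C t)ᶜ ≤
      ∑ c : C1, (if τ c = t then (stdGaussian (EuclideanSpace ℝ (X ⊕ ι))).real (D1 c)ᶜ else 0)
      + (if t = N then ∑ c : C2, (stdGaussian (EuclideanSpace ℝ (X ⊕ ι))).real (D2 c)ᶜ else 0) := by
    intro t
    have hcompl : (C t)ᶜ ⊆ (⋃ c ∈ Finset.univ.filter (fun c : C1 => τ c = t), (D1 c)ᶜ) ∪
        (⋃ c ∈ Finset.univ.filter (fun _ : C2 => t = N), (D2 c)ᶜ) := by
      intro x hx
      simp only [C, mem_compl_iff, mem_inter_iff, mem_iInter, not_and_or, not_forall,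
        mem_ofPred_eq] at hx
      simp only [mem_union, mem_iUnion, mem_compl_iff, Finset.mem_filter, Finset.mem_univ,
        true_and]
      exact hx
    calc (stdGaussian (EuclideanSpace ℝ (X ⊕ ι))).real (C t)ᶜ
        ≤ _ := measureReal_mono hcompl (measure_ne_top _ _)
      _ ≤ _ := measureReal_union_le _ _
      _ ≤ _ := add_le_add (measureReal_biUnion_finset_le _ _) (measureReal_biUnion_finset_le _ _)
      _ = _ := by
        rw [Finset.sum_filter, Finset.sum_filter]
        congr 1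
        split_ifs <;> simp
  have htotal : ∑ t ∈ Finset.range (N + 1), (stdGaussian (EuclideanSpace ℝ (X ⊕ ι))).real (C t)ᶜ
      ≤ 1 / 2 := by
    calc _ ≤ ∑ t ∈ Finset.range (N + 1), _ := Finset.sum_le_sum fun t _ => hCm t
      _ = ∑ c : C1, (stdGaussian (EuclideanSpace ℝ (X ⊕ ι))).real (D1 c)ᶜ
          + ∑ c : C2, (stdGaussian (EuclideanSpace ℝ (X ⊕ ι))).real (D2 c)ᶜ := by
        rw [Finset.sum_add_distrib, Finset.sum_comm]
        congr 1
        · apply Finset.sum_congr rfl
          intro c _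
          rw [Finset.sum_ite_eq]
          rw [if_pos (Finset.mem_range.mpr (Nat.lt_succ_of_le (hτN c)))]
        · rw [Finset.sum_ite_eq']
          rw [if_pos (Finset.mem_range.mpr (Nat.lt_succ_self N))]
      _ ≤ _ := add_le_add (Finset.sum_le_sum fun c _ => hm1 c) (Finset.sum_le_sum fun c _ => hm2 c)
      _ ≤ 1 / 2 := hsum
  -- vectors
  let u : ℕ → EuclideanSpace ℝ (X ⊕ ι) := fun j => if h : j < N then embv w (σ ⟨j, h⟩) else 0
  have hu : ∀ j, ‖u j‖ ≤ 1 / 50 := by
    intro j
    simp only [u]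
    split_ifs with h
    · exact norm_embv_le w _ (hw _)
    · simp
  obtain ⟨ε, hε, hg⟩ := prefix_signs N C u hu hCv hCc hCs htotal
  refine ⟨fun i => ε (σ.symm i).1, fun i => hε _, ?_, ?_⟩
  · -- x-type
    intro c
    have hmem := hg (τ c) (hτN c)
    have h1 : ∑ i ∈ Finset.range (τ c), ε i • u i ∈ D1 c := by
      have := hmem.1
      simp only [mem_iInter] at this
      exact this c rfl
    have h3 : ∀ k : X, (∑ i ∈ Finset.range (τ c), ε i • u i) (Sum.inl k)
        = (∑ i with pos i < q c, ε (σ.symm i).1 * w i k) / (50 * √2) := by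
      intro k
      rw [WithLp.ofLp_sum, Finset.sum_apply]
      have e1 : ∑ i with pos i < q c, ε (σ.symm i).1 * w i k
          = ∑ j : Fin N, if pos (σ j) < q c then ε j.1 * w (σ j) k else 0 := by
        rw [Finset.sum_filter, ← Equiv.sum_comp σ]
        apply Finset.sum_congr rfl
        intro j _
        rw [Equiv.symm_apply_apply]
      have e2 : ∀ j : Fin N, (if pos (σ j) < q c then ε j.1 * w (σ j) k else 0)
          = (fun i : ℕ => if i < τ c then (if h : i < N then ε i * w (σ ⟨i, h⟩) k else 0) else 0) j.1 := by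
        intro j
        simp only [hτ c j, j.2, dif_pos, Fin.eta]
      rw [e1, Finset.sum_congr rfl (fun j _ => e2 j), Fin.sum_univ_eq_sum_range
        (fun i : ℕ => if i < τ c then (if h : i < N then ε i * w (σ ⟨i, h⟩) k else 0) else 0) N,
        ← Finset.sum_filter]
      have e3 : (Finset.range N).filter (fun i => i < τ c) = Finset.range (τ c) := by
        ext i
        simp only [Finset.mem_filter, Finset.mem_range]
        exact ⟨fun h => h.2, fun h => ⟨h.trans_le (hτN c), h⟩⟩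
      rw [e3, Finset.sum_div]
      apply Finset.sum_congr rfl
      intro i hi
      have hiN : i < N := (Finset.mem_range.mp hi).trans_le (hτN c)
      simp only [u, hiN, dif_pos, PiLp.smul_apply, smul_eq_mul, embv_inl]
      ring
    simp only [D1, mem_ofPred_eq, ite_mul, one_mul, zero_mul, Finset.sum_ite_eq',
      Finset.mem_univ, if_true, Finset.sum_map, Function.Embedding.inl_apply] at h1
    simp only [h3, div_pow, mul_pow, h2] at h1
    rw [← Finset.sum_div, div_le_div_iff₀ (by norm_num) (by norm_num)] at h1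
    linarith
  · -- y-type
    intro c
    have hmem := hg N le_rfl
    have h1 : ∑ i ∈ Finset.range N, ε i • u i ∈ D2 c := by
      have := hmem.2
      simp only [mem_iInter] at this
      exact this c trivial
    have h3 : ∀ i : ι, (∑ j ∈ Finset.range N, ε j • u j) (Sum.inr i)
        = ε (σ.symm i).1 / (50 * √2) := by
      intro i
      rw [WithLp.ofLp_sum, Finset.sum_apply]
      rw [Finset.sum_eq_single (σ.symm i).1]
      · simp only [u, (σ.symm i).2, dif_pos, PiLp.smul_apply, smul_eq_mul, embv_inr, Fin.eta,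
          Equiv.apply_symm_apply, if_true]
        ring
      · intro j hj hne
        have hjN : j < N := Finset.mem_range.mp hj
        simp only [u, hjN, dif_pos, PiLp.smul_apply, smul_eq_mul, embv_inr]
        rw [if_neg, mul_zero]
        intro heq
        apply hne
        rw [heq, Equiv.symm_apply_apply]
      · intro hnot
        exact absurd (Finset.mem_range.mpr (σ.symm i).2) hnot
    simp only [D2, mem_ofPred_eq, φ', Fintype.sum_sum_type, Sum.elim_inl, Sum.elim_inr, zero_mul,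
      Finset.sum_const_zero, zero_add, h3] at h1
    have h4 : ∀ r, ∑ i, φ c r i * (ε (σ.symm i).1 / (50 * √2)) =
        (∑ i, ε (σ.symm i).1 * φ c r i) / (50 * √2) := by
      intro r
      rw [Finset.sum_div]
      exact Finset.sum_congr rfl fun i _ => by ring
    simp only [h4, div_pow, mul_pow, h2] at h1
    rw [← Finset.sum_div, div_le_iff₀ (by norm_num)] at h1
    linarith

end Vale.Agent.P262F
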