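import Vale.Agent.P262F.Defs
import Vale.Agent.P262F.M2Signs0
import Vale.Agent.P262F.M2Round

/-! M2: biased signs with prefix constraints and linear-form constraints -/

namespace Vale.Agent.P262F
open MeasureTheory ProbabilityTheory Set

section
variable {ι X R : Type*} [Fintype ι] [Fintype X] [DecidableEq X] [Fintype R]

/-- linear map of an `x`-type constraint -/
private noncomputable def Lx (w : ι → X → ℝ) (P : Finset ι) (S : Finset X) :
    (ι → ℝ) →ₗ[ℝ] EuclideanSpace ℝ X where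
  toFun y := WithLp.toLp 2 (fun k => if k ∈ S then ∑ i ∈ P, y i * w i k else 0)
  map_add' y z := by
    ext k
    show (if k ∈ S then ∑ i ∈ P, (y i + z i) * w i k else 0)
      = (if k ∈ S then ∑ i ∈ P, y i * w i k else 0) + (if k ∈ S then ∑ i ∈ P, z i * w i k else 0)
    by_cases hk : k ∈ S
    · simp only [hk, if_true, add_mul, Finset.sum_add_distrib]
    · simp [hk]
  map_smul' m y := by
    ext k
    show (if k ∈ S then ∑ i ∈ P, (m * y i) * w i k else 0)
      = m * (if k ∈ S then ∑ i ∈ P, y i * w i k else 0)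
    by_cases hk : k ∈ S
    · simp only [hk, if_true, Finset.mul_sum, mul_assoc]
    · simp [hk]

private lemma Lx_norm (w : ι → X → ℝ) (P : Finset ι) (S : Finset X) (y : ι → ℝ) :
    ‖Lx w P S y‖ ^ 2 = ∑ k ∈ S, (∑ i ∈ P, y i * w i k) ^ 2 := by
  rw [EuclideanSpace.real_norm_sq_eq]
  have e : ∀ k, (Lx w P S y) k ^ 2 = if k ∈ S then (∑ i ∈ P, y i * w i k) ^ 2 else 0 := by
    intro k
    show (if k ∈ S then ∑ i ∈ P, y i * w i k else 0) ^ 2 = _
    by_cases hk : k ∈ S <;> simp [hk]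
  simp_rw [e]
  rw [Finset.sum_ite_mem, Finset.univ_inter]

/-- linear map of a `y`-type constraint -/
private noncomputable def Ly (φ : R → ι → ℝ) :
    (ι → ℝ) →ₗ[ℝ] EuclideanSpace ℝ R where
  toFun y := WithLp.toLp 2 (fun r => ∑ i, y i * φ r i)
  map_add' y z := by
    ext r
    show (∑ i, (y i + z i) * φ r i) = (∑ i, y i * φ r i) + ∑ i, z i * φ r i
    simp only [add_mul, Finset.sum_add_distrib]
  map_smul' m y := by
    ext r
    show (∑ i, (m * y i) * φ r i) = m * ∑ i, y i * φ r i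
    simp only [Finset.mul_sum, mul_assoc]

private lemma Ly_norm (φ : R → ι → ℝ) (y : ι → ℝ) :
    ‖Ly φ y‖ ^ 2 = ∑ r, (∑ i, y i * φ r i) ^ 2 := by
  rw [EuclideanSpace.real_norm_sq_eq]
  rfl

end

theorem signs {ι X C1 C2 R : Type*} [Fintype ι] [DecidableEq ι] [Fintype X] [DecidableEq X]
    [Fintype C1] [Fintype C2] [Fintype R]
    (w : ι → X → ℝ) (hw : ∀ i, ∑ k, w i k ^ 2 ≤ 1) (x : ι → ℝ) (hx : ∀ i, |x i| ≤ 1)
    (pos : ι → ℕ)
    (q : C1 → ℕ) (S : C1 → Finset X) (B : C1 → ℝ)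
    (φ : C2 → R → ι → ℝ) (H lam : C2 → ℝ) (hH0 : ∀ c, 0 < H c)
    (hH : ∀ c, ∑ r, ∑ i, φ c r i ^ 2 ≤ H c)
    (hsum : ∑ c, (2 : ℝ) ^ (((S c).card : ℝ) / 2) * Real.exp (-(B c) / K0)
      + ∑ c, √2 * Real.exp (-(lam c)) ≤ 1 / 2) :
    ∃ ε : ι → ℝ, (∀ i, ε i = 1 ∨ ε i = -1) ∧
      (∀ c, ∑ k ∈ S c, (∑ i with pos i < q c, (ε i - x i) * w i k) ^ 2 ≤ B c) ∧
      (∀ c, ∑ r, (∑ i, (ε i - x i) * φ c r i) ^ 2 ≤ K0 * lam c * H c) := by
  classical
  have hn1 : ∀ c ∈ (Finset.univ : Finset C1),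
      0 ≤ (2 : ℝ) ^ (((S c).card : ℝ) / 2) * Real.exp (-(B c) / K0) := fun c _ => by positivity
  have hn2 : ∀ c ∈ (Finset.univ : Finset C2), 0 ≤ √2 * Real.exp (-(lam c)) :=
    fun c _ => by positivity
  have hs1 := Finset.sum_nonneg hn1
  have hs2 := Finset.sum_nonneg hn2
  have hB : ∀ c, 0 < B c := by
    intro c
    have h1 := Finset.single_le_sum hn1 (Finset.mem_univ c)
    have h2 : (1 : ℝ) ≤ (2 : ℝ) ^ (((S c).card : ℝ) / 2) :=
      Real.one_le_rpow (by norm_num) (by positivity)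
    by_contra hc
    have h3 : 0 ≤ -(B c) / K0 := div_nonneg (by linarith) (by norm_num [K0])
    have h4 := Real.one_le_exp h3
    nlinarith
  have hlam : ∀ c, 0 < lam c := by
    intro c
    have h1 := Finset.single_le_sum hn2 (Finset.mem_univ c)
    have h2 : (1 : ℝ) ≤ √2 := by
      rw [show (1 : ℝ) = √1 by simp]; exact Real.sqrt_le_sqrt (by norm_num)
    by_contra hc
    have h3 : 0 ≤ -(lam c) := by linarith
    have h4 := Real.one_le_exp h3
    nlinarith
  let P : C1 → Finset ι := fun c => Finset.univ.filter (fun i => pos i < q c)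
  let N : C1 ⊕ C2 → Seminorm ℝ (ι → ℝ) := Sum.elim
    (fun c => (normSeminorm ℝ (EuclideanSpace ℝ X)).comp (Lx w (P c) (S c)))
    (fun c => (normSeminorm ℝ (EuclideanSpace ℝ R)).comp (Ly (φ c)))
  let b : C1 ⊕ C2 → ℝ := Sum.elim (fun c => √(B c) / 3) (fun c => √(20000 * lam c * H c))
  have hyp : ∀ c, 0 < 20000 * lam c * H c := fun c =>
    mul_pos (mul_pos (by norm_num) (hlam c)) (hH0 c)
  have hb : ∀ c, 0 < b c := by
    rintro (c | c)
    · exact div_pos (Real.sqrt_pos.2 (hB c)) (by norm_num)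
    · exact Real.sqrt_pos.2 (hyp c)
  have hA : ∀ A : Finset ι, ∃ ε : ι → ℝ, (∀ i, ε i = 1 ∨ ε i = -1) ∧
      ∀ c, N c (fun i => if i ∈ A then ε i else 0) ≤ b c := by
    intro A
    have hw' : ∀ i, ∑ k, (if i ∈ A then w i k else 0) ^ 2 ≤ 1 := by
      intro i
      by_cases hi : i ∈ A
      · simpa [hi] using hw i
      · simp [hi]
    have hH' : ∀ c, ∑ r, ∑ i, (if i ∈ A then φ c r i else 0) ^ 2 ≤ H c := by
      intro c
      refine le_trans (Finset.sum_le_sum fun r _ => Finset.sum_le_sum fun i _ => ?_) (hH c)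
      by_cases hi : i ∈ A
      · simp [hi]
      · simp only [hi, if_false]; nlinarith [sq_nonneg (φ c r i)]
    have hsum' : ∑ c, (2 : ℝ) ^ (((S c).card : ℝ) / 2) * Real.exp (-(B c / 9) / 20000)
        + ∑ c, √2 * Real.exp (-(lam c)) ≤ 1 / 2 := by
      have e : ∀ c, -(B c / 9) / 20000 = -(B c) / K0 := by
        intro c; unfold K0; ring
      simp_rw [e]; exact hsum
    obtain ⟨ε, h1, h2, h3⟩ := signs0 (fun i k => if i ∈ A then w i k else 0) hw' pos q S
      (fun c => B c / 9) (fun c r i => if i ∈ A then φ c r i else 0) H lam hH0 hH' hsum'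
    refine ⟨ε, h1, ?_⟩
    rintro (c | c)
    · show ‖Lx w (P c) (S c) (fun i => if i ∈ A then ε i else 0)‖ ≤ √(B c) / 3
      have h4 := Lx_norm w (P c) (S c) (fun i => if i ∈ A then ε i else 0)
      have h5 : ∑ k ∈ S c, (∑ i ∈ P c, (if i ∈ A then ε i else 0) * w i k) ^ 2 ≤ B c / 9 := by
        refine le_trans (le_of_eq ?_) (h2 c)
        refine Finset.sum_congr rfl (fun k _ => ?_)
        congr 1
        refine Finset.sum_congr rfl (fun i _ => ?_)
        by_cases hi : i ∈ A <;> simp [hi]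
      rw [← h4] at h5
      have h6 : (√(B c) / 3) ^ 2 = B c / 9 := by
        rw [div_pow, Real.sq_sqrt (hB c).le]; norm_num
      rw [← h6] at h5
      exact (pow_le_pow_iff_left₀ (norm_nonneg _) (by positivity) (by norm_num)).1 h5
    · show ‖Ly (φ c) (fun i => if i ∈ A then ε i else 0)‖ ≤ √(20000 * lam c * H c)
      have h4 := Ly_norm (φ c) (fun i => if i ∈ A then ε i else 0)
      have h5 : ∑ r, (∑ i, (if i ∈ A then ε i else 0) * φ c r i) ^ 2 ≤ 20000 * lam c * H c := by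
        refine le_trans (le_of_eq ?_) (h3 c)
        refine Finset.sum_congr rfl (fun r _ => ?_)
        congr 1
        refine Finset.sum_congr rfl (fun i _ => ?_)
        by_cases hi : i ∈ A <;> simp [hi]
      rw [← h4] at h5
      exact Real.le_sqrt_of_sq_le h5
  obtain ⟨ε, h1, h2⟩ := round_signs N b hb hA x hx
  refine ⟨ε, h1, fun c => ?_, fun c => ?_⟩
  · have h3 : ‖Lx w (P c) (S c) (fun i => ε i - x i)‖ ≤ 3 * (√(B c) / 3) := h2 (Sum.inl c)
    have h4 := Lx_norm w (P c) (S c) (fun i => ε i - x i)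
    have h5 : ‖Lx w (P c) (S c) (fun i => ε i - x i)‖ ≤ √(B c) := by linarith
    have h6 : ‖Lx w (P c) (S c) (fun i => ε i - x i)‖ ^ 2 ≤ B c := by
      calc _ ≤ √(B c) ^ 2 := pow_le_pow_left₀ (norm_nonneg _) h5 2
        _ = B c := Real.sq_sqrt (hB c).le
    rw [h4] at h6
    exact h6
  · have h3 : ‖Ly (φ c) (fun i => ε i - x i)‖ ≤ 3 * √(20000 * lam c * H c) := h2 (Sum.inr c)
    have h4 := Ly_norm (φ c) (fun i => ε i - x i)
    have h6 : ‖Ly (φ c) (fun i => ε i - x i)‖ ^ 2 ≤ K0 * lam c * H c := by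
      calc _ ≤ (3 * √(20000 * lam c * H c)) ^ 2 := pow_le_pow_left₀ (norm_nonneg _) h3 2
        _ = 9 * (20000 * lam c * H c) := by
            rw [mul_pow, Real.sq_sqrt (hyp c).le]; norm_num
        _ = K0 * lam c * H c := by unfold K0; ring
    rw [h4] at h6
    exact h6

end Vale.Agent.P262F
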