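import Vale.Agent.P262F.M1

/-! M2, core: Banaszczyk's prefix theorem from `gstar_measure` -/

namespace Vale.Agent.P262F
open MeasureTheory ProbabilityTheory Set

section prefixSigns

variable {E : Type*} [NormedAddCommGroup E] [InnerProductSpace ℝ E] [FiniteDimensional ℝ E]
  [MeasurableSpace E] [BorelSpace E]

/-- measure of an intersection -/
lemma measure_inter_ge {μ : Measure E} [IsProbabilityMeasure μ] {A B : Set E}
    (hA : MeasurableSet A) (hB : MeasurableSet B) :
    μ.real A - μ.real Bᶜ ≤ μ.real (A ∩ B) := by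
  have h1 : μ.real A ≤ μ.real (A ∩ B) + μ.real Bᶜ := by
    calc μ.real A ≤ μ.real ((A ∩ B) ∪ Bᶜ) := by
          apply measureReal_mono _ (measure_ne_top _ _)
          intro x hx
          by_cases h : x ∈ B
          · exact Or.inl ⟨hx, h⟩
          · exact Or.inr h
      _ ≤ _ := measureReal_union_le _ _
  linarith

/-- the backwards construction -/
theorem prefix_aux (n : ℕ) : ∀ (C : ℕ → Set E) (u : ℕ → E), (∀ i, ‖u i‖ ≤ 1 / 50) →
    (∀ t, Convex ℝ (C t)) → (∀ t, IsClosed (C t)) → (∀ t, ∀ x ∈ C t, -x ∈ C t) →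
    ∑ t ∈ Finset.range (n + 1), (stdGaussian E).real (C t)ᶜ ≤ 1 / 2 →
    ∃ V : Set E, Convex ℝ V ∧ IsClosed V ∧ (∀ x ∈ V, -x ∈ V) ∧
      1 - ∑ t ∈ Finset.range (n + 1), (stdGaussian E).real (C t)ᶜ ≤ (stdGaussian E).real V ∧
      ∀ z ∈ V, ∃ ε : ℕ → ℝ, (∀ i, ε i = 1 ∨ ε i = -1) ∧
        ∀ t ≤ n, z + ∑ i ∈ Finset.range t, ε i • u i ∈ C t := by
  induction n with
  | zero =>
    intro C u hu hcv hcl hsy hs
    refine ⟨C 0, hcv 0, hcl 0, hsy 0, ?_, ?_⟩
    · rw [zero_add, Finset.sum_range_one, probReal_compl_eq_one_sub (hcl 0).measurableSet]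
      linarith
    · intro z hz
      refine ⟨fun _ => 1, fun _ => Or.inl rfl, ?_⟩
      intro t ht
      have : t = 0 := by omega
      subst this
      simpa using hz
  | succ n ih =>
    intro C u hu hcv hcl hsy hs
    rw [Finset.sum_range_succ'] at hs ⊢
    have hnn : 0 ≤ (stdGaussian E).real (C 0)ᶜ := measureReal_nonneg
    obtain ⟨V', hV'c, hV'cl, hV's, hV'm, hV'g⟩ := ih (fun t => C (t + 1)) (fun i => u (i + 1))
      (fun i => hu _) (fun t => hcv _) (fun t => hcl _) (fun t => hsy _) (by linarith)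
    have hhalf : 1 / 2 ≤ (stdGaussian E).real V' := by linarith
    have hgm := gstar_measure hV'c hV'cl hhalf (hu 0)
    refine ⟨gstar V' (u 0) ∩ C 0, (gstar_convex hV'c _).inter (hcv 0),
      (gstar_closed hV'cl _).inter (hcl 0), ?_, ?_, ?_⟩
    · intro x hx
      exact ⟨gstar_symm hV's _ x hx.1, hsy 0 x hx.2⟩
    · have := measure_inter_ge (μ := stdGaussian E) (gstar_closed hV'cl (u 0)).measurableSet
        (hcl 0).measurableSet
      linarith
    · intro z hz
      have key : ∃ s : ℝ, (s = 1 ∨ s = -1) ∧ z + s • u 0 ∈ V' := by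
        rcases gstar_mem hV'c hz.1 with h | h
        · exact ⟨1, Or.inl rfl, by rwa [one_smul]⟩
        · exact ⟨-1, Or.inr rfl, by rwa [neg_smul, one_smul, ← sub_eq_add_neg]⟩
      obtain ⟨s, hs1, hs2⟩ := key
      obtain ⟨ε', hε', hg'⟩ := hV'g _ hs2
      refine ⟨fun i => Nat.casesOn i s ε', ?_, ?_⟩
      · intro i
        cases i with
        | zero => exact hs1
        | succ i => exact hε' i
      · intro t ht
        cases t with
        | zero => simpa using hz.2
        | succ t =>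
          have := hg' t (by omega)
          rw [Finset.sum_range_succ']
          rw [add_comm (∑ i ∈ Finset.range t, _) _, ← add_assoc]
          exact this

/-- **Banaszczyk's prefix theorem** -/
theorem prefix_signs (n : ℕ) (C : ℕ → Set E) (u : ℕ → E) (hu : ∀ i, ‖u i‖ ≤ 1 / 50)
    (hcv : ∀ t, Convex ℝ (C t)) (hcl : ∀ t, IsClosed (C t)) (hsy : ∀ t, ∀ x ∈ C t, -x ∈ C t)
    (hs : ∑ t ∈ Finset.range (n + 1), (stdGaussian E).real (C t)ᶜ ≤ 1 / 2) :
    ∃ ε : ℕ → ℝ, (∀ i, ε i = 1 ∨ ε i = -1) ∧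
        ∀ t ≤ n, ∑ i ∈ Finset.range t, ε i • u i ∈ C t := by
  obtain ⟨V, hVc, -, hVs, hVm, hVg⟩ := prefix_aux n C u hu hcv hcl hsy hs
  have hpos : 0 < (stdGaussian E).real V := by linarith
  have hne : V.Nonempty := by
    rw [nonempty_iff_ne_empty]
    rintro rfl
    simp at hpos
  obtain ⟨z, hz⟩ := hne
  have h0 : (0 : E) ∈ V := by
    have := hVc hz (hVs z hz) (by norm_num : (0 : ℝ) ≤ 1 / 2) (by norm_num : (0 : ℝ) ≤ 1 / 2)
      (by norm_num)
    simpa using this
  obtain ⟨ε, hε, hg⟩ := hVg 0 h0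
  exact ⟨ε, hε, fun t ht => by simpa using hg t ht⟩

end prefixSigns

/-- initial segments of a monotone sequence -/
lemma mono_prefix {N : ℕ} {f : Fin N → ℕ} (hf : Monotone f) (q : ℕ) (j : Fin N) :
    f j < q ↔ j.1 < (Finset.univ.filter (fun i : Fin N => f i < q)).card := by
  constructor
  · intro h
    have hsub : Finset.Iic j ⊆ Finset.univ.filter (fun i : Fin N => f i < q) := by
      intro i hi
      rw [Finset.mem_Iic] at hi
      exact Finset.mem_filter.mpr ⟨Finset.mem_univ _, (hf hi).trans_lt h⟩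
    have := Finset.card_le_card hsub
    rw [Fin.card_Iic] at this
    omega
  · intro h
    by_contra hcon
    have hsub : Finset.univ.filter (fun i : Fin N => f i < q) ⊆ Finset.Iio j := by
      intro i hi
      rw [Finset.mem_filter] at hi
      rw [Finset.mem_Iio]
      by_contra hij
      exact hcon ((hf (not_lt.mp hij)).trans_lt hi.2)
    have := Finset.card_le_card hsub
    rw [Fin.card_Iio] at this
    omega

end Vale.Agent.P262F
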