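import Vale.Agent.P262F.M2
import Vale.Agent.P262F.QLem

/-! Abstract dyadic arrangement (Chobanyan type argument with signs) -/

namespace Vale.Agent.P262F
open Finset

section RN
variable {κ R : Type*} [Fintype κ] [Fintype R]

/-- row seminorm -/
noncomputable def RN (F : R → κ → ℝ) (y : κ → ℝ) : ℝ := √(∑ r, (∑ i, y i * F r i) ^ 2)

lemma RN_nonneg (F : R → κ → ℝ) (y : κ → ℝ) : 0 ≤ RN F y := Real.sqrt_nonneg _

lemma RN_sq (F : R → κ → ℝ) (y : κ → ℝ) : RN F y ^ 2 = ∑ r, (∑ i, y i * F r i) ^ 2 :=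
  Real.sq_sqrt (sum_nonneg fun _ _ => sq_nonneg _)

lemma RN_add (F : R → κ → ℝ) (y z : κ → ℝ) :
    RN F (fun i => y i + z i) ≤ RN F y + RN F z := by
  have h := wl2_add (univ : Finset R) (fun _ => 1) (fun r => ∑ i, y i * F r i)
    (fun r => ∑ i, z i * F r i) (fun _ _ => zero_le_one)
  simp only [mul_one] at h
  unfold RN
  refine le_trans (le_of_eq ?_) h
  congr 1
  refine sum_congr rfl fun r _ => ?_
  rw [← sum_add_distrib]
  congr 1
  exact sum_congr rfl fun i _ => by ring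

lemma RN_smul (F : R → κ → ℝ) (c : ℝ) (y : κ → ℝ) :
    RN F (fun i => c * y i) = |c| * RN F y := by
  unfold RN
  rw [← Real.sqrt_sq_eq_abs, ← Real.sqrt_mul (sq_nonneg c), mul_sum]
  congr 1
  refine sum_congr rfl fun r _ => ?_
  rw [← mul_pow, mul_sum]
  congr 1
  exact sum_congr rfl fun i _ => by ring

lemma RN_comb (F : R → κ → ℝ) {s t : ℝ} (hs : |s| = 1) (ht : |t| = 1) (x y z : κ → ℝ)
    (hx : ∀ i, x i = s * (1 / 2) * y i + t * (1 / 2) * z i) :
    RN F x ≤ (RN F y + RN F z) / 2 := by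
  have e : x = fun i => (s * (1 / 2)) * y i + (t * (1 / 2)) * z i := funext hx
  rw [e]
  refine (RN_add F (fun i => (s * (1 / 2)) * y i) (fun i => (t * (1 / 2)) * z i)).trans ?_
  rw [RN_smul, RN_smul, abs_mul, abs_mul, hs, ht]
  norm_num
  linarith

lemma RN_le_of_abs (F : R → κ → ℝ) {y : κ → ℝ} (hy : ∀ i, |y i| ≤ 1) :
    RN F y ≤ √(∑ r, (∑ i, |F r i|) ^ 2) := by
  unfold RN
  apply Real.sqrt_le_sqrt
  refine sum_le_sum fun r _ => ?_
  rw [← sq_abs]
  refine pow_le_pow_left₀ (abs_nonneg _) ?_ 2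
  refine (abs_sum_le_sum_abs _ _).trans (sum_le_sum fun i _ => ?_)
  rw [abs_mul]
  have := abs_nonneg (F r i)
  nlinarith [hy i]

end RN

/-- new cell -/
noncomputable def ucell (h : ℕ) (c : ℕ) (e : ℝ) : ℕ := if e = 1 then c / 2 else 2 ^ h - 1 - c / 2

/-- indicator of a prefix -/
noncomputable def ip (c m : ℕ) : ℝ := if c < m then 1 else 0

/-- indicator of a dyadic interval -/
noncomputable def idy (c b j : ℕ) : ℝ := if j * 2 ^ b ≤ c ∧ c < (j + 1) * 2 ^ b then 1 else 0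

lemma ip_01 (c m : ℕ) : ip c m = 0 ∨ ip c m = 1 := by unfold ip; split_ifs <;> simp

lemma idy_01 (c b j : ℕ) : idy c b j = 0 ∨ idy c b j = 1 := by unfold idy; split_ifs <;> simp

lemma ucell_lt {h c : ℕ} (hc : c < 2 ^ h) (e : ℝ) : ucell h c e < 2 ^ h := by
  unfold ucell
  split_ifs <;> omega

lemma ip_ucell_lo {h c m : ℕ} (hh : 1 ≤ h) (hc : c < 2 ^ h) {e : ℝ} (he : e = 1 ∨ e = -1)
    (hm : 2 * m ≤ 2 ^ h) :
    ip (ucell h c e) m - (m : ℝ) / 2 ^ h =
      1 * (1 / 2) * (ip c (2 * m) - ((2 * m : ℕ) : ℝ) / 2 ^ h) + 1 * (1 / 2) * (e * ip c (2 * m)) := by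
  unfold ip ucell
  push_cast
  rcases he with rfl | rfl
  · simp only [if_true]
    by_cases h1 : c / 2 < m
    · rw [if_pos h1, if_pos (by omega)]; ring
    · rw [if_neg h1, if_neg (by omega)]; ring
  · have hne : ¬ ((-1 : ℝ) = 1) := by norm_num
    simp only [if_neg hne]
    have h2 : 2 ^ h = 2 * 2 ^ (h - 1) := by
      rw [← pow_succ']; congr 1; omega
    rw [if_neg (by omega)]
    ring

lemma ip_ucell_hi {h c m : ℕ} (hh : 1 ≤ h) (hc : c < 2 ^ h) {e : ℝ} (he : e = 1 ∨ e = -1)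
    (hm : 2 ^ h < 2 * m) (hm2 : m ≤ 2 ^ h) :
    ip (ucell h c e) m - (m : ℝ) / 2 ^ h =
      (-1) * (1 / 2) * (ip c (2 * (2 ^ h - m)) - ((2 * (2 ^ h - m) : ℕ) : ℝ) / 2 ^ h) +
        1 * (1 / 2) * (e * ip c (2 * (2 ^ h - m))) := by
  unfold ip ucell
  push_cast [Nat.cast_sub hm2]
  have hp : (0 : ℝ) < 2 ^ h := by positivity
  rcases he with rfl | rfl
  · simp only [if_true]
    rw [if_pos (by omega)]
    field_simp
    ring
  · have hne : ¬ ((-1 : ℝ) = 1) := by norm_num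
    simp only [if_neg hne]
    by_cases h1 : c < 2 * (2 ^ h - m)
    · rw [if_pos h1, if_neg (by omega)]
      field_simp
      ring
    · rw [if_neg h1, if_pos (by omega)]
      field_simp
      ring

lemma idy_ucell {h b j : ℕ} (hb : b < h) (hj : j < 2 ^ (h - b)) :
    ∃ j' < 2 ^ (h - (b + 1)), ∃ t : ℝ, |t| = 1 ∧ ∀ (c : ℕ) (e : ℝ), c < 2 ^ h → (e = 1 ∨ e = -1) →
      idy (ucell h c e) b j - (2 : ℝ) ^ b / 2 ^ h =
        1 * (1 / 2) * (idy c (b + 1) j' - (2 : ℝ) ^ (b + 1) / 2 ^ h) +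
          t * (1 / 2) * (e * idy c (b + 1) j') := by
  set B := 2 ^ b with hB
  set P := 2 ^ (h - (b + 1)) with hP
  have hn : 2 ^ h = 2 * (B * P) := by
    rw [hB, hP, ← pow_add, ← pow_succ']; congr 1; omega
  have hj2 : j < 2 * P := by
    have : 2 ^ (h - b) = 2 * P := by rw [hP, ← pow_succ']; congr 1; omega
    omega
  have hB2 : 2 ^ (b + 1) = 2 * B := by rw [pow_succ']
  have hBpos : 0 < B := by positivity
  have hr : (2 : ℝ) ^ (b + 1) / 2 ^ h = 2 * ((2 : ℝ) ^ b / 2 ^ h) := by rw [pow_succ]; ring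
  rcases lt_or_ge j P with h1 | h1
  · refine ⟨j, h1, 1, by simp, ?_⟩
    intro c e hc he
    rw [hr]
    unfold idy ucell
    rw [hB2, ← hB]
    have e1 : (j + 1) * B = j * B + B := by ring
    have e2 : j * (2 * B) = 2 * (j * B) := by ring
    have e3 : (j + 1) * (2 * B) = 2 * (j * B) + 2 * B := by ring
    have e4 : j * B + B ≤ B * P := by
      have : (j + 1) * B ≤ P * B := Nat.mul_le_mul_right B h1
      rw [e1] at this
      rw [mul_comm B P]; exact this
    rw [e1, e2, e3]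
    rcases he with rfl | rfl
    · simp only [if_true]
      by_cases h2 : j * B ≤ c / 2 ∧ c / 2 < j * B + B
      · rw [if_pos h2, if_pos (by omega)]; ring
      · rw [if_neg h2, if_neg (by omega)]; ring
    · have hne : ¬ ((-1 : ℝ) = 1) := by norm_num
      simp only [if_neg hne]
      rw [if_neg (by omega)]
      ring
  · obtain ⟨j', hj'⟩ : ∃ j', j + j' + 1 = 2 * P := ⟨2 * P - 1 - j, by omega⟩
    refine ⟨j', by omega, -1, by simp, ?_⟩
    intro c e hc he
    rw [hr]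
    unfold idy ucell
    rw [hB2, ← hB]
    have e0 : j * B + j' * B + B = 2 * (B * P) := by
      have : (j + j' + 1) * B = 2 * P * B := by rw [hj']
      nlinarith
    have e1 : (j + 1) * B = j * B + B := by ring
    have e2 : j' * (2 * B) = 2 * (j' * B) := by ring
    have e3 : (j' + 1) * (2 * B) = 2 * (j' * B) + 2 * B := by ring
    have e4 : B * P ≤ j * B := by
      rw [mul_comm B P]; exact Nat.mul_le_mul_right B h1
    rw [e1, e2, e3]
    rcases he with rfl | rfl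
    · simp only [if_true]
      rw [if_neg (by omega)]
      ring
    · have hne : ¬ ((-1 : ℝ) = 1) := by norm_num
      simp only [if_neg hne]
      by_cases h2 : j * B ≤ 2 ^ h - 1 - c / 2 ∧ 2 ^ h - 1 - c / 2 < j * B + B
      · rw [if_pos h2, if_pos (by omega)]; ring
      · rw [if_neg h2, if_neg (by omega)]; ring

end Vale.Agent.P262F
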