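import Vale.Agent.P262F.Defs

/-! M4: combinatorics of the new assignment -/

namespace Vale.Agent.P262F
open Finset

variable {ι : Type*}

/-- the new assignment: positive elements of the old cells `2p, 2p+1` go to `p`, negative ones
to `2^h - 1 - p` -/
noncomputable def newcell (h : ℕ) (cell : ι → ℕ) (ε : ι → ℝ) (i : ι) : ℕ :=
  open Classical in if ε i = 1 then cell i / 2 else 2 ^ h - 1 - cell i / 2

theorem newcell_lt {h : ℕ} {cell : ι → ℕ} {ε : ι → ℝ} {i : ι} (hc : cell i < 2 ^ h) :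
    newcell h cell ε i < 2 ^ h := by
  unfold newcell
  have : 0 < 2 ^ h := by positivity
  split_ifs <;> omega

theorem sum_pos_half {A : Finset ι} {ε : ι → ℝ} (hε : ∀ i ∈ A, ε i = 1 ∨ ε i = -1) (F : ι → ℝ) :
    ∑ i ∈ A with ε i = 1, F i = (∑ i ∈ A, F i + ∑ i ∈ A, ε i * F i) / 2 := by
  rw [sum_filter, ← sum_add_distrib, sum_div]
  refine sum_congr rfl fun i hi => ?_
  rcases hε i hi with h | h
  · simp [h]
  · rw [if_neg (by rw [h]; norm_num), h]; ring

theorem sum_neg_half {A : Finset ι} {ε : ι → ℝ} (hε : ∀ i ∈ A, ε i = 1 ∨ ε i = -1) (F : ι → ℝ) :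
    ∑ i ∈ A with ¬ ε i = 1, F i = (∑ i ∈ A, F i - ∑ i ∈ A, ε i * F i) / 2 := by
  rw [sum_filter, ← sum_sub_distrib, sum_div]
  refine sum_congr rfl fun i hi => ?_
  rcases hε i hi with h | h
  · simp [h]
  · rw [if_pos (by rw [h]; norm_num), h]; ring

/-- prefixes in the first half -/
theorem newcell_prefix_lo {h : ℕ} (hh : 1 ≤ h) {A : Finset ι} {cell : ι → ℕ} {ε : ι → ℝ}
    (hc : ∀ i ∈ A, cell i < 2 ^ h) (hε : ∀ i ∈ A, ε i = 1 ∨ ε i = -1) {q : ℕ}
    (hq : q ≤ 2 ^ (h - 1)) (F : ι → ℝ) :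
    ∑ i ∈ A with newcell h cell ε i < q, F i =
      (∑ i ∈ A with cell i < 2 * q, F i + ∑ i ∈ A with cell i < 2 * q, ε i * F i) / 2 := by
  rw [← sum_pos_half (A := A.filter (fun i => cell i < 2 * q))
    (fun i hi => hε i (mem_filter.1 hi).1), filter_filter]
  refine sum_congr (filter_congr fun i hi => ?_) fun _ _ => rfl
  have h2 : 2 ^ h = 2 * 2 ^ (h - 1) := by rw [← pow_succ']; congr 1; omega
  have h1 := hc i hi
  unfold newcell
  by_cases h3 : ε i = 1
  · rw [if_pos h3]; simp only [h3, and_true]; omega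
  · rw [if_neg h3]; simp only [h3, and_false, iff_false]; omega

/-- prefixes in the second half -/
theorem newcell_prefix_hi {h : ℕ} (hh : 1 ≤ h) {A : Finset ι} {cell : ι → ℕ} {ε : ι → ℝ}
    (hc : ∀ i ∈ A, cell i < 2 ^ h) (hε : ∀ i ∈ A, ε i = 1 ∨ ε i = -1) {q : ℕ}
    (hq : 2 ^ (h - 1) ≤ q) (hq2 : q ≤ 2 ^ h) (F : ι → ℝ) :
    ∑ i ∈ A with newcell h cell ε i < q, F i = ∑ i ∈ A, F i -
      (∑ i ∈ A with cell i < 2 * (2 ^ h - q), F i -
        ∑ i ∈ A with cell i < 2 * (2 ^ h - q), ε i * F i) / 2 := by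
  rw [← sum_neg_half (A := A.filter (fun i => cell i < 2 * (2 ^ h - q)))
    (fun i hi => hε i (mem_filter.1 hi).1), filter_filter, eq_sub_iff_add_eq]
  rw [← sum_filter_add_sum_filter_not A (fun i => newcell h cell ε i < q)]
  congr 1
  refine sum_congr (filter_congr fun i hi => ?_) fun _ _ => rfl
  have h2 : 2 ^ h = 2 * 2 ^ (h - 1) := by rw [← pow_succ']; congr 1; omega
  have h1 := hc i hi
  unfold newcell
  by_cases h3 : ε i = 1
  · rw [if_pos h3]; simp only [h3, not_true, and_false, false_iff]; omega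
  · rw [if_neg h3]; simp only [h3, not_false_eq_true, and_true]; omega

/-- dyadic intervals -/
theorem newcell_dyadic {h b j : ℕ} (hb : b < h) (hj : j < 2 ^ (h - b)) {A : Finset ι}
    {cell : ι → ℕ} {ε : ι → ℝ}
    (hc : ∀ i ∈ A, cell i < 2 ^ h) (hε : ∀ i ∈ A, ε i = 1 ∨ ε i = -1) :
    ∃ j' < 2 ^ (h - (b + 1)), ∃ s : ℝ, (s = 1 ∨ s = -1) ∧ ∀ F : ι → ℝ,
      ∑ i ∈ A with j * 2 ^ b ≤ newcell h cell ε i ∧ newcell h cell ε i < (j + 1) * 2 ^ b, F i =
      (∑ i ∈ A with j' * 2 ^ (b + 1) ≤ cell i ∧ cell i < (j' + 1) * 2 ^ (b + 1), F i +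
        s * ∑ i ∈ A with j' * 2 ^ (b + 1) ≤ cell i ∧ cell i < (j' + 1) * 2 ^ (b + 1),
          ε i * F i) / 2 := by
  have h2 : 2 ^ (h - b) = 2 * 2 ^ (h - (b + 1)) := by rw [← pow_succ']; congr 1; omega
  have h3 : 2 ^ h = 2 ^ (h - b) * 2 ^ b := by rw [← pow_add]; congr 1; omega
  have h4 : 2 ^ (b + 1) = 2 * 2 ^ b := pow_succ' 2 b
  have hB : 0 < 2 ^ b := by positivity
  set m := 2 ^ (h - (b + 1)) with hm
  set B := 2 ^ b with hBdef
  rcases lt_or_ge j m with hjm | hjm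
  · refine ⟨j, hjm, 1, Or.inl rfl, fun F => ?_⟩
    rw [one_mul, ← sum_pos_half (A := A.filter (fun i => j * 2 ^ (b + 1) ≤ cell i ∧
      cell i < (j + 1) * 2 ^ (b + 1))) (fun i hi => hε i (mem_filter.1 hi).1), filter_filter]
    refine sum_congr (filter_congr fun i hi => ?_) fun _ _ => rfl
    have h1 := hc i hi
    rw [h4]
    unfold newcell
    have e1 : (j + 1) * B = j * B + B := by ring
    have e2 : j * (2 * B) = 2 * (j * B) := by ring
    have e3 : (j + 1) * (2 * B) = 2 * (j * B) + 2 * B := by ring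
    have e4 : (j + 1) * B ≤ m * B := Nat.mul_le_mul_right _ hjm
    have e5 : 2 ^ h = 2 * (m * B) := by rw [h3, h2]; ring
    by_cases h5 : ε i = 1
    · rw [if_pos h5]; simp only [h5, and_true]
      rw [e1, e2, e3]; omega
    · rw [if_neg h5]; simp only [h5, and_false, iff_false]
      rw [e5] at h1 ⊢
      omega
  · refine ⟨2 * m - 1 - j, by omega, -1, Or.inr rfl, fun F => ?_⟩
    rw [neg_one_mul, ← sub_eq_add_neg, ← sum_neg_half (A := A.filter (fun i =>
      (2 * m - 1 - j) * 2 ^ (b + 1) ≤ cell i ∧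
      cell i < (2 * m - 1 - j + 1) * 2 ^ (b + 1))) (fun i hi => hε i (mem_filter.1 hi).1),
      filter_filter]
    refine sum_congr (filter_congr fun i hi => ?_) fun _ _ => rfl
    have h1 := hc i hi
    rw [h4]
    unfold newcell
    obtain ⟨r, hr⟩ : ∃ r, 2 * m = j + 1 + r := ⟨2 * m - 1 - j, by omega⟩
    have er : 2 * m - 1 - j = r := by omega
    rw [er]
    have e1 : (j + 1) * B = j * B + B := by ring
    have e2 : r * (2 * B) = 2 * (r * B) := by ring
    have e3 : (r + 1) * (2 * B) = 2 * (r * B) + 2 * B := by ring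
    have e5 : 2 ^ h = j * B + B + r * B := by rw [h3, h2, hr]; ring
    have e6 : m * B ≤ j * B := Nat.mul_le_mul_right _ hjm
    have e7 : 2 ^ h = 2 * (m * B) := by rw [h3, h2]; ring
    by_cases h5 : ε i = 1
    · rw [if_pos h5]; simp only [h5, not_true, and_false, iff_false]
      omega
    · rw [if_neg h5]; simp only [h5, not_false_eq_true, and_true]
      rw [e1, e2, e3]
      omega

end Vale.Agent.P262F
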