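import Vale.Agent.P262F.M4It

/-! The concrete families for the arrangement -/

namespace Vale.Agent.P262F
open Finset

section fam
variable {κ : Type*} [Fintype κ] {d : ℕ}

/-- weighted matrix seminorm -/
noncomputable def wn (a : Fin d → ℝ) (L : ℕ) (Rc : Finset (Fin d)) (m : Fin d → Fin d → ℝ) : ℝ :=
  √(∑ k ∈ Rc, ∑ l ∈ Rc, m k l ^ 2 * (mu a L k * mu a L l) ^ (-(7 / 8) : ℝ))

lemma om_nonneg (a : Fin d → ℝ) (L : ℕ) (k l : Fin d) (x : ℝ) :
    0 ≤ (mu a L k * mu a L l) ^ x :=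
  Real.rpow_nonneg (mul_nonneg (mu_pos a L k).le (mu_pos a L l).le) _

lemma wn_nonneg (a : Fin d → ℝ) (L : ℕ) (Rc : Finset (Fin d)) (m : Fin d → Fin d → ℝ) :
    0 ≤ wn a L Rc m := Real.sqrt_nonneg _

lemma wn_sum_nonneg (a : Fin d → ℝ) (L : ℕ) (Rc : Finset (Fin d)) (m : Fin d → Fin d → ℝ) :
    0 ≤ ∑ k ∈ Rc, ∑ l ∈ Rc, m k l ^ 2 * (mu a L k * mu a L l) ^ (-(7 / 8) : ℝ) :=
  sum_nonneg fun k _ => sum_nonneg fun l _ => mul_nonneg (sq_nonneg _) (om_nonneg a L k l _)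

lemma wn_sq (a : Fin d → ℝ) (L : ℕ) (Rc : Finset (Fin d)) (m : Fin d → Fin d → ℝ) :
    wn a L Rc m ^ 2 = ∑ k ∈ Rc, ∑ l ∈ Rc, m k l ^ 2 * (mu a L k * mu a L l) ^ (-(7 / 8) : ℝ) :=
  Real.sq_sqrt (wn_sum_nonneg a L Rc m)

lemma wn_add (a : Fin d → ℝ) (L : ℕ) (Rc : Finset (Fin d)) (m m' : Fin d → Fin d → ℝ) :
    wn a L Rc (fun k l => m k l + m' k l) ≤ wn a L Rc m + wn a L Rc m' := by
  have h := wl2_add (Rc ×ˢ Rc) (fun p => (mu a L p.1 * mu a L p.2) ^ (-(7 / 8) : ℝ))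
    (fun p => m p.1 p.2) (fun p => m' p.1 p.2) (fun p _ => om_nonneg a L p.1 p.2 _)
  unfold wn
  simp only [sum_product] at h
  exact h

lemma wn_smul (a : Fin d → ℝ) (L : ℕ) (Rc : Finset (Fin d)) (c : ℝ) (m : Fin d → Fin d → ℝ) :
    wn a L Rc (fun k l => c * m k l) = |c| * wn a L Rc m := by
  have h := wl2_smul (Rc ×ˢ Rc) (fun p => (mu a L p.1 * mu a L p.2) ^ (-(7 / 8) : ℝ))
    (fun p => m p.1 p.2) c
  unfold wn
  simp only [sum_product] at h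
  exact h

/-- the diagonal matrix `diag μ(L)` -/
noncomputable def dg (a : Fin d → ℝ) (L : ℕ) (k l : Fin d) : ℝ := if k = l then mu a L k else 0

lemma QQ_eq_wn {ι : Type*} (a : Fin d → ℝ) (v : ι → Fin d → ℝ) (L : ℕ) (Rc : Finset (Fin d))
    (A : Finset ι) : √(QQ a v L Rc A) = wn a L Rc (fun k l => MM v A k l - dg a L k l) := rfl

lemma wn_child {ι : Type*} (a : Fin d → ℝ) (v : ι → Fin d → ℝ) {L h : ℕ} (hhL : h ≤ L)
    (Rc : Finset (Fin d)) (A : Finset ι) :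
    wn a L Rc (fun k l => MM v A k l / 2 ^ h - dg a L k l) =
      (2 : ℝ) ^ (-(h : ℝ) / 8) * √(QQ a v (L - h) Rc A) := by
  have e1 : wn a L Rc (fun k l => MM v A k l / 2 ^ h - dg a L k l) ^ 2 =
      ((2 : ℝ) ^ (-(h : ℝ) / 8)) ^ 2 * QQ a v (L - h) Rc A := by
    rw [wn_sq]
    unfold QQ
    rw [mul_sum]
    refine sum_congr rfl fun k _ => ?_
    rw [mul_sum]
    refine sum_congr rfl fun l _ => ?_
    have hk := mu_pos a L k
    have hl := mu_pos a L l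
    have e2 : (mu a (L - h) k * mu a (L - h) l) ^ (-(7 / 8) : ℝ) =
        (2 : ℝ) ^ (-(7 / 4) * (h : ℝ)) * (mu a L k * mu a L l) ^ (-(7 / 8) : ℝ) := by
      rw [mu_sub a L h hhL k, mu_sub a L h hhL l,
        show (2 : ℝ) ^ h * mu a L k * (2 ^ h * mu a L l) = (2 : ℝ) ^ (2 * (h : ℝ)) *
          (mu a L k * mu a L l) by
          rw [show 2 * (h : ℝ) = (h : ℝ) + h by ring, Real.rpow_add (by norm_num),
            Real.rpow_natCast]
          ring,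
        Real.mul_rpow (by positivity) (by positivity), ← Real.rpow_mul (by norm_num)]
      congr 2
      ring
    have e3 : (MM v A k l - if k = l then mu a (L - h) k else 0) =
        (2 : ℝ) ^ (h : ℝ) * (MM v A k l / 2 ^ h - dg a L k l) := by
      unfold dg
      rw [mu_sub a L h hhL k]
      have hp : (2 : ℝ) ^ h ≠ 0 := by positivity
      by_cases hkl : k = l
      · rw [if_pos hkl, if_pos hkl, Real.rpow_natCast]; field_simp
      · rw [if_neg hkl, if_neg hkl, sub_zero, sub_zero, Real.rpow_natCast]; field_simp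
    rw [e2, e3, mul_pow]
    have e4 : ((2 : ℝ) ^ (-(h : ℝ) / 8)) ^ 2 * (((2 : ℝ) ^ (h : ℝ)) ^ 2 *
        (2 : ℝ) ^ (-(7 / 4) * (h : ℝ))) = 1 := by
      rw [← Real.rpow_natCast ((2 : ℝ) ^ (-(h : ℝ) / 8)) 2,
        ← Real.rpow_natCast ((2 : ℝ) ^ (h : ℝ)) 2, ← Real.rpow_mul (by norm_num),
        ← Real.rpow_mul (by norm_num), ← Real.rpow_add (by norm_num),
        ← Real.rpow_add (by norm_num)]
      rw [show -(h : ℝ) / 8 * ((2 : ℕ) : ℝ) + ((h : ℝ) * ((2 : ℕ) : ℝ) + -(7 / 4) * (h : ℝ)) = 0 by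
        push_cast; ring, Real.rpow_zero]
    calc _ = 1 * ((MM v A k l / 2 ^ h - dg a L k l) ^ 2 *
          (mu a L k * mu a L l) ^ (-(7 / 8) : ℝ)) := by ring
      _ = _ := by rw [← e4]; ring
  rw [← Real.sq_sqrt (QQ_nonneg a v (L - h) Rc A), ← mul_pow] at e1
  exact (pow_left_inj₀ (wn_nonneg _ _ _ _) (by positivity) (by norm_num)).1 e1

lemma wn_diag {a : Fin d → ℝ} {L : ℕ} {Rc : Finset (Fin d)} {m : Fin d → Fin d → ℝ} {B s : ℝ}
    (hs : 0 ≤ s) (hm : wn a L Rc (fun k l => m k l - B * dg a L k l) ≤ s)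
    {k : Fin d} (hk : k ∈ Rc) (hμ : 1 ≤ mu a L k) : m k k ≤ B * mu a L k + s * mu a L k := by
  have h0 : ∀ k l, 0 ≤ (m k l - B * dg a L k l) ^ 2 *
    (mu a L k * mu a L l) ^ (-(7 / 8) : ℝ) := fun k l => mul_nonneg (sq_nonneg _)
      (om_nonneg a L k l _)
  have hQ : ∑ k ∈ Rc, ∑ l ∈ Rc, (m k l - B * dg a L k l) ^ 2 *
      (mu a L k * mu a L l) ^ (-(7 / 8) : ℝ) ≤ s ^ 2 := by
    rw [← wn_sq]
    exact pow_le_pow_left₀ (wn_nonneg _ _ _ _) hm 2
  have h1 : (m k k - B * dg a L k k) ^ 2 *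
      (mu a L k * mu a L k) ^ (-(7 / 8) : ℝ) ≤ s ^ 2 := by
    refine le_trans ?_ hQ
    refine le_trans ?_ (single_le_sum (f := fun k => ∑ l ∈ Rc,
      (m k l - B * dg a L k l) ^ 2 *
      (mu a L k * mu a L l) ^ (-(7 / 8) : ℝ)) (fun k _ => sum_nonneg fun l _ => h0 k l) hk)
    exact single_le_sum (f := fun l => (m k l - B * dg a L k l) ^ 2 *
      (mu a L k * mu a L l) ^ (-(7 / 8) : ℝ)) (fun l _ => h0 k l) hk
  have e0 : dg a L k k = mu a L k := by unfold dg; rw [if_pos rfl]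
  rw [e0] at h1
  have hμ0 := mu_pos a L k
  have e1 : (mu a L k * mu a L k) ^ (-(7 / 8) : ℝ) = mu a L k ^ (-(7 / 4) : ℝ) := by
    rw [Real.mul_rpow hμ0.le hμ0.le, ← Real.rpow_add hμ0]; norm_num
  have h2 : mu a L k ^ (-2 : ℝ) ≤ mu a L k ^ (-(7 / 4) : ℝ) :=
    Real.rpow_le_rpow_of_exponent_le hμ (by norm_num)
  rw [e1] at h1
  have h3 : (m k k - B * mu a L k) ^ 2 * mu a L k ^ (-2 : ℝ) ≤ s ^ 2 :=
    le_trans (mul_le_mul_of_nonneg_left h2 (sq_nonneg _)) h1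
  have e2 : mu a L k ^ (-2 : ℝ) = (mu a L k ^ 2)⁻¹ := by
    rw [Real.rpow_neg hμ0.le]; norm_num
  rw [e2, ← div_eq_mul_inv, div_le_iff₀ (by positivity), ← mul_pow] at h3
  have h4 := abs_le_of_sq_le_sq h3 (by positivity)
  have := le_abs_self (m k k - B * mu a L k)
  linarith

/-- one row -/
noncomputable def FE (e : κ → ℝ) (r : Option (Fin d × Fin d)) (i : κ) : ℝ :=
  match r with
  | none => e i
  | some _ => 0

/-- quadratic rows -/
noncomputable def FQ (a : Fin d → ℝ) (L : ℕ) (Rc : Finset (Fin d)) (w : κ → Fin d → ℝ)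
    (r : Option (Fin d × Fin d)) (i : κ) : ℝ :=
  match r with
  | none => 0
  | some (k, l) => if k ∈ Rc then (if l ∈ Rc then
      w i k * w i l * (mu a L k * mu a L l) ^ (-(7 / 16) : ℝ) else 0) else 0

/-- linear rows -/
noncomputable def FD (D : Finset (Fin d)) (α : Fin d → ℝ) (w : κ → Fin d → ℝ)
    (r : Option (Fin d × Fin d)) (i : κ) : ℝ :=
  match r with
  | none => 0
  | some (k, l) => if k ∈ D then (if k = l then α k * w i k else 0) else 0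

lemma sum_opt (T : Option (Fin d × Fin d) → ℝ) :
    ∑ r, T r = T none + ∑ k, ∑ l, T (some (k, l)) := by
  rw [Fintype.sum_option, Fintype.sum_prod_type]

lemma RN_FE (e : κ → ℝ) (y : κ → ℝ) : RN (FE (d := d) e) y = |∑ i, y i * e i| := by
  unfold RN
  rw [sum_opt]
  simp only [FE, mul_zero, sum_const_zero, ne_eq, OfNat.ofNat_ne_zero, not_false_eq_true, zero_pow,
    add_zero]
  rw [Real.sqrt_sq_eq_abs]

lemma sum_FE (e : κ → ℝ) (u : κ → ℝ) :
    ∑ r, ∑ i, (u i * FE (d := d) e r i) ^ 2 = ∑ i, (u i * e i) ^ 2 := by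
  rw [sum_opt]
  simp [FE]

lemma sum_ite1 (Rc : Finset (Fin d)) (g : Fin d → ℝ) :
    ∑ k, (if k ∈ Rc then g k else 0) = ∑ k ∈ Rc, g k := by
  rw [Finset.sum_ite_mem, Finset.univ_inter]

lemma sum_ite2 (Rc : Finset (Fin d)) (T : Fin d → Fin d → ℝ) :
    ∑ k, ∑ l, (if k ∈ Rc then (if l ∈ Rc then T k l else 0) else 0) =
      ∑ k ∈ Rc, ∑ l ∈ Rc, T k l := by
  rw [← sum_ite1 Rc (fun k => ∑ l ∈ Rc, T k l)]
  refine sum_congr rfl fun k _ => ?_
  by_cases hk : k ∈ Rc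
  · simp only [if_pos hk]
    rw [sum_ite1]
  · simp only [if_neg hk, sum_const_zero]

lemma RN_FQ (a : Fin d → ℝ) (L : ℕ) (Rc : Finset (Fin d)) (w : κ → Fin d → ℝ) (y : κ → ℝ) :
    RN (FQ a L Rc w) y = wn a L Rc (fun k l => ∑ i, y i * (w i k * w i l)) := by
  unfold RN wn
  congr 1
  rw [sum_opt, ← sum_ite2 Rc]
  simp only [FQ, mul_zero, sum_const_zero, ne_eq, OfNat.ofNat_ne_zero, not_false_eq_true, zero_pow,
    zero_add]
  refine sum_congr rfl fun k _ => sum_congr rfl fun l _ => ?_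
  by_cases hk : k ∈ Rc
  · by_cases hl : l ∈ Rc
    · simp only [if_pos hk, if_pos hl]
      have hp : 0 < mu a L k * mu a L l := mul_pos (mu_pos a L k) (mu_pos a L l)
      have e : ∑ i, y i * (w i k * w i l * (mu a L k * mu a L l) ^ (-(7 / 16) : ℝ)) =
          (∑ i, y i * (w i k * w i l)) * (mu a L k * mu a L l) ^ (-(7 / 16) : ℝ) := by
        rw [sum_mul]
        exact sum_congr rfl fun i _ => by ring
      rw [e, mul_pow, ← Real.rpow_natCast ((mu a L k * mu a L l) ^ (-(7 / 16) : ℝ)) 2,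
        ← Real.rpow_mul hp.le]
      norm_num
    · simp [hl]
  · simp [hk]

lemma sum_FQ (a : Fin d → ℝ) (L : ℕ) (Rc : Finset (Fin d)) (w : κ → Fin d → ℝ) {u : κ → ℝ}
    (hu : ∀ i, u i = 0 ∨ u i = 1) :
    ∑ r, ∑ i, (u i * FQ a L Rc w r i) ^ 2 =
      ∑ i with u i = 1, ∑ k ∈ Rc, ∑ l ∈ Rc, (w i k * w i l) ^ 2 *
        (mu a L k * mu a L l) ^ (-(7 / 8) : ℝ) := by
  rw [sum_opt]
  simp only [FQ, mul_zero, sum_const_zero, ne_eq, OfNat.ofNat_ne_zero, not_false_eq_true, zero_pow,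
    zero_add]
  rw [sum_filter]
  have e1 : ∀ k l, ∑ i, (u i * if k ∈ Rc then (if l ∈ Rc then
      w i k * w i l * (mu a L k * mu a L l) ^ (-(7 / 16) : ℝ) else 0) else 0) ^ 2 =
      if k ∈ Rc then (if l ∈ Rc then ∑ i, (if u i = 1 then (w i k * w i l) ^ 2 *
        (mu a L k * mu a L l) ^ (-(7 / 8) : ℝ) else 0) else 0) else 0 := by
    intro k l
    by_cases hk : k ∈ Rc
    · by_cases hl : l ∈ Rc
      · simp only [if_pos hk, if_pos hl]
        refine sum_congr rfl fun i _ => ?_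
        have hp : 0 < mu a L k * mu a L l := mul_pos (mu_pos a L k) (mu_pos a L l)
        rw [mul_pow, mul_pow (w i k * w i l),
          ← Real.rpow_natCast ((mu a L k * mu a L l) ^ (-(7 / 16) : ℝ)) 2, ← Real.rpow_mul hp.le]
        rcases hu i with h | h
        · rw [h, if_neg (by norm_num)]; norm_num
        · rw [h, if_pos rfl]; norm_num
      · simp [hl]
    · simp [hk]
  simp_rw [e1]
  rw [sum_ite2]
  have e2 : ∀ i, (if u i = 1 then ∑ k ∈ Rc, ∑ l ∈ Rc, (w i k * w i l) ^ 2 *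
        (mu a L k * mu a L l) ^ (-(7 / 8) : ℝ) else 0) = ∑ k ∈ Rc, ∑ l ∈ Rc, (if u i = 1 then
        (w i k * w i l) ^ 2 * (mu a L k * mu a L l) ^ (-(7 / 8) : ℝ) else 0) := by
    intro i
    split_ifs <;> simp
  simp_rw [e2]
  exact (sum_congr rfl fun k _ => sum_comm).trans sum_comm

lemma RN_FD_sq (D : Finset (Fin d)) (α : Fin d → ℝ) (w : κ → Fin d → ℝ) (y : κ → ℝ) :
    RN (FD D α w) y ^ 2 = ∑ k ∈ D, (α k * ∑ i, y i * w i k) ^ 2 := by
  rw [RN_sq, sum_opt]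
  simp only [FD, mul_zero, sum_const_zero, ne_eq, OfNat.ofNat_ne_zero, not_false_eq_true, zero_pow,
    zero_add]
  rw [← sum_ite1 D]
  refine sum_congr rfl fun k _ => ?_
  by_cases hk : k ∈ D
  · simp only [if_pos hk]
    rw [sum_eq_single k]
    · simp only [if_true]
      rw [mul_sum]
      congr 1
      exact sum_congr rfl fun i _ => by ring
    · intro l _ hl
      simp [Ne.symm hl]
    · simp
  · simp [hk]

lemma sum_FD (D : Finset (Fin d)) (α : Fin d → ℝ) (w : κ → Fin d → ℝ) :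
    ∑ r, ∑ i, FD D α w r i ^ 2 = ∑ i, ∑ k ∈ D, (α k * w i k) ^ 2 := by
  rw [sum_comm]
  refine sum_congr rfl fun i _ => ?_
  rw [sum_opt]
  simp only [FD, ne_eq, OfNat.ofNat_ne_zero, not_false_eq_true, zero_pow, zero_add]
  rw [← sum_ite1 D]
  refine sum_congr rfl fun k _ => ?_
  by_cases hk : k ∈ D
  · simp only [if_pos hk]
    rw [sum_eq_single k]
    · simp
    · intro l _ hl
      simp [Ne.symm hl]
    · simp
  · simp [hk]

end fam

section h2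
variable {κ : Type*} [Fintype κ] {d : ℕ}

lemma two_pow_sqrt (b : ℕ) : (√2 ^ b) ^ 2 = (2 : ℝ) ^ b := by
  rw [← pow_mul, mul_comm, pow_mul, Real.sq_sqrt (by norm_num)]

lemma one_le_sqrt_pow (b : ℕ) : (1 : ℝ) ≤ √2 ^ b := by
  apply one_le_pow₀
  rw [Real.one_le_sqrt]; norm_num

/-- size estimate for the energy family -/
lemma h2_E {e : κ → ℝ} (he0 : ∀ i, 0 ≤ e i) (he3 : ∀ i, e i ≤ 3) {h : ℕ} {w K ρ : ℝ}
    (hw0 : 0 ≤ w) (hw : ∑ i, e i ≤ 2 ^ h * w) (hK : 0 < K) (hρK : 75 / 2 * K ≤ ρ)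
    (hρw : 75 / 2 * K * w ≤ ρ ^ 2) {M : ℝ} (hM : 1 ≤ M) {b : ℕ} {u : κ → ℝ}
    (hu : ∀ i, u i = 0 ∨ u i = 1)
    (hR : RN (FE (d := d) e) (fun i => u i - (2 : ℝ) ^ b / 2 ^ h) ≤ M * ρ * √2 ^ b) :
    ∑ r, ∑ i, (u i * FE (d := d) e r i) ^ 2 ≤ 4 / 25 * (M * ρ * √2 ^ b) ^ 2 / K := by
  rw [sum_FE]
  rw [RN_FE] at hR
  have hρ0 : 0 < ρ := lt_of_lt_of_le (by positivity) hρK
  have h1 : ∑ i, (u i * e i) ^ 2 ≤ 3 * ∑ i, u i * e i := by
    rw [mul_sum]
    refine sum_le_sum fun i _ => ?_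
    rcases hu i with h | h <;> rw [h]
    · simp
    · nlinarith [he0 i, he3 i]
  have h2 : ∑ i, (u i - (2 : ℝ) ^ b / 2 ^ h) * e i = ∑ i, u i * e i - 2 ^ b / 2 ^ h * ∑ i, e i := by
    rw [mul_sum, ← sum_sub_distrib]
    exact sum_congr rfl fun i _ => by ring
  rw [h2] at hR
  have h3 := (le_abs_self _).trans hR
  have h4 : (2 : ℝ) ^ b / 2 ^ h * ∑ i, e i ≤ 2 ^ b * w := by
    calc (2 : ℝ) ^ b / 2 ^ h * ∑ i, e i ≤ 2 ^ b / 2 ^ h * (2 ^ h * w) :=
          mul_le_mul_of_nonneg_left hw (by positivity)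
      _ = _ := by field_simp
  have hp := one_le_sqrt_pow b
  set p := √2 ^ b with hpdef
  have hp2 : p ^ 2 = (2 : ℝ) ^ b := two_pow_sqrt b
  rw [← hp2] at h4 h3
  rw [le_div_iff₀ hK]
  have h5 : ∑ i, (u i * e i) ^ 2 ≤ 3 * (p ^ 2 * w + M * ρ * p) := by linarith
  have hMp : 1 ≤ M * p := by nlinarith
  have h6 : p ^ 2 ≤ (M * p) ^ 2 := pow_le_pow_left₀ (by linarith) (by nlinarith) 2
  have h7 : 3 * (p ^ 2 * w) * K ≤ 2 / 25 * ((M * p) ^ 2 * ρ ^ 2) := by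
    have : p ^ 2 * (w * K) ≤ (M * p) ^ 2 * (2 / 75 * ρ ^ 2) := by
      apply mul_le_mul h6 _ (by positivity) (by positivity)
      linarith
    linarith
  have h8 : 3 * (M * ρ * p) * K ≤ 2 / 25 * ((M * p) ^ 2 * ρ ^ 2) := by
    have h9 : (M * p) * (ρ * K) ≤ (M * p) ^ 2 * (ρ * (2 / 75 * ρ)) := by
      apply mul_le_mul _ _ (by positivity) (by positivity)
      · nlinarith
      · apply mul_le_mul_of_nonneg_left _ hρ0.le
        linarith
    nlinarith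
  calc (∑ i, (u i * e i) ^ 2) * K ≤ 3 * (p ^ 2 * w + M * ρ * p) * K :=
        mul_le_mul_of_nonneg_right h5 hK.le
    _ = 3 * (p ^ 2 * w) * K + 3 * (M * ρ * p) * K := by ring
    _ ≤ 2 / 25 * ((M * p) ^ 2 * ρ ^ 2) + 2 / 25 * ((M * p) ^ 2 * ρ ^ 2) := add_le_add h7 h8
    _ = _ := by ring

/-- size estimate for the quadratic family -/
lemma h2_Q {a : Fin d → ℝ} {L : ℕ} {Rc : Finset (Fin d)} {w : κ → Fin d → ℝ}
    (hw : ∀ i, ∑ k, w i k ^ 2 ≤ 1) (hμ : ∀ k ∈ Rc, 1 ≤ mu a L k) {h : ℕ} {K ρ : ℝ} (hK : 0 < K)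
    (hρ0 : 0 ≤ ρ) (hρ1 : ρ ≤ 1)
    (hρ : 16 * K * (∑ k ∈ Rc, mu a L k ^ (-(3 / 8) : ℝ)) ^ 2 ≤ ρ ^ 2)
    (hA : wn a L Rc (fun k l => MM w univ k l / 2 ^ h - dg a L k l) ≤ 1 / 2)
    {M : ℝ} (hM : 1 ≤ M) {b : ℕ} {u : κ → ℝ} (hu : ∀ i, u i = 0 ∨ u i = 1)
    (hR : RN (FQ a L Rc w) (fun i => u i - (2 : ℝ) ^ b / 2 ^ h) ≤ M * ρ * √2 ^ b) :
    ∑ r, ∑ i, (u i * FQ a L Rc w r i) ^ 2 ≤ 4 / 25 * (M * ρ * √2 ^ b) ^ 2 / K := by
  rw [sum_FQ a L Rc w hu]
  rw [RN_FQ] at hR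
  have hp := one_le_sqrt_pow b
  set p := √2 ^ b with hpdef
  have hp2 : p ^ 2 = (2 : ℝ) ^ b := two_pow_sqrt b
  have hu1 : ∀ k l, ∑ i, u i * (w i k * w i l) = MM w (univ.filter fun i => u i = 1) k l := by
    intro k l
    unfold MM
    rw [sum_filter]
    refine sum_congr rfl fun i _ => ?_
    rcases hu i with h | h <;> rw [h]
    · simp
    · simp
  have h1 : wn a L Rc (fun k l => MM w (univ.filter fun i => u i = 1) k l - p ^ 2 * dg a L k l) ≤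
      p ^ 2 * (M + 1 / 2) := by
    have e : (fun k l => MM w (univ.filter fun i => u i = 1) k l - p ^ 2 * dg a L k l) =
        fun k l => (∑ i, (u i - (2 : ℝ) ^ b / 2 ^ h) * (w i k * w i l)) +
          p ^ 2 * (MM w univ k l / 2 ^ h - dg a L k l) := by
      funext k l
      rw [← hu1 k l]
      have : ∑ i, (u i - (2 : ℝ) ^ b / 2 ^ h) * (w i k * w i l) =
          ∑ i, u i * (w i k * w i l) - 2 ^ b / 2 ^ h * MM w univ k l := by
        unfold MM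
        rw [mul_sum, ← sum_sub_distrib]
        exact sum_congr rfl fun i _ => by ring
      rw [this, ← hp2]
      ring
    rw [e]
    refine (wn_add a L Rc _ _).trans ?_
    rw [wn_smul, abs_of_nonneg (by positivity)]
    have h3 : M * ρ * p ≤ p ^ 2 * M := by
      have : M * p * ρ ≤ M * p * p := by
        apply mul_le_mul_of_nonneg_left _ (by positivity)
        linarith
      nlinarith
    have h4 : p ^ 2 * wn a L Rc (fun k l => MM w univ k l / 2 ^ h - dg a L k l) ≤ p ^ 2 * (1 / 2) :=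
      mul_le_mul_of_nonneg_left hA (by positivity)
    nlinarith
  have h2 : ∀ k ∈ Rc, MM w (univ.filter fun i => u i = 1) k k ≤ (5 / 2 * M * p ^ 2) * mu a L k := by
    intro k hk
    have h3 := wn_diag (m := MM w (univ.filter fun i => u i = 1)) (by positivity) h1 hk (hμ k hk)
    have h4 := mu_pos a L k
    have h5 : p ^ 2 * mu a L k + p ^ 2 * (M + 1 / 2) * mu a L k ≤
        5 / 2 * M * p ^ 2 * mu a L k := by
      have : 0 ≤ (M - 1) * (p ^ 2 * mu a L k) := mul_nonneg (by linarith) (by positivity)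
      nlinarith
    linarith
  have h3 := four_moment (A := univ.filter fun i => u i = 1) (fun i _ => hw i)
    (by positivity : 0 ≤ 5 / 2 * M * p ^ 2) h2
  refine h3.trans ?_
  rw [le_div_iff₀ hK]
  have h4 : M ≤ M ^ 2 := by nlinarith
  set σ := ∑ k ∈ Rc, mu a L k ^ (-(3 / 8) : ℝ) with hσ
  calc 5 / 2 * M * p ^ 2 * σ ^ 2 * K = 5 / 2 * M * (p ^ 2 * (K * σ ^ 2)) := by ring
    _ ≤ 5 / 2 * M ^ 2 * (p ^ 2 * (1 / 16 * ρ ^ 2)) := by
        apply mul_le_mul (by linarith) _ (by positivity) (by positivity)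
        apply mul_le_mul_of_nonneg_left _ (by positivity)
        linarith
    _ ≤ 4 / 25 * (M * ρ * p) ^ 2 := by
        have : 0 ≤ (M * ρ * p) ^ 2 := sq_nonneg _
        nlinarith

end h2

end Vale.Agent.P262F
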