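import Vale.Agent.P262F.M4Step

/-! Iterating the arrangement step -/

namespace Vale.Agent.P262F
open Finset

section it
variable {κ X C Z R : Type*} [Fintype κ] [DecidableEq κ] [Fintype X] [DecidableEq X]
  [Fintype C] [Fintype Z] [Fintype R]

lemma Bd.mono {h : ℕ} {w : κ → X → ℝ} {S : C → Finset X} {ρx : C → ℝ} (hρx : ∀ s, 0 < ρx s)
    {F1 : R → κ → ℝ} {ρ1 : ℝ} (hρ1 : 0 < ρ1) {F2 : Z → R → κ → ℝ} {ρ2 : Z → ℝ}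
    (hρ2 : ∀ z, 0 < ρ2 z) {c : κ → ℕ} {M M' : ℝ} (hM : M ≤ M')
    (hc : Bd h w S ρx F1 ρ1 F2 ρ2 c M) : Bd h w S ρx F1 ρ1 F2 ρ2 c M' where
  lt := hc.lt
  x := fun m hm s => (hc.x m hm s).trans (mul_le_mul_of_nonneg_right hM (hρx s).le)
  y1 := fun m hm => (hc.y1 m hm).trans (mul_le_mul_of_nonneg_right hM hρ1.le)
  y2 := fun z b hb j hj => (hc.y2 z b hb j hj).trans
    (mul_le_mul_of_nonneg_right (mul_le_mul_of_nonneg_right hM (hρ2 z).le) (by positivity))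

lemma base_aux {h : ℕ} {m : ℕ} (hm : m ≤ 2 ^ h) {x : ℝ} (hx : x = 0 ∨ x = 1) :
    |x - (m : ℝ) / 2 ^ h| ≤ 1 := by
  have hp : (0 : ℝ) < 2 ^ h := by positivity
  have h1 : (m : ℝ) ≤ 2 ^ h := by exact_mod_cast hm
  have h2 : (m : ℝ) / 2 ^ h ≤ 1 := by rw [div_le_one hp]; exact h1
  have h3 : 0 ≤ (m : ℝ) / 2 ^ h := by positivity
  rw [abs_le]
  rcases hx with rfl | rfl <;> constructor <;> linarith

lemma base_aux2 {b : ℕ} {U ρ M0 : ℝ} (hρ : 0 < ρ) (hM0 : 0 ≤ M0) (h1 : U / ρ ≤ M0) :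
    U ≤ M0 * ρ * √2 ^ b := by
  rw [div_le_iff₀ hρ] at h1
  refine h1.trans ?_
  have h4 : (1 : ℝ) ≤ √2 ^ b := by
    apply one_le_pow₀
    rw [Real.one_le_sqrt]; norm_num
  exact le_mul_of_one_le_right (mul_nonneg hM0 hρ.le) h4

lemma Bd_base (h : ℕ) (w : κ → X → ℝ) (S : C → Finset X) {ρx : C → ℝ} (hρx : ∀ s, 0 < ρx s)
    (F1 : R → κ → ℝ) {ρ1 : ℝ} (hρ1 : 0 < ρ1) (F2 : Z → R → κ → ℝ) {ρ2 : Z → ℝ}
    (hρ2 : ∀ z, 0 < ρ2 z) : ∃ M, Bd h w S ρx F1 ρ1 F2 ρ2 (fun _ => 0) M := by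
  have nx : ∀ s, 0 ≤ √(∑ r, (∑ i, |FX w (S s) r i|) ^ 2) / ρx s :=
    fun s => div_nonneg (Real.sqrt_nonneg _) (hρx s).le
  have n1 : 0 ≤ √(∑ r, (∑ i, |F1 r i|) ^ 2) / ρ1 := div_nonneg (Real.sqrt_nonneg _) hρ1.le
  have n2 : ∀ z, 0 ≤ √(∑ r, (∑ i, |F2 z r i|) ^ 2) / ρ2 z :=
    fun z => div_nonneg (Real.sqrt_nonneg _) (hρ2 z).le
  obtain ⟨Mx, hMx0, hMx⟩ : ∃ Mx, 0 ≤ Mx ∧ ∀ s, √(∑ r, (∑ i, |FX w (S s) r i|) ^ 2) / ρx s ≤ Mx :=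
    ⟨_, sum_nonneg fun s _ => nx s, fun s => single_le_sum
      (f := fun s => √(∑ r, (∑ i, |FX w (S s) r i|) ^ 2) / ρx s) (fun s _ => nx s) (mem_univ s)⟩
  obtain ⟨M2, hM20, hM2⟩ : ∃ M2, 0 ≤ M2 ∧ ∀ z, √(∑ r, (∑ i, |F2 z r i|) ^ 2) / ρ2 z ≤ M2 :=
    ⟨_, sum_nonneg fun s _ => n2 s, fun s => single_le_sum
      (f := fun z => √(∑ r, (∑ i, |F2 z r i|) ^ 2) / ρ2 z) (fun s _ => n2 s) (mem_univ s)⟩
  refine ⟨Mx + √(∑ r, (∑ i, |F1 r i|) ^ 2) / ρ1 + M2, fun _ => by positivity, ?_, ?_, ?_⟩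
  · intro m hm s
    refine (RN_le_of_abs _ fun i => base_aux hm (ip_01 _ _)).trans ?_
    have h1 := hMx s
    rw [← div_le_iff₀ (hρx s)]
    linarith
  · intro m hm
    refine (RN_le_of_abs _ fun i => base_aux hm (ip_01 _ _)).trans ?_
    rw [← div_le_iff₀ hρ1]
    linarith
  · intro z b hb j hj
    have hb2 : 2 ^ b ≤ 2 ^ h := Nat.pow_le_pow_right (by norm_num) hb
    have h3 : ∀ i : κ, |idy ((fun _ => 0 : κ → ℕ) i) b j - (2 : ℝ) ^ b / 2 ^ h| ≤ 1 := by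
      intro i
      have := base_aux hb2 (idy_01 0 b j)
      push_cast at this
      exact this
    refine (RN_le_of_abs _ h3).trans (base_aux2 (hρ2 z) (by linarith) ?_)
    have h1 := hM2 z
    linarith

theorem arr {h : ℕ} (hh : 1 ≤ h) {w : κ → X → ℝ} (hw : ∀ i, ∑ k, w i k ^ 2 ≤ 1)
    {S : C → Finset X} {ρx : C → ℝ} (hρx : ∀ s, 0 < ρx s) {F1 : R → κ → ℝ} {ρ1 : ℝ}
    (hρ1 : 0 < ρ1) (h1 : ∑ r, ∑ i, F1 r i ^ 2 ≤ 4 / 25 * ρ1 ^ 2 / (K0 * (h + 5)))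
    {F2 : Z → R → κ → ℝ} {ρ2 : Z → ℝ} (hρ2 : ∀ z, 0 < ρ2 z)
    (h2 : ∀ z, ∀ M : ℝ, 1 ≤ M → ∀ b ≤ h, ∀ u : κ → ℝ, (∀ i, u i = 0 ∨ u i = 1) →
      RN (F2 z) (fun i => u i - (2 : ℝ) ^ b / 2 ^ h) ≤ M * ρ2 z * √2 ^ b →
      ∑ r, ∑ i, (u i * F2 z r i) ^ 2 ≤ 4 / 25 * (M * ρ2 z * √2 ^ b) ^ 2 / (K0 * (h + 5)))
    (hZ : Fintype.card Z ≤ 2)
    (hsum : ∑ s, (2 : ℝ) ^ h * ((2 : ℝ) ^ (((S s).card : ℝ) / 2) *
      Real.exp (-(4 / 25 * ρx s ^ 2) / K0)) ≤ 1 / 4) :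
    ∃ c : κ → ℕ, Bd h w S ρx F1 ρ1 F2 ρ2 c 1 := by
  obtain ⟨M0, hM0⟩ := Bd_base h w S hρx F1 hρ1 F2 hρ2
  have key : ∀ k : ℕ, ∃ c, Bd h w S ρx F1 ρ1 F2 ρ2 c (max 1 ((99 / 100) ^ k * M0)) := by
    intro k
    induction k with
    | zero => exact ⟨_, hM0.mono hρx hρ1 hρ2 (by simp)⟩
    | succ k ih =>
      obtain ⟨c, hc⟩ := ih
      obtain ⟨c', hc'⟩ := arr_step hh hw hρx hρ1 h1 hρ2 h2 hZ hsum (le_max_left _ _) hc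
      refine ⟨c', hc'.mono hρx hρ1 hρ2 ?_⟩
      rcases le_total 1 ((99 / 100 : ℝ) ^ k * M0) with h3 | h3
      · rw [max_eq_right h3, pow_succ]
        refine le_trans (le_of_eq ?_) (le_max_right _ _)
        ring
      · rw [max_eq_left h3]
        refine le_trans (by norm_num) (le_max_left _ _)
  have hlim : Filter.Tendsto (fun k : ℕ => (99 / 100 : ℝ) ^ k * M0) Filter.atTop (nhds (0 * M0)) :=
    (tendsto_pow_atTop_nhds_zero_of_lt_one (by norm_num) (by norm_num)).mul_const M0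
  rw [zero_mul] at hlim
  obtain ⟨k, hk⟩ := (hlim.eventually (gt_mem_nhds (show (0 : ℝ) < 1 by norm_num))).exists
  obtain ⟨c, hc⟩ := key k
  rw [max_eq_left hk.le] at hc
  exact ⟨c, hc⟩

end it

end Vale.Agent.P262F
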