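import Vale.Agent.P262F.M4Arr

/-! One step of the dyadic arrangement -/

namespace Vale.Agent.P262F
open Finset

section step
variable {κ X C Z R : Type*} [Fintype κ] [DecidableEq κ] [Fintype X] [DecidableEq X]
  [Fintype C] [Fintype Z] [Fintype R]

/-- rows of an x-type constraint -/
noncomputable def FX (w : κ → X → ℝ) (S : Finset X) (k : X) (i : κ) : ℝ :=
  if k ∈ S then w i k else 0

lemma RN_FX_sq (w : κ → X → ℝ) (S : Finset X) (y : κ → ℝ) :
    RN (FX w S) y ^ 2 = ∑ k ∈ S, (∑ i, y i * w i k) ^ 2 := by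
  rw [RN_sq]
  have e : ∀ k, (∑ i, y i * FX w S k i) ^ 2 = if k ∈ S then (∑ i, y i * w i k) ^ 2 else 0 := by
    intro k
    unfold FX
    by_cases hk : k ∈ S <;> simp [hk]
  simp_rw [e]
  rw [Finset.sum_ite_mem, Finset.univ_inter]

/-- the constraints on an assignment -/
structure Bd (h : ℕ) (w : κ → X → ℝ) (S : C → Finset X) (ρx : C → ℝ) (F1 : R → κ → ℝ) (ρ1 : ℝ)
    (F2 : Z → R → κ → ℝ) (ρ2 : Z → ℝ) (c : κ → ℕ) (M : ℝ) : Prop where
  lt : ∀ i, c i < 2 ^ h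
  x : ∀ m ≤ 2 ^ h, ∀ s, RN (FX w (S s)) (fun i => ip (c i) m - (m : ℝ) / 2 ^ h) ≤ M * ρx s
  y1 : ∀ m ≤ 2 ^ h, RN F1 (fun i => ip (c i) m - (m : ℝ) / 2 ^ h) ≤ M * ρ1
  y2 : ∀ z, ∀ b ≤ h, ∀ j < 2 ^ (h - b),
    RN (F2 z) (fun i => idy (c i) b j - (2 : ℝ) ^ b / 2 ^ h) ≤ M * ρ2 z * √2 ^ b

lemma count_bound (h : ℕ) {zc : ℕ} (hz : zc ≤ 2) :
    ((2 : ℝ) ^ h + zc * ((h + 1) * 2 ^ h)) * (√2 * Real.exp (-((h : ℝ) + 5))) ≤ 1 / 4 := by
  have h1 : ((h : ℝ) + 1) ≤ 2 * (27 / 20 : ℝ) ^ h := by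
    have : ∀ n : ℕ, ((n : ℝ) + 2 + 1) ≤ 2 * (27 / 20 : ℝ) ^ (n + 2) := by
      intro n
      induction n with
      | zero => norm_num
      | succ n ih =>
        rw [show n + 1 + 2 = (n + 2) + 1 from rfl, pow_succ]
        push_cast
        have hn : (0 : ℝ) ≤ n := Nat.cast_nonneg n
        nlinarith
    match h with
    | 0 => norm_num
    | 1 => norm_num
    | n + 2 => have := this n; push_cast; push_cast at this; linarith
  have h2 : Real.exp (-((h : ℝ) + 5)) = (Real.exp (-1)) ^ h * Real.exp (-5) := by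
    rw [← Real.exp_nat_mul, ← Real.exp_add]; congr 1; ring
  have h3 : Real.exp (-1) ≤ 10 / 27 := by
    rw [Real.exp_neg, inv_le_comm₀ (Real.exp_pos _) (by norm_num)]
    have := Real.exp_one_gt_d9
    norm_num
    linarith
  have h4 : Real.exp (-5) ≤ (10 / 27) ^ 5 := by
    have : Real.exp (-5) = Real.exp (-1) ^ 5 := by
      rw [← Real.exp_nat_mul]; norm_num
    rw [this]
    exact pow_le_pow_left₀ (Real.exp_pos _).le h3 5
  have h5 : (Real.exp (-1)) ^ h ≤ (10 / 27 : ℝ) ^ h := pow_le_pow_left₀ (Real.exp_pos _).le h3 h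
  have h6 : √2 ≤ 3 / 2 := by
    rw [Real.sqrt_le_left (by norm_num)]; norm_num
  have hz' : (zc : ℝ) ≤ 2 := by exact_mod_cast hz
  have hp1 : (0 : ℝ) < 2 ^ h := by positivity
  have hp2 : (0 : ℝ) < (20 / 27 : ℝ) ^ h := by positivity
  have e1 : (2 : ℝ) ^ h * (10 / 27) ^ h = (20 / 27) ^ h := by rw [← mul_pow]; norm_num
  have e2 : (27 / 20 : ℝ) ^ h * (20 / 27) ^ h = 1 := by rw [← mul_pow]; norm_num
  have e3 : (20 / 27 : ℝ) ^ h ≤ 1 := pow_le_one₀ (by norm_num) (by norm_num)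
  have hh : (0 : ℝ) ≤ (h : ℝ) + 1 := by positivity
  have A1 : (2 : ℝ) ^ h + zc * ((h + 1) * 2 ^ h) ≤ (1 + 2 * (h + 1)) * 2 ^ h := by
    have : (zc : ℝ) * ((h + 1) * 2 ^ h) ≤ 2 * ((h + 1) * 2 ^ h) :=
      mul_le_mul_of_nonneg_right hz' (by positivity)
    nlinarith
  have A2 : √2 * Real.exp (-((h : ℝ) + 5)) ≤ 3 / 2 * ((10 / 27) ^ h * (10 / 27) ^ 5) := by
    rw [h2]
    apply mul_le_mul h6 (mul_le_mul h5 h4 (Real.exp_pos _).le (by positivity)) (by positivity)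
      (by norm_num)
  refine (mul_le_mul A1 A2 (by positivity) (by positivity)).trans ?_
  have A3 : (1 + 2 * ((h : ℝ) + 1)) * 2 ^ h * (3 / 2 * ((10 / 27) ^ h * (10 / 27) ^ 5)) =
      ((20 / 27) ^ h + 2 * ((h + 1) * (20 / 27) ^ h)) * (3 / 2 * (10 / 27) ^ 5) := by
    rw [← e1]; ring
  rw [A3]
  have A4 : ((h : ℝ) + 1) * (20 / 27) ^ h ≤ 2 := by
    calc _ ≤ 2 * (27 / 20 : ℝ) ^ h * (20 / 27) ^ h := mul_le_mul_of_nonneg_right h1 hp2.le
      _ = 2 := by rw [mul_assoc, e2, mul_one]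
  have A5 : (20 / 27 : ℝ) ^ h + 2 * (((h : ℝ) + 1) * (20 / 27) ^ h) ≤ 5 := by linarith
  refine (mul_le_mul_of_nonneg_right A5 (by norm_num)).trans ?_
  norm_num

lemma K0_pos : 0 < K0 := by unfold K0; norm_num

theorem arr_step {h : ℕ} (hh : 1 ≤ h) {w : κ → X → ℝ} (hw : ∀ i, ∑ k, w i k ^ 2 ≤ 1)
    {S : C → Finset X} {ρx : C → ℝ} (hρx : ∀ s, 0 < ρx s) {F1 : R → κ → ℝ} {ρ1 : ℝ}
    (hρ1 : 0 < ρ1) (h1 : ∑ r, ∑ i, F1 r i ^ 2 ≤ 4 / 25 * ρ1 ^ 2 / (K0 * (h + 5)))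
    {F2 : Z → R → κ → ℝ} {ρ2 : Z → ℝ} (hρ2 : ∀ z, 0 < ρ2 z)
    (h2 : ∀ z, ∀ M : ℝ, 1 ≤ M → ∀ b ≤ h, ∀ u : κ → ℝ, (∀ i, u i = 0 ∨ u i = 1) →
      RN (F2 z) (fun i => u i - (2 : ℝ) ^ b / 2 ^ h) ≤ M * ρ2 z * √2 ^ b →
      ∑ r, ∑ i, (u i * F2 z r i) ^ 2 ≤ 4 / 25 * (M * ρ2 z * √2 ^ b) ^ 2 / (K0 * (h + 5)))
    (hZ : Fintype.card Z ≤ 2)
    (hsum : ∑ s, (2 : ℝ) ^ h * ((2 : ℝ) ^ (((S s).card : ℝ) / 2) *
      Real.exp (-(4 / 25 * ρx s ^ 2) / K0)) ≤ 1 / 4)
    {M : ℝ} (hM : 1 ≤ M) {c : κ → ℕ} (hc : Bd h w S ρx F1 ρ1 F2 ρ2 c M) :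
    ∃ c' : κ → ℕ, Bd h w S ρx F1 ρ1 F2 ρ2 c' (99 / 100 * M) := by
  have hK := K0_pos
  have hM0 : 0 < M := by linarith
  have hh5 : (0 : ℝ) < (h : ℝ) + 5 := by positivity
  have hKh : 0 < K0 * ((h : ℝ) + 5) := mul_pos hK hh5
  have hs2 : ∀ b : ℕ, 0 < √2 ^ b := fun b => by positivity
  have h2h : 2 ^ h = 2 * 2 ^ (h - 1) := by rw [← pow_succ']; congr 1; omega
  obtain ⟨ε, hε, hex, hey⟩ := signs (ι := κ) (X := X) (C1 := C × Fin (2 ^ h))
    (C2 := Fin (2 ^ h) ⊕ (Z × Fin (h + 1) × Fin (2 ^ h))) (R := R) w hw (fun _ => 0) (by simp) c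
    (fun p => 2 * (p.2 : ℕ)) (fun p => S p.1) (fun p => (2 / 5 * (M * ρx p.1)) ^ 2)
    (Sum.elim (fun m r i => ip (c i) (2 * (m : ℕ)) * F1 r i)
      (fun p r i => if (p.2.2 : ℕ) < 2 ^ (h - (p.2.1 : ℕ)) then
        idy (c i) (p.2.1 : ℕ) (p.2.2 : ℕ) * F2 p.1 r i else 0))
    (Sum.elim (fun _ => 4 / 25 * ρ1 ^ 2 / (K0 * (h + 5)))
      (fun p => 4 / 25 * (M * ρ2 p.1 * √2 ^ (p.2.1 : ℕ)) ^ 2 / (K0 * (h + 5))))
    (fun _ => (h : ℝ) + 5)
    (by
      rintro (m | ⟨z, b, j⟩)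
      · simp only [Sum.elim_inl]; positivity
      · simp only [Sum.elim_inr]
        have := hρ2 z
        positivity)
    (by
      rintro (m | ⟨z, b, j⟩)
      · simp only [Sum.elim_inl]
        refine le_trans (sum_le_sum fun r _ => sum_le_sum fun i _ => ?_) h1
        rcases ip_01 (c i) (2 * (m : ℕ)) with h | h <;> rw [h]
        · nlinarith [sq_nonneg (F1 r i)]
        · rw [one_mul]
      · simp only [Sum.elim_inr]
        by_cases hj : (j : ℕ) < 2 ^ (h - (b : ℕ))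
        · simp only [if_pos hj]
          exact h2 z M hM b (by omega) (fun i => idy (c i) b j) (fun i => idy_01 _ _ _)
            (hc.y2 z b (by omega) j hj)
        · simp only [if_neg hj]
          have := hρ2 z
          simp only [ne_eq, OfNat.ofNat_ne_zero, not_false_eq_true, zero_pow, sum_const_zero]
          positivity)
    (by
      have t1 : ∑ p : C × Fin (2 ^ h), (2 : ℝ) ^ (((S p.1).card : ℝ) / 2) *
          Real.exp (-((2 / 5 * (M * ρx p.1)) ^ 2) / K0) ≤ 1 / 4 := by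
        rw [Fintype.sum_prod_type]
        refine le_trans (sum_le_sum fun s _ => ?_) hsum
        simp only [sum_const, card_univ, Fintype.card_fin, nsmul_eq_mul]
        push_cast
        apply mul_le_mul_of_nonneg_left _ (by positivity)
        apply mul_le_mul_of_nonneg_left _ (by positivity)
        apply Real.exp_le_exp.mpr
        apply div_le_div_of_nonneg_right _ hK.le
        have := hρx s
        have h3 : ρx s ^ 2 ≤ (M * ρx s) ^ 2 := by
          apply pow_le_pow_left₀ this.le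
          nlinarith
        nlinarith
      have t2 : ∑ _p : Fin (2 ^ h) ⊕ (Z × Fin (h + 1) × Fin (2 ^ h)),
          √2 * Real.exp (-((h : ℝ) + 5)) ≤ 1 / 4 := by
        simp only [sum_const, card_univ, Fintype.card_sum, Fintype.card_prod, Fintype.card_fin,
          nsmul_eq_mul]
        have := count_bound h hZ
        push_cast
        push_cast at this
        exact this
      linarith)
  simp only [sub_zero] at hex hey
  -- consequences
  have sx : ∀ m : ℕ, 2 * m ≤ 2 ^ h → ∀ s,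
      RN (FX w (S s)) (fun i => ε i * ip (c i) (2 * m)) ≤ 2 / 5 * (M * ρx s) := by
    intro m hm s
    have hp : 0 < 2 ^ (h - 1) := by positivity
    have hm' : m < 2 ^ h := by omega
    have h3 := hex (s, ⟨m, hm'⟩)
    have := hρx s
    apply abs_le_of_sq_le_sq' _ (by positivity) |>.2
    rw [RN_FX_sq]
    refine le_trans (le_of_eq ?_) h3
    refine sum_congr rfl fun k _ => ?_
    congr 1
    rw [sum_filter]
    refine sum_congr rfl fun i _ => ?_
    unfold ip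
    split_ifs <;> simp
  have sy1 : ∀ m : ℕ, 2 * m ≤ 2 ^ h →
      RN F1 (fun i => ε i * ip (c i) (2 * m)) ≤ 2 / 5 * (M * ρ1) := by
    intro m hm
    have hp : 0 < 2 ^ (h - 1) := by positivity
    have hm' : m < 2 ^ h := by omega
    have h3 := hey (Sum.inl ⟨m, hm'⟩)
    simp only [Sum.elim_inl] at h3
    apply abs_le_of_sq_le_sq' _ (by positivity) |>.2
    rw [RN_sq]
    have e : K0 * ((h : ℝ) + 5) * (4 / 25 * ρ1 ^ 2 / (K0 * (h + 5))) = 4 / 25 * ρ1 ^ 2 := by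
      field_simp
    rw [e] at h3
    have h4 : ρ1 ^ 2 ≤ (M * ρ1) ^ 2 := by
      apply pow_le_pow_left₀ hρ1.le
      nlinarith
    have h5 : ∑ r, (∑ i, ε i * ip (c i) (2 * m) * F1 r i) ^ 2 ≤ 4 / 25 * ρ1 ^ 2 := by
      refine le_trans (le_of_eq ?_) h3
      refine sum_congr rfl fun r _ => ?_
      congr 1
      exact sum_congr rfl fun i _ => by ring
    nlinarith
  have sy2 : ∀ z, ∀ b ≤ h, ∀ j < 2 ^ (h - b),
      RN (F2 z) (fun i => ε i * idy (c i) b j) ≤ 2 / 5 * (M * ρ2 z * √2 ^ b) := by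
    intro z b hb j hj
    have hb' : b < h + 1 := by omega
    have hj' : j < 2 ^ h := lt_of_lt_of_le hj (Nat.pow_le_pow_right (by norm_num) (by omega))
    have h3 := hey (Sum.inr (z, ⟨b, hb'⟩, ⟨j, hj'⟩))
    simp only [Sum.elim_inr, if_pos hj] at h3
    have := hρ2 z
    have := hs2 b
    apply abs_le_of_sq_le_sq' _ (by positivity) |>.2
    rw [RN_sq]
    have e : K0 * ((h : ℝ) + 5) * (4 / 25 * (M * ρ2 z * √2 ^ b) ^ 2 / (K0 * (h + 5))) =
        (2 / 5 * (M * ρ2 z * √2 ^ b)) ^ 2 := by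
      field_simp
      ring
    rw [e] at h3
    refine le_trans (le_of_eq ?_) h3
    refine sum_congr rfl fun r _ => ?_
    congr 1
    exact sum_congr rfl fun i _ => by ring
  refine ⟨fun i => ucell h (c i) (ε i), fun i => ucell_lt (hc.lt i) _, ?_, ?_, ?_⟩
  · intro m hm s
    have := hρx s
    have hMρ : 0 ≤ M * ρx s := by positivity
    by_cases hm2 : 2 * m ≤ 2 ^ h
    · have h3 := RN_comb (FX w (S s)) (s := 1) (t := 1) (by simp) (by simp)
        (fun i => ip (ucell h (c i) (ε i)) m - (m : ℝ) / 2 ^ h)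
        (fun i => ip (c i) (2 * m) - ((2 * m : ℕ) : ℝ) / 2 ^ h)
        (fun i => ε i * ip (c i) (2 * m)) (fun i => ip_ucell_lo hh (hc.lt i) (hε i) hm2)
      have h4 := hc.x (2 * m) hm2 s
      have h5 := sx m hm2 s
      linarith
    · have h3 := RN_comb (FX w (S s)) (s := -1) (t := 1) (by simp) (by simp)
        (fun i => ip (ucell h (c i) (ε i)) m - (m : ℝ) / 2 ^ h)
        (fun i => ip (c i) (2 * (2 ^ h - m)) - ((2 * (2 ^ h - m) : ℕ) : ℝ) / 2 ^ h)
        (fun i => ε i * ip (c i) (2 * (2 ^ h - m)))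
        (fun i => ip_ucell_hi hh (hc.lt i) (hε i) (by omega) hm)
      have h4 := hc.x (2 * (2 ^ h - m)) (by omega) s
      have h5 := sx (2 ^ h - m) (by omega) s
      linarith
  · intro m hm
    have hMρ : 0 ≤ M * ρ1 := by positivity
    by_cases hm2 : 2 * m ≤ 2 ^ h
    · have h3 := RN_comb F1 (s := 1) (t := 1) (by simp) (by simp)
        (fun i => ip (ucell h (c i) (ε i)) m - (m : ℝ) / 2 ^ h)
        (fun i => ip (c i) (2 * m) - ((2 * m : ℕ) : ℝ) / 2 ^ h)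
        (fun i => ε i * ip (c i) (2 * m)) (fun i => ip_ucell_lo hh (hc.lt i) (hε i) hm2)
      have h4 := hc.y1 (2 * m) hm2
      have h5 := sy1 m hm2
      linarith
    · have h3 := RN_comb F1 (s := -1) (t := 1) (by simp) (by simp)
        (fun i => ip (ucell h (c i) (ε i)) m - (m : ℝ) / 2 ^ h)
        (fun i => ip (c i) (2 * (2 ^ h - m)) - ((2 * (2 ^ h - m) : ℕ) : ℝ) / 2 ^ h)
        (fun i => ε i * ip (c i) (2 * (2 ^ h - m)))
        (fun i => ip_ucell_hi hh (hc.lt i) (hε i) (by omega) hm)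
      have h4 := hc.y1 (2 * (2 ^ h - m)) (by omega)
      have h5 := sy1 (2 ^ h - m) (by omega)
      linarith
  · intro z b hb j hj
    have := hρ2 z
    have hsb := hs2 b
    have hMρ : 0 ≤ M * ρ2 z * √2 ^ b := by positivity
    rcases hb.eq_or_lt with hbh | hbh
    · subst hbh
      have hj0 : j = 0 := by
        rw [Nat.sub_self, pow_zero] at hj
        omega
      subst hj0
      have e : (fun i => idy (ucell b (c i) (ε i)) b 0 - (2 : ℝ) ^ b / 2 ^ b) = fun _ => 0 := by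
        funext i
        have h3 := ucell_lt (hc.lt i) (ε i)
        unfold idy
        rw [if_pos (by constructor <;> omega)]
        rw [div_self (by positivity)]
        ring
      rw [e]
      have e2 : RN (F2 z) (fun _ => 0) = 0 := by unfold RN; simp
      rw [e2]
      linarith
    · obtain ⟨j', hj', t, ht, hid⟩ := idy_ucell hbh hj
      have h3 := RN_comb (F2 z) (s := 1) (t := t) (by simp) ht
        (fun i => idy (ucell h (c i) (ε i)) b j - (2 : ℝ) ^ b / 2 ^ h)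
        (fun i => idy (c i) (b + 1) j' - (2 : ℝ) ^ (b + 1) / 2 ^ h)
        (fun i => ε i * idy (c i) (b + 1) j') (fun i => hid (c i) (ε i) (hc.lt i) (hε i))
      have h4 := hc.y2 z (b + 1) hbh j' hj'
      have h5 := sy2 z (b + 1) hbh j' hj'
      have h6 : √2 ≤ 1.41422 := by
        rw [Real.sqrt_le_left (by norm_num)]; norm_num
      have e : √2 ^ (b + 1) = √2 ^ b * √2 := pow_succ _ _
      rw [e] at h4 h5
      have h7 : M * ρ2 z * (√2 ^ b * √2) ≤ M * ρ2 z * √2 ^ b * 1.41422 := by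
        rw [← mul_assoc]
        exact mul_le_mul_of_nonneg_left h6 hMρ
      linarith

end step

end Vale.Agent.P262F
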