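import Vale.Agent.P262F.M4Fam

/-! The union bound for the nested linear constraints -/

namespace Vale.Agent.P262F
open Finset

lemma term_bound (h c g : ℕ) (hc : c ≤ g) :
    (2 : ℝ) ^ h * ((2 : ℝ) ^ ((c : ℝ) / 2) *
      Real.exp (-(4 / 25 * √(7 * K0 * (g + h + 5)) ^ 2) / K0)) ≤ (5 / 9) ^ g * (10 / 27) ^ 5 := by
  have hK := K0_pos
  rw [Real.sq_sqrt (by positivity)]
  have h6 : √2 ≤ 3 / 2 := by
    rw [Real.sqrt_le_left (by norm_num)]; norm_num
  have h1 : (2 : ℝ) ^ ((c : ℝ) / 2) ≤ (3 / 2) ^ g := by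
    have e : (2 : ℝ) ^ ((c : ℝ) / 2) = √2 ^ c := by
      rw [Real.sqrt_eq_rpow, ← Real.rpow_natCast ((2 : ℝ) ^ ((1 : ℝ) / 2)) c,
        ← Real.rpow_mul (by norm_num)]
      congr 1; ring
    rw [e]
    calc √2 ^ c ≤ (3 / 2) ^ c := pow_le_pow_left₀ (by positivity) h6 c
      _ ≤ (3 / 2) ^ g := pow_le_pow_right₀ (by norm_num) hc
  have h3 : Real.exp (-1) ≤ 10 / 27 := by
    rw [Real.exp_neg, inv_le_comm₀ (Real.exp_pos _) (by norm_num)]
    have := Real.exp_one_gt_d9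
    norm_num
    linarith
  have h2 : Real.exp (-(4 / 25 * (7 * K0 * (g + h + 5))) / K0) ≤ (10 / 27) ^ (g + h + 5) := by
    have e1 : -(4 / 25 * (7 * K0 * ((g : ℝ) + h + 5))) / K0 = -(28 / 25 * ((g : ℝ) + h + 5)) := by
      field_simp
      ring
    rw [e1]
    have e2 : Real.exp (-((g : ℝ) + h + 5)) = Real.exp (-1) ^ (g + h + 5) := by
      rw [← Real.exp_nat_mul]; push_cast; congr 1; ring
    calc Real.exp (-(28 / 25 * ((g : ℝ) + h + 5))) ≤ Real.exp (-((g : ℝ) + h + 5)) := by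
          apply Real.exp_le_exp.mpr
          have : (0 : ℝ) ≤ (g : ℝ) + h + 5 := by positivity
          linarith
      _ = Real.exp (-1) ^ (g + h + 5) := e2
      _ ≤ _ := pow_le_pow_left₀ (Real.exp_pos _).le h3 _
  calc _ ≤ (2 : ℝ) ^ h * ((3 / 2) ^ g * (10 / 27) ^ (g + h + 5)) := by
        apply mul_le_mul_of_nonneg_left _ (by positivity)
        exact mul_le_mul h1 h2 (Real.exp_pos _).le (by positivity)
    _ = (5 / 9) ^ g * (20 / 27) ^ h * (10 / 27) ^ 5 := by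
        rw [pow_add, pow_add]
        have e1 : (5 / 9 : ℝ) ^ g = (3 / 2) ^ g * (10 / 27) ^ g := by rw [← mul_pow]; norm_num
        have e2 : (20 / 27 : ℝ) ^ h = 2 ^ h * (10 / 27) ^ h := by rw [← mul_pow]; norm_num
        rw [e1, e2]; ring
    _ ≤ (5 / 9) ^ g * 1 * (10 / 27) ^ 5 := by
        apply mul_le_mul_of_nonneg_right _ (by positivity)
        apply mul_le_mul_of_nonneg_left _ (by positivity)
        exact pow_le_one₀ (by norm_num) (by norm_num)
    _ = _ := by ring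

lemma geom_bd (n : ℕ) : ∑ m : Fin n, (5 / 9 : ℝ) ^ (m : ℕ) ≤ 9 / 4 := by
  have h : ∀ n : ℕ, ∑ m ∈ range n, (5 / 9 : ℝ) ^ m = 9 / 4 - 9 / 4 * (5 / 9) ^ n := by
    intro n
    induction n with
    | zero => norm_num
    | succ n ih => rw [sum_range_succ, ih, pow_succ]; ring
  rw [Fin.sum_univ_eq_sum_range (fun m => (5 / 9 : ℝ) ^ m) n, h]
  have : (0 : ℝ) < (5 / 9) ^ n := by positivity
  linarith

section nested
variable {d : ℕ}

open Classical in
/-- the nested family -/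
noncomputable def Sm (a : Fin d → ℝ) (t m : ℕ) : Finset (Fin d) :=
  if hθ : ∃ θ, nn a t θ = m then (rich a t).filter (fun k => a k ≤ hθ.choose) else ∅

lemma card_Sm (a : Fin d → ℝ) (t m : ℕ) : (Sm a t m).card ≤ m := by
  unfold Sm
  split_ifs with hθ
  · exact hθ.choose_spec.le
  · simp

lemma nn_le (a : Fin d → ℝ) (t : ℕ) (θ : ℝ) : nn a t θ < d + 1 := by
  unfold nn
  have := card_le_univ ((rich a t).filter (fun k => a k ≤ θ))
  rw [Fintype.card_fin] at this
  omega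

lemma Sm_eq (a : Fin d → ℝ) (t : ℕ) (θ : ℝ) :
    Sm a t (nn a t θ) = (rich a t).filter (fun k => a k ≤ θ) := by
  have hex : ∃ θ', nn a t θ' = nn a t θ := ⟨θ, rfl⟩
  unfold Sm
  rw [dif_pos hex]
  have hc := hex.choose_spec
  rcases le_total hex.choose θ with h | h
  · apply eq_of_subset_of_card_le
    · intro k hk
      rw [mem_filter] at hk ⊢
      exact ⟨hk.1, hk.2.trans h⟩
    · exact hc.ge
  · symm
    apply eq_of_subset_of_card_le
    · intro k hk
      rw [mem_filter] at hk ⊢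
      exact ⟨hk.1, hk.2.trans h⟩
    · exact hc.le

/-- the sets of the linear constraints -/
noncomputable def SC (a : Fin d → ℝ) (t : ℕ) (G : Finset (Fin d)) (s : Option (Fin (d + 1))) :
    Finset (Fin d) :=
  match s with
  | none => G
  | some m => Sm a t m

/-- the radii of the linear constraints -/
noncomputable def rC (G : Finset (Fin d)) (h : ℕ) (s : Option (Fin (d + 1))) : ℝ :=
  match s with
  | none => √(7 * K0 * (G.card + h + 5))
  | some m => √(7 * K0 * ((m : ℕ) + h + 5))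

lemma rC_pos (G : Finset (Fin d)) (h : ℕ) (s : Option (Fin (d + 1))) : 0 < rC G h s := by
  have hK := K0_pos
  cases s with
  | none => unfold rC; positivity
  | some m => unfold rC; positivity

lemma hsum_bd (a : Fin d → ℝ) (t : ℕ) (G : Finset (Fin d)) (h : ℕ) :
    ∑ s, (2 : ℝ) ^ h * ((2 : ℝ) ^ (((SC a t G s).card : ℝ) / 2) *
      Real.exp (-(4 / 25 * rC G h s ^ 2) / K0)) ≤ 1 / 4 := by
  rw [Fintype.sum_option]
  have h1 := term_bound h G.card G.card le_rfl
  have h2 : ∑ m : Fin (d + 1), (2 : ℝ) ^ h * ((2 : ℝ) ^ (((SC a t G (some m)).card : ℝ) / 2) *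
      Real.exp (-(4 / 25 * rC G h (some m) ^ 2) / K0)) ≤ 9 / 4 * (10 / 27) ^ 5 := by
    calc _ ≤ ∑ m : Fin (d + 1), (5 / 9 : ℝ) ^ (m : ℕ) * (10 / 27) ^ 5 :=
          sum_le_sum fun m _ => term_bound h _ m (card_Sm a t m)
      _ = (∑ m : Fin (d + 1), (5 / 9 : ℝ) ^ (m : ℕ)) * (10 / 27) ^ 5 := by rw [sum_mul]
      _ ≤ _ := mul_le_mul_of_nonneg_right (geom_bd _) (by positivity)
  have h3 : (5 / 9 : ℝ) ^ G.card * (10 / 27) ^ 5 ≤ 1 * (10 / 27) ^ 5 :=
    mul_le_mul_of_nonneg_right (pow_le_one₀ (by norm_num) (by norm_num)) (by positivity)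
  have h4 : (1 : ℝ) * (10 / 27) ^ 5 + 9 / 4 * (10 / 27) ^ 5 ≤ 1 / 4 := by norm_num
  have h5 := h1.trans h3
  refine le_trans (add_le_add ?_ h2) h4
  exact h5

end nested

end Vale.Agent.P262F
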