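import Vale.Agent.P262F.State
import Vale.Agent.P262F.OrdL
import Vale.Agent.P262F.Good
import Vale.Agent.P262F.QLem

/-! Definitions for the states at the start and at the end of an episode -/

namespace Vale.Agent.P262F
open Finset

variable {ι : Type*} [DecidableEq ι] {d : ℕ} {a : Fin d → ℝ} {J : ℕ → ℕ}

/-- start level of episode `e` -/
def lv0 (J : ℕ → ℕ) : ℕ → ℕ
  | 0 => 0
  | e + 1 => J e

/-- coordinates of generation at least `e` -/
noncomputable def Rs (a : Fin d → ℝ) (J : ℕ → ℕ) (e : ℕ) : Finset (Fin d) :=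
  univ.filter (fun k => e ≤ gi a J k)

/-- old coordinates, of generation `< e` -/
noncomputable def Old (a : Fin d → ℝ) (J : ℕ → ℕ) (e : ℕ) : Finset (Fin d) :=
  univ.filter (fun k => gi a J k < e)

/-- state at the start of episode `e`, before generation `e` leaves the potential -/
structure Inv (a : Fin d → ℝ) (J : ℕ → ℕ) (e : ℕ) (Θ : ℝ) (v : ι → Fin d → ℝ) (A : Finset ι)
    (xl : Fin d → ℝ) (b : ℕ → ℝ) : Prop where
  unit : ∀ i ∈ A, ∑ k, v i k ^ 2 ≤ 1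
  diag : ∀ k ∈ Rs a J e, MM v A k k ≤ 3 / 2 * mu a (lv0 J e) k
  Q : QQ a v (lv0 J e) (rich a (J e)) A ≤ 1 / 4
  ent : ∀ i ∈ A, ∑ k with gi a J k < e, (be ^ (e - gi a J k) * v i k) ^ 2 ≤ be ^ 2
  Eold : EE v (Old a J e) (fun k => be ^ (e - gi a J k)) A ≤ be ^ 2 * 28000 ^ 2
  ph : PH a (Rs a J e) (lv0 J e) xl (fun k => xl k + ∑ i ∈ A, v i k) Θ
  bl : ∀ c < e, nrm (gen a J c) xl ≤ b c
  br : ∀ c < e, nrm (gen a J c) (fun k => xl k + ∑ i ∈ A, v i k) ≤ b c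

/-- state at the start of episode `e`, after generation `e` has left the potential -/
structure Rst (a : Fin d → ℝ) (J : ℕ → ℕ) (e : ℕ) (Θ : ℝ) (v : ι → Fin d → ℝ) (A : Finset ι)
    (xl : Fin d → ℝ) (b : ℕ → ℝ) : Prop where
  unit : ∀ i ∈ A, ∑ k, v i k ^ 2 ≤ 1
  diag : ∀ k ∈ gen a J e, MM v A k k ≤ 3 / 2 * mu a (lv0 J e) k
  Q : QQ a v (lv0 J e) (rich a (J e)) A ≤ 1 / 4
  ent : ∀ i ∈ A, ∑ k with gi a J k < e, (be ^ (e - gi a J k) * v i k) ^ 2 ≤ be ^ 2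
  Eold : EE v (Old a J e) (fun k => be ^ (e - gi a J k)) A ≤ be ^ 2 * 28000 ^ 2
  ph : PH a (rich a (J e)) (lv0 J e) xl (fun k => xl k + ∑ i ∈ A, v i k) Θ
  bl : ∀ c ≤ e, nrm (gen a J c) xl ≤ b c
  br : ∀ c ≤ e, nrm (gen a J c) (fun k => xl k + ∑ i ∈ A, v i k) ≤ b c

/-- removal of the deep parts which are too long -/
noncomputable def trunc (a : Fin d → ℝ) (J : ℕ → ℕ) (e : ℕ) (v : ι → Fin d → ℝ) (i : ι) (k : Fin d) : ℝ :=
  open Classical in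
  if a k ≤ (J e : ℝ) ∧ 1 < ∑ l ∈ deep a (J e), (al a J e (J e) l * v i l) ^ 2 then 0 else v i k

end Vale.Agent.P262F
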