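import Vale.Agent.P262F.QLem

/-! The state of a block during an episode -/

namespace Vale.Agent.P262F
open Finset

variable {ι : Type*} [DecidableEq ι] {d : ℕ}

/-- generation index of the coordinate `k`: the least `c` with `a_k ≤ J c` -/
noncomputable def gi (a : Fin d → ℝ) (J : ℕ → ℕ) (k : Fin d) : ℕ := sInf {c : ℕ | a k ≤ (J c : ℝ)}

/-- generation `c` -/
noncomputable def gen (a : Fin d → ℝ) (J : ℕ → ℕ) (c : ℕ) : Finset (Fin d) :=
  univ.filter (fun k => gi a J k = c)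

/-- weight ratio -/
noncomputable def be : ℝ := 26 / 25

/-- weights of the deep coordinates in episode `e` at level `L` -/
noncomputable def al (a : Fin d → ℝ) (J : ℕ → ℕ) (e L : ℕ) (k : Fin d) : ℝ :=
  if gi a J k < e then be ^ (e - gi a J k)
  else if (L : ℝ) < a k then mu a L k ^ (-(3 / 8) : ℝ) else 1

/-- energy bound for the level with `i` steps to go: `√w_i = 13000 + 15000 · 2^(-i/8)` -/
noncomputable def ww (i : ℕ) : ℝ := (13000 + 15000 * (2 : ℝ) ^ (-(i : ℝ) / 8)) ^ 2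

/-- state of the block `A` (vectors `v`, starting point `xl`) at level `L` of episode `e` -/
structure Hst (a : Fin d → ℝ) (J : ℕ → ℕ) (e L : ℕ) (Θ : ℝ) (v : ι → Fin d → ℝ) (A : Finset ι)
    (xl : Fin d → ℝ) (b : ℕ → ℝ) : Prop where
  unit : ∀ i ∈ A, ∑ k, v i k ^ 2 ≤ 1
  Q : QQ a v L (rich a (J e)) A ≤ 1 / 4
  ent : ∀ i ∈ A, ∑ k with gi a J k < e, (be ^ (e - gi a J k) * v i k) ^ 2 ≤ be ^ 2
  En : EE v (deep a (J e)) (al a J e L) A ≤ ww (J e - L) * (2 : ℝ) ^ (((J e : ℝ) - L) / 4)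
  ph : PH a (rich a (J e)) L xl (fun k => xl k + ∑ i ∈ A, v i k) Θ
  bl : ∀ c ≤ e, nrm (gen a J c) xl ≤ b c
  br : ∀ c ≤ e, nrm (gen a J c) (fun k => xl k + ∑ i ∈ A, v i k) ≤ b c

section basics

variable {a : Fin d → ℝ} {J : ℕ → ℕ}

lemma exists_le_J (hJ : StrictMono J) (x : ℝ) : ∃ c, x ≤ (J c : ℝ) := by
  obtain ⟨n, hn⟩ := exists_nat_ge x
  exact ⟨n, hn.trans (by exact_mod_cast hJ.le_apply)⟩

lemma gi_le_iff (hJ : StrictMono J) (k : Fin d) (c : ℕ) : gi a J k ≤ c ↔ a k ≤ (J c : ℝ) := by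
  have hne : {c : ℕ | a k ≤ (J c : ℝ)}.Nonempty := exists_le_J hJ _
  constructor
  · intro h
    have := Nat.sInf_mem hne
    exact le_trans this (by exact_mod_cast hJ.monotone h)
  · intro h
    exact Nat.sInf_le h

lemma lt_gi_iff (hJ : StrictMono J) (k : Fin d) (c : ℕ) : c < gi a J k ↔ (J c : ℝ) < a k := by
  rw [← not_le, gi_le_iff hJ, not_le]

lemma mem_rich {t : ℕ} {k : Fin d} : k ∈ rich a t ↔ (t : ℝ) < a k := by simp [rich]

lemma mem_deep {t : ℕ} {k : Fin d} : k ∈ deep a t ↔ a k ≤ (t : ℝ) := by simp [deep]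

lemma mem_gen {c : ℕ} {k : Fin d} : k ∈ gen a J c ↔ gi a J k = c := by simp [gen]

lemma rich_eq (hJ : StrictMono J) (e : ℕ) : rich a (J e) = univ.filter (fun k => e + 1 ≤ gi a J k) := by
  ext k
  simp [rich, lt_gi_iff hJ]

lemma deep_eq (hJ : StrictMono J) (e : ℕ) : deep a (J e) = univ.filter (fun k => gi a J k ≤ e) := by
  ext k
  simp [deep, gi_le_iff hJ]

lemma be_pos : (0 : ℝ) < be := by norm_num [be]

lemma al_pos (e L : ℕ) (k : Fin d) : 0 < al a J e L k := by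
  unfold al
  split_ifs
  · exact pow_pos be_pos _
  · exact Real.rpow_pos_of_pos (mu_pos a L k) _
  · norm_num

lemma al_le_one {e L : ℕ} {k : Fin d} (h : ¬ gi a J k < e) : al a J e L k ≤ 1 := by
  unfold al
  rw [if_neg h]
  split_ifs with h1
  · apply Real.rpow_le_one_of_one_le_of_nonpos _ (by norm_num)
    apply Real.one_le_rpow (by norm_num)
    linarith
  · exact le_rfl

/-- entries of the weighted deep parts are at most `3` -/
lemma ent3 (hJ : StrictMono J) {e L : ℕ} {x : Fin d → ℝ} (h1 : ∑ k, x k ^ 2 ≤ 1)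
    (h2 : ∑ k with gi a J k < e, (be ^ (e - gi a J k) * x k) ^ 2 ≤ be ^ 2) :
    ∑ k ∈ deep a (J e), (al a J e L k * x k) ^ 2 ≤ 3 := by
  rw [← Finset.sum_filter_add_sum_filter_not (deep a (J e)) (fun k => gi a J k < e)]
  have e1 : ∑ k ∈ (deep a (J e)).filter (fun k => gi a J k < e), (al a J e L k * x k) ^ 2 ≤ be ^ 2 := by
    refine le_trans ?_ h2
    refine le_trans (le_of_eq (Finset.sum_congr rfl fun k hk => ?_))
      (Finset.sum_le_sum_of_subset_of_nonneg
        (Finset.filter_subset_filter _ (Finset.subset_univ _)) fun _ _ _ => sq_nonneg _)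
    have := (Finset.mem_filter.mp hk).2
    simp [al, this]
  have e2 : ∑ k ∈ (deep a (J e)).filter (fun k => ¬ gi a J k < e), (al a J e L k * x k) ^ 2 ≤ 1 := by
    refine le_trans ?_ h1
    refine le_trans (Finset.sum_le_sum fun k hk => ?_)
      (Finset.sum_le_sum_of_subset_of_nonneg (Finset.subset_univ
        ((deep a (J e)).filter (fun k => ¬ gi a J k < e))) fun _ _ _ => sq_nonneg _)
    have h3 := (Finset.mem_filter.mp hk).2
    have h4 := al_le_one (a := a) (J := J) (L := L) h3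
    have h5 := (al_pos (a := a) (J := J) e L k).le
    rw [mul_pow]
    have : al a J e L k ^ 2 ≤ 1 := by nlinarith
    nlinarith [sq_nonneg (x k)]
  have : be ^ 2 ≤ (2 : ℝ) := by norm_num [be]
  linarith

lemma nrm_add_le (S : Finset (Fin d)) (x y : Fin d → ℝ) :
    nrm S (fun k => x k + y k) ≤ nrm S x + nrm S y := by
  unfold nrm
  have hx : 0 ≤ ∑ k ∈ S, x k ^ 2 := Finset.sum_nonneg fun _ _ => sq_nonneg _
  have hy : 0 ≤ ∑ k ∈ S, y k ^ 2 := Finset.sum_nonneg fun _ _ => sq_nonneg _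
  rw [Real.sqrt_le_left (by positivity)]
  have hcs : ∑ k ∈ S, x k * y k ≤ √(∑ k ∈ S, x k ^ 2) * √(∑ k ∈ S, y k ^ 2) :=
    Real.sum_mul_le_sqrt_mul_sqrt _ _ _
  have e1 : ∑ k ∈ S, (x k + y k) ^ 2 = ∑ k ∈ S, x k ^ 2 + ∑ k ∈ S, y k ^ 2 + 2 * ∑ k ∈ S, x k * y k := by
    rw [Finset.mul_sum, ← Finset.sum_add_distrib, ← Finset.sum_add_distrib]
    exact Finset.sum_congr rfl fun _ _ => by ring
  rw [e1]
  nlinarith [Real.sq_sqrt hx, Real.sq_sqrt hy]

lemma nrm_nonneg (S : Finset (Fin d)) (x : Fin d → ℝ) : 0 ≤ nrm S x := Real.sqrt_nonneg _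

lemma nrm_smul (S : Finset (Fin d)) (x : Fin d → ℝ) {r : ℝ} (hr : 0 ≤ r) :
    nrm S (fun k => r * x k) = r * nrm S x := by
  unfold nrm
  have : ∑ k ∈ S, (r * x k) ^ 2 = r ^ 2 * ∑ k ∈ S, x k ^ 2 := by
    rw [Finset.mul_sum]
    exact Finset.sum_congr rfl fun _ _ => by ring
  rw [this, Real.sqrt_mul (sq_nonneg r), Real.sqrt_sq hr]

/-- the norm is at most `b` on the chord between two points of norm at most `b` -/
lemma nrm_chord (S : Finset (Fin d)) (x z : Fin d → ℝ) {b r : ℝ} (hr0 : 0 ≤ r) (hr1 : r ≤ 1)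
    (hx : nrm S x ≤ b) (hz : nrm S (fun k => x k + z k) ≤ b) :
    nrm S (fun k => x k + r * z k) ≤ b := by
  have e1 : (fun k => x k + r * z k) = fun k => (1 - r) * x k + r * (x k + z k) := by
    funext k
    ring
  rw [e1]
  refine (nrm_add_le S (fun k => (1 - r) * x k) (fun k => r * (x k + z k))).trans ?_
  rw [nrm_smul S x (by linarith), nrm_smul S (fun k => x k + z k) hr0]
  have h1 := mul_le_mul_of_nonneg_left hx (by linarith : 0 ≤ 1 - r)
  have h2 := mul_le_mul_of_nonneg_left hz hr0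
  linarith

end basics

end Vale.Agent.P262F
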