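import Vale.Agent.P262F.CoordF
import Vale.Agent.P262F.Eigen

/-! The norm form of the theorem -/

namespace Vale.Agent.P262F
open Finset

/-- every zero-sum family in the unit ball of `ℝ^d` can be ordered such that all partial sums have
norm at most `√CF · √d` -/
theorem steinitz_sqrt {d N : ℕ} (v : Fin N → EuclideanSpace ℝ (Fin d)) (hv : ∀ i, ‖v i‖ ≤ 1)
    (hsum : ∑ i, v i = 0) :
    ∃ π : Equiv.Perm (Fin N), ∀ n : ℕ, ‖∑ i : Fin N with i.val < n, v (π i)‖ ≤ √CF * √d := by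
  obtain ⟨π, hπ⟩ := steinitz_of_coord (M := CF * d)
    (fun u h1 h2 h3 => coordF_aux u h1 h2 h3) v hv hsum
  refine ⟨π, fun n => ?_⟩
  rw [← Real.sqrt_mul CF_pos.le]
  exact Real.le_sqrt_of_sq_le (hπ n)

end Vale.Agent.P262F
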